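import Vale.Agent.P216.T1.Final

/-!
# Passing to subgroups of finite index
-/

set_option linter.all false

open Set

namespace Vale.Agent.P216.T1

/-- `G` is a finite union of conjugates of cyclic groups `⟨a i⟩`, with the exponent controlled
by a subadditive function. -/
def SFCC (G : Type*) [Group G] : Prop :=
  ∃ (r : ℕ) (a : Fin r → G) (lam : G → ℝ), (∀ g h, lam (g * h) ≤ lam g + lam h) ∧
    ∀ g : G, ∃ i, ∃ k : ℤ, IsConj g (a i ^ k) ∧ |(k : ℝ)| ≤ lam g

theorem SFCC.of_fintype {G : Type*} [Group G] {ι : Type*} [Fintype ι] {a : ι → G} {lam : G → ℝ}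
    (hsub : ∀ g h, lam (g * h) ≤ lam g + lam h)
    (hcov : ∀ g : G, ∃ i, ∃ k : ℤ, IsConj g (a i ^ k) ∧ |(k : ℝ)| ≤ lam g) : SFCC G := by
  let e := Fintype.equivFin ι
  refine ⟨Fintype.card ι, fun i => a (e.symm i), lam, hsub, fun g => ?_⟩
  obtain ⟨i, k, h1, h2⟩ := hcov g
  exact ⟨e i, k, by simpa using h1, h2⟩

/-- The property passes to subgroups of finite index. -/
theorem SFCC.subgroup {G : Type*} [Group G] (h : SFCC G) (H : Subgroup G) [H.FiniteIndex] :
    SFCC H := by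
  classical
  obtain ⟨r, a, lam, hsub, hcov⟩ := h
  -- a generator of the intersection of `H` with a cyclic group
  have gen : ∀ b : G, ∃ c : H, ∀ k : ℤ, ∀ hk : b ^ k ∈ H, ∃ j : ℤ,
      (⟨b ^ k, hk⟩ : H) = c ^ j ∧ |j| ≤ |k| := by
    intro b
    let f : Multiplicative ℤ →* G := zpowersHom G b
    have hf : ∀ k : ℤ, f (Multiplicative.ofAdd k) = b ^ k := fun k => by simp [f]
    let L : AddSubgroup ℤ := Subgroup.toAddSubgroup' (H.comap f)
    obtain ⟨m, hm⟩ := Int.subgroup_cyclic L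
    have hmem : ∀ k : ℤ, k ∈ L ↔ b ^ k ∈ H := by
      intro k
      have : k ∈ L ↔ f (Multiplicative.ofAdd k) ∈ H := Iff.rfl
      rw [this, hf]
    have hmL : m ∈ L := by rw [hm]; exact AddSubgroup.mem_closure_singleton_self m
    refine ⟨⟨b ^ m, (hmem m).1 hmL⟩, fun k hk => ?_⟩
    have : k ∈ L := (hmem k).2 hk
    rw [hm, AddSubgroup.mem_closure_singleton] at this
    obtain ⟨j, hj⟩ := this
    rcases eq_or_ne m 0 with hm0 | hm0
    · refine ⟨0, ?_, by simp⟩
      have hk0 : k = 0 := by rw [← hj, hm0, smul_zero]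
      ext
      simp [hk0]
    · refine ⟨j, ?_, ?_⟩
      · ext
        simp only [Subgroup.coe_zpow]
        rw [← hj, smul_eq_mul, mul_comm, zpow_mul]
      · rw [← hj, smul_eq_mul, abs_mul]
        exact le_mul_of_one_le_right (abs_nonneg _) (Int.one_le_abs hm0)
  choose c hc using gen
  -- coset representatives
  have hfinq : Fintype (G ⧸ H) := Fintype.ofFinite _
  refine SFCC.of_fintype (ι := (G ⧸ H) × Fin r)
    (a := fun q => c ((Quotient.out q.1)⁻¹ * a q.2 * Quotient.out q.1))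
    (lam := fun g => lam g) (fun g h => hsub g h) fun g => ?_
  obtain ⟨i, k, hk, hkl⟩ := hcov g
  rw [isConj_iff] at hk
  obtain ⟨u, hu⟩ := hk
  set x : G := Quotient.out (u : G ⧸ H) with hx
  obtain ⟨h0, hh0⟩ := QuotientGroup.mk_out_eq_mul H u
  have hxu : x = u * h0 := hh0
  refine ⟨((u : G ⧸ H), i), ?_⟩
  simp only [← hx]
  have hb : (x⁻¹ * a i * x) ^ k = (h0 : G)⁻¹ * g * h0 := by
    have e1 : (x⁻¹ * a i * x) ^ k = x⁻¹ * a i ^ k * x := by
      have := conj_zpow (i := k) (a := x⁻¹) (b := a i)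
      simpa using this
    rw [e1, ← hu, hxu]
    group
  have hmem : (x⁻¹ * a i * x) ^ k ∈ H := by
    rw [hb]
    exact H.mul_mem (H.mul_mem (H.inv_mem h0.2) g.2) h0.2
  obtain ⟨j, hj, hjk⟩ := hc (x⁻¹ * a i * x) k hmem
  refine ⟨j, ?_, ?_⟩
  · rw [← hj, isConj_iff]
    refine ⟨h0⁻¹, ?_⟩
    ext
    simp [hb]
  · refine le_trans ?_ hkl
    exact_mod_cast hjk

/-- The property passes to quotients. -/
theorem SFCC.fcc {G : Type*} [Group G] (h : SFCC G) : FinitelyCyclicallyCovered G := by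
  obtain ⟨r, a, lam, -, hcov⟩ := h
  exact fcc_of_cov (a := a) fun g => by
    obtain ⟨i, k, h, -⟩ := hcov g
    exact ⟨i, k, h⟩

/-- A group with the property and finite `p`-quotients of unbounded order has a subgroup of finite
index all of whose finite quotients are cyclic. -/
theorem SFCC.exists_cyclic_quotients {G : Type*} [Group G] (h : SFCC G) {p : ℕ}
    (hp : p.Prime) (hunb : ∀ n : ℕ, ∃ N : Subgroup G, N.Normal ∧ ∃ e, n ≤ e ∧ N.index = p ^ e) :
    ∃ H : Subgroup G, H.FiniteIndex ∧ ∀ (N : Subgroup H) [N.Normal], N.FiniteIndex →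
      IsCyclic (H ⧸ N) := by
  have : Fact p.Prime := ⟨hp⟩
  obtain ⟨r, a, lam, hsub, hcov⟩ := h
  exact T1.exists_cyclic_quotients hsub hcov hunb

end Vale.Agent.P216.T1
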