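import Vale.Agent.P216.T1.Power
import Vale.Agent.P216.Bdl.B1
import Mathlib.GroupTheory.CosetCover

/-!
# Groups with a subadditive bound on the exponents in a finite cyclic cover
-/

set_option linter.all false

open scoped commutatorElement Pointwise

namespace Vale.Agent.P216.T1

/-- An infinite abelian group which is a finite union of cyclic groups maps nontrivially
to `ℤ`. -/
theorem exists_hom_of_comm_cover {Q : Type*} [CommGroup Q] [Infinite Q] {F : Set Q}
    (hF : F.Finite) (h : ∀ x : Q, ∃ b ∈ F, x ∈ Subgroup.zpowers b) :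
    ∃ φ : Q →* Multiplicative ℤ, ∃ x, φ x ≠ 1 := by
  classical
  have hcov : ⋃ b ∈ hF.toFinset, (1 : Q) • (Subgroup.zpowers b : Set Q) = Set.univ := by
    rw [Set.eq_univ_iff_forall]
    intro x
    obtain ⟨b, hb, hx⟩ := h x
    rw [Set.mem_iUnion₂]
    exact ⟨b, hF.mem_toFinset.2 hb, by rw [one_smul]; exact hx⟩
  obtain ⟨b, -, hb⟩ := Subgroup.exists_finiteIndex_of_leftCoset_cover
    (g := fun _ : Q => (1 : Q)) (H := fun b : Q => Subgroup.zpowers b) hcov
  have hinf : ¬ IsOfFinOrder b := by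
    intro hfin
    have : Finite (Subgroup.zpowers b) := (finite_zpowers.2 hfin).to_subtype
    have hQ : Finite Q := (Subgroup.finite_iff_finite_and_finiteIndex (Subgroup.zpowers b)).2
      ⟨this, hb⟩
    exact not_finite Q
  have hinj : Function.Injective fun k : ℤ => b ^ k := injective_zpow_iff_not_isOfFinOrder.2 hinf
  set n := (Subgroup.zpowers b).index with hn
  have hn0 : n ≠ 0 := hb.index_ne_zero
  have hpow : ∀ x : Q, ∃ k : ℤ, b ^ k = x ^ n := fun x =>
    Subgroup.mem_zpowers_iff.1 (Subgroup.pow_index_mem (Subgroup.zpowers b) x)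
  choose f hf using hpow
  let φ : Q →* Multiplicative ℤ :=
    { toFun := fun x => Multiplicative.ofAdd (f x)
      map_one' := by
        have : f 1 = 0 := by
          apply hinj
          change b ^ f 1 = b ^ (0 : ℤ)
          rw [hf]; simp
        rw [this]; rfl
      map_mul' := by
        intro x y
        have : f (x * y) = f x + f y := by
          apply hinj
          change b ^ f (x * y) = b ^ (f x + f y)
          rw [hf, zpow_add, hf, hf, mul_pow]
        rw [this]; rfl }
  refine ⟨φ, b, ?_⟩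
  have hfb : f b = n := by
    apply hinj
    change b ^ f b = b ^ (n : ℤ)
    rw [hf, zpow_natCast]
  change Multiplicative.ofAdd (f b) ≠ 1
  rw [hfb]
  intro h0
  apply hn0
  have : ((n : ℤ)) = 0 := h0
  exact_mod_cast this

variable {G : Type*} [Group G] {p : ℕ} {ι : Type*} [Fintype ι]

theorem fcc_of_cov {a : ι → G} (hcov : Cov a) : FinitelyCyclicallyCovered G := by
  refine ⟨Set.range a, Set.finite_range a, fun g => ?_⟩
  obtain ⟨i, k, h⟩ := hcov g
  exact ⟨a i, ⟨i, rfl⟩, k, h⟩

/-- The abelian quotient gives a homomorphism to `ℤ`. -/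
theorem exists_hom [hp : Fact p.Prime] {a : ι → G} {lam : G → ℝ}
    (hsub : ∀ g h, lam (g * h) ≤ lam g + lam h)
    (hcov : ∀ g : G, ∃ i, ∃ k : ℤ, IsConj g (a i ^ k) ∧ |(k : ℝ)| ≤ lam g)
    (hunb : ∀ n : ℕ, ∃ N : Subgroup G, N.Normal ∧ ∃ e, n ≤ e ∧ N.index = p ^ e) :
    ∃ H : Subgroup G, H.FiniteIndex ∧ ∃ φ : H →* Multiplicative ℤ, ∃ x, φ x ≠ 1 := by
  have hcov' : Cov a := fun g => by
    obtain ⟨i, k, h, -⟩ := hcov g
    exact ⟨i, k, h⟩
  obtain ⟨n, hn, hab⟩ := commutator_mem_Fω (p := p) hsub hcov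
  set H := F p G n with hH
  have hHfi : H.FiniteIndex := ⟨index_F_ne_zero hcov' hn⟩
  refine ⟨H, hHfi, ?_⟩
  set K : Subgroup H := (Fω p G).subgroupOf H with hK
  have hKn : K.Normal := Subgroup.Normal.subgroupOf Fω_normal H
  -- the index of `Fω` is infinite
  have hinf : (Fω p G).index = 0 := by
    by_contra h0
    obtain ⟨N, hN, e, hne, hNi⟩ := hunb (Fω p G).index
    have h1 : Fω p G ≤ N := (iInf_le _ (p ^ e)).trans (F_le_of_index e N hNi)
    have h2 := Nat.le_of_dvd (Nat.pos_of_ne_zero h0) (Subgroup.index_dvd_of_le h1)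
    rw [hNi] at h2
    have h3 : e < p ^ e := Nat.lt_pow_self hp.out.one_lt
    lia
  have hωH : Fω p G ≤ H := iInf_le _ n
  have hKi : K.index = 0 := by
    have h1 : K.index = (Fω p G).relIndex H := rfl
    have h2 := Subgroup.relIndex_mul_index hωH
    rw [hinf] at h2
    rcases Nat.mul_eq_zero.1 h2 with h3 | h3
    · rw [h1, h3]
    · exact absurd h3 hHfi.index_ne_zero
  have hQinf : Infinite (H ⧸ K) := by
    rw [← not_finite_iff_infinite]
    intro hfin
    have := Nat.card_pos (α := H ⧸ K)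
    have h1 : Nat.card (H ⧸ K) = K.index := rfl
    lia
  have hcommK : ∀ x y : H ⧸ K, x * y = y * x := by
    intro x y
    obtain ⟨x, rfl⟩ := QuotientGroup.mk_surjective x
    obtain ⟨y, rfl⟩ := QuotientGroup.mk_surjective y
    have h1 : ⁅x, y⁆ ∈ K := by
      rw [hK, Subgroup.mem_subgroupOf]
      exact hab x.1 x.2 y.1 y.2
    exact (commute_mk.2 h1).eq
  letI : CommGroup (H ⧸ K) := { (inferInstance : Group (H ⧸ K)) with mul_comm := hcommK }
  obtain ⟨S, hS, hScov⟩ := (fcc_of_cov hcov').subgroup H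
  obtain ⟨φ, x, hx⟩ := exists_hom_of_comm_cover (Q := H ⧸ K)
    (F := (QuotientGroup.mk' K) '' S) (hS.image _) (fun x => by
      obtain ⟨x, rfl⟩ := QuotientGroup.mk'_surjective K x
      obtain ⟨b, hb, k, hk⟩ := hScov x
      refine ⟨_, ⟨b, hb, rfl⟩, k, ?_⟩
      have h1 := (QuotientGroup.mk' K).map_isConj hk
      obtain ⟨c, hc⟩ := isConj_iff.1 h1
      rw [mul_comm c, mul_inv_cancel_right] at hc
      change ((QuotientGroup.mk' K) b) ^ k = _
      rw [← map_zpow, hc])
  obtain ⟨x, rfl⟩ := QuotientGroup.mk'_surjective K x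
  exact ⟨φ.comp (QuotientGroup.mk' K), x, hx⟩

/-- **Main group theoretic theorem.** -/
theorem exists_cyclic_quotients [hp : Fact p.Prime] {a : ι → G} {lam : G → ℝ}
    (hsub : ∀ g h, lam (g * h) ≤ lam g + lam h)
    (hcov : ∀ g : G, ∃ i, ∃ k : ℤ, IsConj g (a i ^ k) ∧ |(k : ℝ)| ≤ lam g)
    (hunb : ∀ n : ℕ, ∃ N : Subgroup G, N.Normal ∧ ∃ e, n ≤ e ∧ N.index = p ^ e) :
    ∃ H : Subgroup G, H.FiniteIndex ∧ ∀ (N : Subgroup H) [N.Normal], N.FiniteIndex →
      IsCyclic (H ⧸ N) := by
  obtain ⟨H, hH, φ, g, hg⟩ := exists_hom hsub hcov hunb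
  refine ⟨H, hH, fun N _ hN => ?_⟩
  have hcov' : Cov a := fun g => by
    obtain ⟨i, k, h, -⟩ := hcov g
    exact ⟨i, k, h⟩
  have hfcc := (fcc_of_cov hcov').subgroup H
  have hfin : Finite (H ⧸ N) := Subgroup.finite_quotient_of_finiteIndex
  have hker : φ.ker ≤ N := by
    intro h hh
    rw [MonoidHom.mem_ker] at hh
    have := hfcc.length_apply_eq_one (fun x => |((Multiplicative.toAdd (φ x) : ℤ) : ℝ)|)
      (by intro x y; simp)
      (by intro x n; simp [abs_mul])
      (g := g) (h := h)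
      (by
        rw [abs_pos]
        intro h0
        apply hg
        have h1 : Multiplicative.toAdd (φ g) = 0 := by exact_mod_cast h0
        exact h1)
      (by
        intro m _
        rw [map_mul, hh, mul_one, map_pow, toAdd_pow]
        simp [abs_mul])
      (QuotientGroup.mk' N)
    exact (QuotientGroup.eq_one_iff h).1 this
  have hc1 : IsCyclic (H ⧸ φ.ker) :=
    isCyclic_of_injective (QuotientGroup.kerLift φ) (QuotientGroup.kerLift_injective φ)
  have hs : Function.Surjective (QuotientGroup.map φ.ker N (MonoidHom.id H) hker) := by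
    intro y
    obtain ⟨y, rfl⟩ := QuotientGroup.mk_surjective y
    exact ⟨(y : H ⧸ φ.ker), rfl⟩
  exact isCyclic_of_surjective _ hs

end Vale.Agent.P216.T1
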