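import Vale.Agent.P216.T1.Index
import Mathlib.GroupTheory.ClassEquation
import Mathlib.Algebra.BigOperators.Fin

/-!
# Landau's theorem on the number of conjugacy classes, and normal subgroups of bounded index
-/

set_option linter.all false

namespace Vale.Agent.P216.T1

theorem egyptian : ∀ (n : ℕ) (q : ℚ), ∃ B : ℕ, ∀ m : Fin n → ℕ, (∀ i, 0 < m i) →
    ∑ i, (1 : ℚ) / m i = q → ∀ i, m i ≤ B := by
  intro n
  induction n with
  | zero => intro q; exact ⟨0, fun m _ _ i => i.elim0⟩
  | succ n ih =>
    intro q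
    choose f hf using ih
    refine ⟨(Finset.range (⌈(n + 1) / q⌉₊ + 1)).sup (fun v => max v (f (q - 1 / v))), ?_⟩
    intro m hm hsum i
    -- the minimal denominator
    obtain ⟨j, hj⟩ := Finite.exists_min m
    have hq : 0 < q := by
      rw [← hsum]
      refine Finset.sum_pos (fun i _ => ?_) Finset.univ_nonempty
      have : (0 : ℚ) < m i := by exact_mod_cast hm i
      positivity
    have hmj : (0 : ℚ) < m j := by exact_mod_cast hm j
    have hle : q ≤ (n + 1) / m j := by
      rw [← hsum]
      calc ∑ i, (1 : ℚ) / m i ≤ ∑ i : Fin (n + 1), (1 : ℚ) / m j := by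
            refine Finset.sum_le_sum fun i _ => ?_
            have h1 : (0 : ℚ) < m i := by exact_mod_cast hm i
            have h2 : (m j : ℚ) ≤ m i := by exact_mod_cast hj i
            exact one_div_le_one_div_of_le hmj h2
        _ = (n + 1) / m j := by simp [div_eq_mul_inv]
    have hmjle : (m j : ℚ) ≤ (n + 1) / q := by
      rw [le_div_iff₀ hq]
      rw [le_div_iff₀ hmj] at hle
      linarith
    have hmjB : m j ∈ Finset.range (⌈(n + 1) / q⌉₊ + 1) := by
      rw [Finset.mem_range]
      have : m j ≤ ⌈(n + 1) / q⌉₊ := by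
        have := hmjle.trans (Nat.le_ceil ((n + 1) / q))
        exact_mod_cast this
      lia
    have hsup := Finset.le_sup (f := fun v : ℕ => max v (f (q - 1 / v))) hmjB
    refine le_trans ?_ hsup
    rcases eq_or_ne i j with rfl | hij
    · exact le_max_left _ _
    · refine le_trans ?_ (le_max_right _ _)
      obtain ⟨i', hi'⟩ := Fin.exists_succAbove_eq hij
      rw [← hi']
      refine hf (q - 1 / m j) (fun i => m (j.succAbove i)) (fun _ => hm _) ?_ i'
      rw [← hsum, Fin.sum_univ_succAbove _ j]
      ring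

/-- **Landau's theorem.** -/
theorem landau (N : ℕ) : ∃ B : ℕ, ∀ (Q : Type*) [Group Q] [Finite Q],
    Nat.card (ConjClasses Q) ≤ N → Nat.card Q ≤ B := by
  classical
  choose f hf using fun n => egyptian n 1
  refine ⟨(Finset.range (N + 1)).sup f, fun Q _ _ hN => ?_⟩
  have := Fintype.ofFinite Q
  set n := Nat.card (ConjClasses Q) with hn
  have e : ConjClasses Q ≃ Fin n := Finite.equivFin _
  -- the centralizer orders
  let c : ConjClasses Q → ℕ := fun C => Nat.card (MulAction.stabilizer (ConjAct Q) C.out)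
  have hc0 : ∀ C, 0 < c C := fun C => Nat.card_pos
  have hcC : ∀ C, C.carrier.toFinset.card * c C = Nat.card Q := by
    intro C
    have h1 := MulAction.card_orbit_mul_card_stabilizer_eq_card_group (ConjAct Q) C.out
    have h2 : Fintype.card (MulAction.orbit (ConjAct Q) C.out) = C.carrier.toFinset.card := by
      rw [Set.toFinset_card]
      refine Fintype.card_congr (Equiv.setCongr ?_)
      rw [ConjAct.orbit_eq_carrier_conjClasses]
      congr 1
      exact Quotient.out_eq C
    rw [h2] at h1
    have h3 : Fintype.card (ConjAct Q) = Nat.card Q := by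
      rw [Nat.card_eq_fintype_card]
      exact Fintype.card_congr (ConjAct.ofConjAct.toEquiv)
    rw [h3] at h1
    rw [← h1]
    simp only [c, Nat.card_eq_fintype_card]
  have hQ0 : (0 : ℚ) < Nat.card Q := by exact_mod_cast Nat.card_pos
  have hsum : ∑ C : ConjClasses Q, (1 : ℚ) / c C = 1 := by
    have h1 : ∀ C : ConjClasses Q, (1 : ℚ) / c C = C.carrier.toFinset.card / Nat.card Q := by
      intro C
      have h2 : (0 : ℚ) < c C := by exact_mod_cast hc0 C
      rw [div_eq_div_iff h2.ne' hQ0.ne', one_mul]
      exact_mod_cast (hcC C).symm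
    rw [Finset.sum_congr rfl fun C _ => h1 C, ← Finset.sum_div, div_eq_one_iff_eq hQ0.ne']
    have := sum_conjClasses_card_eq_card Q
    rw [Nat.card_eq_fintype_card, ← this]
    push_cast
    rfl
  have hsum' : ∑ i : Fin n, (1 : ℚ) / c (e.symm i) = 1 := by
    exact (Fintype.sum_equiv e.symm _ (fun C => (1 : ℚ) / c C) fun _ => rfl).trans hsum
  have h1 := hf n (fun i => c (e.symm i)) (fun i => hc0 _) hsum' (e (ConjClasses.mk 1))
  simp only [Equiv.symm_apply_apply] at h1
  have h2 : c (ConjClasses.mk 1) = Nat.card Q := by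
    have h3 := hcC (ConjClasses.mk 1)
    have h4 : (ConjClasses.mk (1 : Q)).carrier.toFinset.card = 1 := by
      rw [Finset.card_eq_one]
      refine ⟨1, ?_⟩
      ext x
      simp only [Set.mem_toFinset, Finset.mem_singleton, ConjClasses.mem_carrier_iff_mk_eq,
        ConjClasses.mk_eq_mk_iff_isConj, isConj_one_right, isConj_one_left, eq_comm]
    rw [h4, one_mul] at h3
    exact h3
  rw [← h2]
  refine h1.trans ?_
  exact Finset.le_sup (f := f) (Finset.mem_range.2 (by lia))

variable {G : Type*} [Group G] {ι : Type*} [Fintype ι]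

/-- The intersection of all normal subgroups of index at most `D`. -/
def coreBdd (G : Type*) [Group G] (D : ℕ) : Subgroup G :=
  ⨅ N : {N : Subgroup G // N.Normal ∧ N.index ≠ 0 ∧ N.index ≤ D}, N.1

theorem coreBdd_le {D : ℕ} {N : Subgroup G} (hN : N.Normal) (h0 : N.index ≠ 0)
    (h : N.index ≤ D) : coreBdd G D ≤ N :=
  iInf_le (fun N : {N : Subgroup G // N.Normal ∧ N.index ≠ 0 ∧ N.index ≤ D} => N.1)
    ⟨N, hN, h0, h⟩

theorem coreBdd_normal (D : ℕ) : (coreBdd G D).Normal :=
  Subgroup.normal_iInf_normal fun N => N.2.1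

theorem pow_factorial_mem {N : Subgroup G} [N.Normal] {D : ℕ} (h0 : N.index ≠ 0)
    (h : N.index ≤ D) (x : G) : x ^ D.factorial ∈ N := by
  obtain ⟨c, hc⟩ := Nat.dvd_factorial (Nat.pos_of_ne_zero h0) h
  rw [hc, pow_mul]
  exact N.pow_mem (Subgroup.pow_index_mem N x) c

theorem coreBdd_index_ne_zero {a : ι → G} (hcov : Cov a) (D : ℕ) :
    (coreBdd G D).index ≠ 0 := by
  classical
  obtain ⟨B, hB⟩ := landau.{u_1} (Fintype.card ι * D.factorial)
  let 𝒩 := {N : Subgroup G // N.Normal ∧ N.index ≠ 0 ∧ N.index ≤ D}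
  let K : Finset 𝒩 → Subgroup G := fun S => ⨅ N ∈ S, N.1
  have hKn : ∀ S, (K S).Normal := fun S =>
    Subgroup.normal_iInf_normal fun N => Subgroup.normal_iInf_normal fun _ => N.2.1
  have hK0 : ∀ S, (K S).index ≠ 0 := by
    intro S
    induction S using Finset.induction_on with
    | empty => simp [K]
    | insert N S hN ih =>
      have : K (insert N S) = N.1 ⊓ K S := by simp only [K, Finset.iInf_insert]
      rw [this]
      exact Subgroup.index_inf_ne_zero N.2.2.1 ih
  have hpow : ∀ S (x : G), x ^ D.factorial ∈ K S := by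
    intro S x
    simp only [K, Subgroup.mem_iInf]
    intro N _
    have := N.2.1
    exact pow_factorial_mem N.2.2.1 N.2.2.2 x
  have hKB : ∀ S, (K S).index ≤ B := by
    intro S
    have := hKn S
    have : Finite (G ⧸ K S) := Nat.finite_of_card_ne_zero (hK0 S)
    refine hB (G ⧸ K S) ?_
    have hD : 0 < D.factorial := Nat.factorial_pos D
    -- a surjection from `ι × Fin (D!)`
    let φ : ι × Fin D.factorial → ConjClasses (G ⧸ K S) := fun q =>
      ConjClasses.mk ((QuotientGroup.mk' (K S) (a q.1)) ^ (q.2 : ℕ))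
    have hφ : Function.Surjective φ := by
      intro C
      obtain ⟨y, rfl⟩ := C.exists_rep
      obtain ⟨x, rfl⟩ := QuotientGroup.mk'_surjective (K S) y
      obtain ⟨i, k, hk⟩ := hcov x
      have hD' : (0 : ℤ) < (D.factorial : ℤ) := by exact_mod_cast hD
      refine ⟨(i, ⟨(k % D.factorial).toNat, ?_⟩), ?_⟩
      · have h1 := Int.emod_lt_of_pos k hD'
        have h2 := Int.emod_nonneg k hD'.ne'
        lia
      · simp only [φ, ConjClasses.mk_eq_mk_iff_isConj]
        have h1 : (QuotientGroup.mk' (K S) (a i)) ^ (k % D.factorial).toNat =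
            (QuotientGroup.mk' (K S)) (a i ^ k) := by
          rw [← zpow_natCast, Int.toNat_of_nonneg (Int.emod_nonneg k hD'.ne'), map_zpow]
          have h3 : (QuotientGroup.mk' (K S) (a i)) ^ (D.factorial : ℤ) = 1 := by
            rw [zpow_natCast, ← map_pow]
            exact (QuotientGroup.eq_one_iff _).2 (hpow S (a i))
          conv_rhs => rw [← Int.emod_add_mul_ediv k D.factorial]
          rw [zpow_add, zpow_mul, h3, one_zpow, mul_one]
        rw [h1]
        exact ((QuotientGroup.mk' (K S)).map_isConj hk).symm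
    have := Nat.card_le_card_of_surjective φ hφ
    simpa using this
  -- choose `S` with maximal index
  obtain ⟨S, hS⟩ : ∃ S, ∀ S', (K S').index ≤ (K S).index := by
    have hfin : (Set.range fun S => (K S).index).Finite :=
      (Set.finite_Iic B).subset (by rintro _ ⟨S, rfl⟩; exact hKB S)
    obtain ⟨_, ⟨S, rfl⟩, hS⟩ := Set.exists_max_image _ id hfin ⟨_, ⟨∅, rfl⟩⟩
    exact ⟨S, fun S' => hS _ ⟨S', rfl⟩⟩
  have hle : K S ≤ coreBdd G D := by
    refine le_iInf fun N => ?_
    have h1 : K (insert N S) = N.1 ⊓ K S := by simp only [K, Finset.iInf_insert]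
    have h2 := hS (insert N S)
    have h3 : K (insert N S) ≤ K S := by rw [h1]; exact inf_le_right
    have h4 := Subgroup.relIndex_mul_index h3
    have h5 : (K (insert N S)).relIndex (K S) = 1 := by
      have h6 := Nat.pos_of_ne_zero (hK0 S)
      have h7 := Nat.pos_of_ne_zero (hK0 (insert N S))
      have h8 : (K (insert N S)).relIndex (K S) ≠ 0 := by
        intro h; rw [h, zero_mul] at h4; lia
      by_contra hne
      have h9 : 2 ≤ (K (insert N S)).relIndex (K S) := by lia
      nlinarith
    rw [Subgroup.relIndex_eq_one] at h5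
    exact h5.trans (by rw [h1]; exact inf_le_left)
  intro h0
  have h1 := Subgroup.index_dvd_of_le hle
  rw [h0] at h1
  exact hK0 S (by simpa using h1)

end Vale.Agent.P216.T1
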