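import Vale.Agent.P216.T1.Sub
import Mathlib.GroupTheory.Nilpotent
import Mathlib.GroupTheory.Solvable
import Mathlib.Data.ZMod.QuotientGroup

/-!
# Nilpotent quotients of groups with the strong covering property
-/

set_option linter.all false

open scoped commutatorElement

universe u

namespace Vale.Agent.P216.T1

/-- Some subgroup of finite index has only cyclic finite quotients. -/
def VCyc (G : Type*) [Group G] : Prop :=
  ∃ H : Subgroup G, H.FiniteIndex ∧ ∀ (N : Subgroup H) [N.Normal], N.FiniteIndex →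
    IsCyclic (H ⧸ N)

theorem VCyc.of_subgroup {G : Type*} [Group G] {H : Subgroup G} [hH : H.FiniteIndex]
    (h : VCyc H) : VCyc G := by
  obtain ⟨L, hL, hcyc⟩ := h
  refine ⟨L.map H.subtype, ?_, ?_⟩
  · constructor
    rw [Subgroup.index_map_subtype]
    exact mul_ne_zero hL.index_ne_zero hH.index_ne_zero
  · intro N hN hNf
    let e : L ≃* L.map H.subtype := L.equivMapOfInjective H.subtype H.subtype_injective
    let f : L →* (L.map H.subtype) ⧸ N := (QuotientGroup.mk' N).comp e.toMonoidHom
    have hf : Function.Surjective f := (QuotientGroup.mk'_surjective N).comp e.surjective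
    have hker : f.ker.FiniteIndex := by
      constructor
      rw [Subgroup.index_ker, MonoidHom.range_eq_top.2 hf, Subgroup.card_top]
      exact hNf.index_ne_zero
    have h1 := hcyc f.ker hker
    have e2 := QuotientGroup.quotientKerEquivOfSurjective f hf
    exact isCyclic_of_surjective e2 e2.surjective

/-- A finite nilpotent group has a normal subgroup of index the `p`-part of the order. -/
theorem exists_normal_index_factorization {Q : Type u} [Group Q] [Finite Q]
    [hQ : Group.IsNilpotent Q] {p : ℕ} (hp : p.Prime) :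
    ∃ (P : Type u) (_ : Group P) (_ : Finite P) (f : Q →* P), Function.Surjective f ∧
      Nat.card P = p ^ (Nat.card Q).factorization p := by
  classical
  by_cases hpQ : p ∈ (Nat.card Q).primeFactors
  · have := Fact.mk hp
    obtain ⟨e⟩ := (Group.isNilpotent_of_finite_tfae (G := Q)).out 0 4 rfl rfl |>.mp hQ
    let P : Sylow p Q := default
    let ev : (∀ q : (Nat.card Q).primeFactors, ∀ P : Sylow q Q, (↑P : Subgroup Q)) →* P :=
      { toFun := fun x => x ⟨p, hpQ⟩ P
        map_one' := rfl
        map_mul' := fun _ _ => rfl }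
    have hev : Function.Surjective ev := by
      intro y
      refine ⟨Function.update 1 ⟨p, hpQ⟩ (Function.update 1 P y), ?_⟩
      change (Function.update 1 (⟨p, hpQ⟩ : (Nat.card Q).primeFactors)
        (Function.update 1 P y) : ∀ q : (Nat.card Q).primeFactors, ∀ P : Sylow q Q,
          (↑P : Subgroup Q)) ⟨p, hpQ⟩ P = y
      rw [Function.update_self, Function.update_self]
    refine ⟨P, inferInstance, inferInstance, ev.comp e.symm.toMonoidHom,
      hev.comp e.symm.surjective, ?_⟩
    exact P.card_eq_multiplicity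
  · refine ⟨(⊥ : Subgroup Q), inferInstance, inferInstance, 1, ?_, ?_⟩
    · intro y
      exact ⟨1, Subsingleton.elim _ _⟩
    · have : (Nat.card Q).factorization p = 0 := by
        rw [← Finsupp.notMem_support_iff, Nat.support_factorization]
        exact hpQ
      rw [this, pow_zero]
      simp

/-- A homomorphism to `ℤ` gives unbounded `2`-quotients. -/
theorem unbounded_of_hom {H : Type*} [Group H] {φ : H →* Multiplicative ℤ} {x : H}
    (hx : φ x ≠ 1) (n : ℕ) : ∃ N : Subgroup H, N.Normal ∧ ∃ e, n ≤ e ∧ N.index = 2 ^ e := by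
  classical
  set d : ℤ := Multiplicative.toAdd (φ x) with hd
  have hd0 : d ≠ 0 := fun h0 => hx h0
  set m := n + d.natAbs with hm
  let c : Multiplicative ℤ →* Multiplicative (ZMod (2 ^ m)) :=
    (Int.castAddHom (ZMod (2 ^ m))).toMultiplicative
  let ψ : H →* Multiplicative (ZMod (2 ^ m)) := c.comp φ
  have hcard : Nat.card (Multiplicative (ZMod (2 ^ m))) = 2 ^ m := by
    rw [Nat.card_congr Multiplicative.toAdd, Nat.card_zmod]
  have h1 : ψ.ker.index ∣ 2 ^ m := by
    have h := Subgroup.card_subgroup_dvd_card ψ.range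
    rw [hcard] at h
    rwa [Subgroup.index_ker]
  obtain ⟨e, -, he⟩ := (Nat.dvd_prime_pow Nat.prime_two).1 h1
  refine ⟨ψ.ker, MonoidHom.normal_ker _, e, ?_, he⟩
  -- the order of `ψ x`
  have h2 : orderOf (ψ x) ∣ 2 ^ e := by
    rw [← he, Subgroup.index_ker]
    have := orderOf_dvd_natCard (⟨ψ x, ⟨x, rfl⟩⟩ : ψ.range)
    rwa [← Subgroup.orderOf_coe] at this
  obtain ⟨j, hj, hjo⟩ := (Nat.dvd_prime_pow Nat.prime_two).1 h2
  have h3 : ψ x ^ 2 ^ j = 1 := by rw [← hjo]; exact pow_orderOf_eq_one _
  have h4 : ((2 ^ j * d : ℤ) : ZMod (2 ^ m)) = 0 := by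
    have h5 : ψ x ^ 2 ^ j = Multiplicative.ofAdd (((2 ^ j * d : ℤ) : ZMod (2 ^ m))) := by
      have h6 : ψ x = Multiplicative.ofAdd ((d : ZMod (2 ^ m))) := rfl
      rw [h6, ← ofAdd_nsmul]
      congr 1
      rw [nsmul_eq_mul]
      push_cast
      ring
    rw [h5] at h3
    exact h3
  have h5 : ((2 ^ m : ℕ) : ℤ) ∣ 2 ^ j * d := (ZMod.intCast_zmod_eq_zero_iff_dvd _ _).1 h4
  have h6 : 2 ^ m ≤ 2 ^ j * d.natAbs := by
    have h7 : (2 ^ m : ℕ) ∣ (2 ^ j * d).natAbs := Int.natCast_dvd.1 h5
    rw [Int.natAbs_mul] at h7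
    have h8 : ((2 : ℤ) ^ j).natAbs = 2 ^ j := by rw [Int.natAbs_pow]; rfl
    rw [h8] at h7
    refine Nat.le_of_dvd ?_ h7
    have := Int.natAbs_pos.2 hd0
    positivity
  have h7 : 2 ^ m < 2 ^ (j + d.natAbs) := by
    calc 2 ^ m ≤ 2 ^ j * d.natAbs := h6
      _ < 2 ^ j * 2 ^ d.natAbs :=
          Nat.mul_lt_mul_of_pos_left (Nat.lt_two_pow_self) (by positivity)
      _ = 2 ^ (j + d.natAbs) := (pow_add _ _ _).symm
  have h8 := (Nat.pow_lt_pow_iff_right one_lt_two).1 h7
  lia

theorem SFCC.commutator_index_ne_zero {H : Type*} [Group H] (h : SFCC H) (hV : ¬ VCyc H) :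
    (commutator H).index ≠ 0 := by
  classical
  intro h0
  have hinf : Infinite (Abelianization H) := by
    rw [← not_finite_iff_infinite]
    intro hfin
    have h1 : 0 < Nat.card (Abelianization H) := Nat.card_pos
    have h2 : Nat.card (Abelianization H) = (commutator H).index := rfl
    lia
  obtain ⟨S, hS, hcov⟩ := h.fcc
  obtain ⟨φ, x, hx⟩ := exists_hom_of_comm_cover (Q := Abelianization H)
    (F := Abelianization.of '' S) (hS.image _) (fun x => by
      obtain ⟨x, rfl⟩ := QuotientGroup.mk_surjective x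
      obtain ⟨b, hb, k, hk⟩ := hcov x
      refine ⟨_, ⟨b, hb, rfl⟩, k, ?_⟩
      have h1 := (Abelianization.of (G := H)).map_isConj hk
      obtain ⟨c, hc⟩ := isConj_iff.1 h1
      rw [mul_comm c, mul_inv_cancel_right] at hc
      change (Abelianization.of b) ^ k = Abelianization.of x
      rw [← map_zpow, hc])
  obtain ⟨x, rfl⟩ := QuotientGroup.mk_surjective x
  apply hV
  exact h.exists_cyclic_quotients Nat.prime_two
    (fun n => unbounded_of_hom (φ := φ.comp Abelianization.of) (x := x) hx n)

/-- Nilpotent quotients are bounded. -/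
theorem SFCC.nilpotent_bound {H : Type*} [Group H] (h : SFCC H) (hV : ¬ VCyc H) :
    ∃ B : ℕ, ∀ N : Subgroup H, ∀ _ : N.Normal, N.index ≠ 0 → Group.IsNilpotent (H ⧸ N) →
      N.index ≤ B := by
  classical
  have hp : ∀ p : ℕ, p.Prime → ∃ n : ℕ, ∀ (N : Subgroup H) (e : ℕ), N.Normal →
      N.index = p ^ e → e < n := by
    intro p hp
    by_contra! hcon
    apply hV
    refine h.exists_cyclic_quotients hp fun n => ?_
    obtain ⟨N, e, h1, h2, h3⟩ := hcon n
    exact ⟨N, h1, e, h3, h2⟩
  choose! n hn using hp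
  set c := (commutator H).index with hc
  have hc0 : c ≠ 0 := h.commutator_index_ne_zero hV
  refine ⟨∏ p ∈ c.primeFactors, p ^ n p, ?_⟩
  intro N hN hN0 hnil
  have hfin : Finite (H ⧸ N) := Nat.finite_of_card_ne_zero hN0
  have hcardQ : Nat.card (H ⧸ N) = N.index := rfl
  have hprime : ∀ p ∈ (Nat.card (H ⧸ N)).primeFactors, p ∈ c.primeFactors ∧
      (Nat.card (H ⧸ N)).factorization p ≤ n p := by
    intro p hpQ
    have hp := Nat.prime_of_mem_primeFactors hpQ
    obtain ⟨P, hPg, hPf, f, hf, hPc⟩ := exists_normal_index_factorization (Q := H ⧸ N) hp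
    have hfac : (Nat.card (H ⧸ N)).factorization p ≠ 0 := by
      rw [← Finsupp.mem_support_iff, Nat.support_factorization]
      exact hpQ
    let g : H →* P := f.comp (QuotientGroup.mk' N)
    have hg : Function.Surjective g := hf.comp (QuotientGroup.mk'_surjective N)
    have hgi : g.ker.index = p ^ (Nat.card (H ⧸ N)).factorization p := by
      rw [Subgroup.index_ker, MonoidHom.range_eq_top.2 hg, Subgroup.card_top, hPc]
    have h1 := hn p hp g.ker _ (MonoidHom.normal_ker g) hgi
    refine ⟨?_, h1.le⟩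
    -- `p` divides the order of the abelianization
    have := Fact.mk hp
    have hPp : IsPGroup p P := IsPGroup.of_card hPc
    have hPnt : Nontrivial P := by
      rw [← Finite.one_lt_card_iff_nontrivial, hPc]
      exact Nat.one_lt_pow hfac hp.one_lt
    have hPnil : Group.IsNilpotent P := hPp.isNilpotent
    have hlt : commutator P < ⊤ := Group.IsSolvable.commutator_lt_top_of_nontrivial P
    have hci : (commutator P).index ∣ Nat.card P := Subgroup.index_dvd_card _
    rw [hPc] at hci
    obtain ⟨j, -, hj⟩ := (Nat.dvd_prime_pow hp).1 hci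
    have hj0 : j ≠ 0 := by
      rintro rfl
      rw [pow_zero, Subgroup.index_eq_one] at hj
      exact hlt.ne hj
    have hle : commutator H ≤ (commutator P).comap g := by
      rw [commutator_def, Subgroup.commutator_le]
      intro x _ y _
      rw [Subgroup.mem_comap, map_commutatorElement]
      exact Subgroup.commutator_mem_commutator (Subgroup.mem_top _) (Subgroup.mem_top _)
    have hdvd := Subgroup.index_dvd_of_le hle
    rw [Subgroup.index_comap_of_surjective _ hg, hj] at hdvd
    rw [Nat.mem_primeFactors]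
    exact ⟨hp, (dvd_pow_self p hj0).trans hdvd, hc0⟩
  calc N.index = Nat.card (H ⧸ N) := rfl
    _ = ∏ p ∈ (Nat.card (H ⧸ N)).primeFactors, p ^ (Nat.card (H ⧸ N)).factorization p := by
        conv_lhs => rw [← Nat.prod_factorization_pow_eq_self (Nat.card_pos (α := H ⧸ N)).ne']
        rfl
    _ ≤ ∏ p ∈ (Nat.card (H ⧸ N)).primeFactors, p ^ n p := by
        refine Finset.prod_le_prod (fun _ _ => Nat.zero_le _) fun p hp => ?_
        exact Nat.pow_le_pow_right (Nat.prime_of_mem_primeFactors hp).pos (hprime p hp).2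
    _ ≤ ∏ p ∈ c.primeFactors, p ^ n p := by
        refine Finset.prod_le_prod_of_subset_of_one_le' (fun p hp => (hprime p hp).1) ?_
        intro p hp _
        exact Nat.one_le_pow _ _ (Nat.prime_of_mem_primeFactors hp).pos

end Vale.Agent.P216.T1
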