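import Vale.Agent.P216.T1.Chief
import Vale.Agent.P216.T1.Nilp
import Vale.Agent.P216.T1.Landau

/-!
# Solvable quotients of groups with the strong covering property
-/

set_option linter.all false

open scoped commutatorElement Nat

namespace Vale.Agent.P216.T1

variable {G : Type*} [Group G]

/-- Uniform bound for abelian quotients of normal subgroups of bounded index. -/
theorem abelian_bound {ι : Type*} [Fintype ι] {a : ι → G} (hcov : Cov a)
    (hNB : ∀ H : Subgroup G, H.index ≠ 0 → ∃ B : ℕ, ∀ N : Subgroup H, ∀ _ : N.Normal,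
      N.index ≠ 0 → Group.IsNilpotent (H ⧸ N) → N.index ≤ B) (D : ℕ) :
    ∃ B : ℕ, ∀ H N : Subgroup G, H.Normal → N.Normal → H.index ≤ D → N ≤ H → N.index ≠ 0 →
      (∀ x ∈ H, ∀ y ∈ H, ⁅x, y⁆ ∈ N) → N.index ≤ B := by
  set K := coreBdd G D with hK
  have hK0 : K.index ≠ 0 := coreBdd_index_ne_zero hcov D
  obtain ⟨B, hB⟩ := hNB K hK0
  refine ⟨B * K.index, fun H N hH hN hHD hNH hN0 hab => ?_⟩
  have hH0 : H.index ≠ 0 := by
    intro h0
    have := Subgroup.index_dvd_of_le hNH
    rw [h0] at this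
    exact hN0 (Nat.eq_zero_of_zero_dvd this)
  have hKH : K ≤ H := coreBdd_le hH hH0 hHD
  have hNKn : (N.subgroupOf K).Normal := Subgroup.Normal.subgroupOf hN K
  have hNK0 : (N.subgroupOf K).index ≠ 0 := by
    have h1 : N.relIndex K ≠ 0 := by
      intro h0
      have h2 := Subgroup.relIndex_dvd_index_of_normal N K
      rw [h0] at h2
      exact hN0 (Nat.eq_zero_of_zero_dvd h2)
    exact h1
  have hnil : Group.IsNilpotent (K ⧸ N.subgroupOf K) := by
    have hcomm : ∀ x y : K ⧸ N.subgroupOf K, x * y = y * x := by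
      intro x y
      obtain ⟨x, rfl⟩ := QuotientGroup.mk_surjective x
      obtain ⟨y, rfl⟩ := QuotientGroup.mk_surjective y
      have h1 : ⁅x, y⁆ ∈ N.subgroupOf K := by
        rw [Subgroup.mem_subgroupOf]
        exact hab x.1 (hKH x.2) y.1 (hKH y.2)
      exact (commute_mk.2 h1).eq
    letI : CommGroup (K ⧸ N.subgroupOf K) :=
      { (inferInstance : Group (K ⧸ N.subgroupOf K)) with mul_comm := hcomm }
    infer_instance
  have h1 := hB _ hNKn hNK0 hnil
  have h2 : (N ⊓ K).index = N.relIndex K * K.index := by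
    rw [← Subgroup.relIndex_mul_index (inf_le_right : N ⊓ K ≤ K), Subgroup.inf_relIndex_right]
  have h3 : N.index ≤ (N ⊓ K).index := by
    refine Nat.le_of_dvd (Nat.pos_of_ne_zero ?_) (Subgroup.index_dvd_of_le inf_le_left)
    rw [h2]
    exact mul_ne_zero hNK0 hK0
  calc N.index ≤ N.relIndex K * K.index := h2 ▸ h3
    _ ≤ B * K.index := Nat.mul_le_mul_right _ h1

/-- Centralizers of abelian chief factors have bounded index. -/
theorem centralizer_bound {r : ℕ} {a : Fin r → G} (hcov : Cov a)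
    (hNB : ∀ H : Subgroup G, H.index ≠ 0 → ∃ B : ℕ, ∀ N : Subgroup H, ∀ _ : N.Normal,
      N.index ≠ 0 → Group.IsNilpotent (H ⧸ N) → N.index ≤ B) :
    ∃ B : ℕ, ∀ N : Subgroup G, ∀ _ : N.Normal, N.index ≠ 0 → Group.IsSolvable (G ⧸ N) →
      ∀ M : Subgroup (G ⧸ N), M.Normal → M ≠ ⊥ →
        (∀ W : Subgroup (G ⧸ N), W.Normal → W ≤ M → W = ⊥ ∨ W = M) →
        ((Subgroup.centralizer (M : Set (G ⧸ N))).comap (QuotientGroup.mk' N)).index ≤ B := by
  classical
  choose Mf hMf using numeric r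
  obtain ⟨D₂, hD₂⟩ := abelian_bound hcov hNB (r !)
  set D₃ := D₂ * (Finset.range (D₂ + 1)).sup Mf with hD₃
  obtain ⟨B, hB⟩ := abelian_bound hcov hNB D₃
  refine ⟨B, fun N hN hN0 hsolv M hMn hM0 hmin => ?_⟩
  have hfin : Finite (G ⧸ N) := Nat.finite_of_card_ne_zero hN0
  have hcovQ : ∀ x : G ⧸ N, ∃ i, ∃ k : ℤ, IsConj x ((QuotientGroup.mk' N) (a i) ^ k) := by
    intro x
    obtain ⟨x, rfl⟩ := QuotientGroup.mk'_surjective N x
    obtain ⟨i, k, h⟩ := hcov x
    refine ⟨i, k, ?_⟩
    rw [← map_zpow]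
    exact (QuotientGroup.mk' N).map_isConj h
  obtain ⟨Q₁, Q₂, E, h1, h2, h3, h4, h5, h6, h7, h8, h9, h10⟩ :=
    chief_structure M hMn hM0 hmin (fun i => (QuotientGroup.mk' N) (a i)) hcovQ Mf
      (fun D n k o s X => hMf D n k o s X)
  have hs := QuotientGroup.mk'_surjective N
  have hidx : ∀ W : Subgroup (G ⧸ N), (W.comap (QuotientGroup.mk' N)).index = W.index := fun W =>
    Subgroup.index_comap_of_surjective W hs
  have hidx0 : ∀ W : Subgroup (G ⧸ N), W.index ≠ 0 := fun W => Subgroup.index_ne_zero_of_finite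
  have hQ₂ : Q₂.index ≤ D₂ := by
    have := hD₂ (Q₁.comap (QuotientGroup.mk' N)) (Q₂.comap (QuotientGroup.mk' N)) (h1.comap _)
      (h2.comap _) (by rw [hidx]; exact h4) (Subgroup.comap_mono h6) (by rw [hidx]; exact hidx0 _)
      (fun x hx y hy => by
        rw [Subgroup.mem_comap, map_commutatorElement]
        exact h5 _ hx _ hy)
    rwa [hidx] at this
  have hE : E.index ≤ D₃ := by
    rw [← Subgroup.relIndex_mul_index h7, mul_comm, hD₃]
    refine Nat.mul_le_mul hQ₂ (h8.trans ?_)
    exact Finset.le_sup (f := Mf) (Finset.mem_range.2 (by lia))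
  exact hB (E.comap (QuotientGroup.mk' N))
    ((Subgroup.centralizer (M : Set (G ⧸ N))).comap (QuotientGroup.mk' N)) (h3.comap _)
    (Subgroup.Normal.comap inferInstance _) (by rw [hidx]; exact hE) (Subgroup.comap_mono h10)
    (by rw [hidx]; exact hidx0 _)
    (fun x hx y hy => by
      rw [Subgroup.mem_comap, map_commutatorElement]
      exact h9 _ hx _ hy)

/-- A subgroup centralizing all chief factors has nilpotent images. -/
theorem nilpotent_of_centralizes {K : Subgroup G}
    (hK : ∀ N : Subgroup G, ∀ _ : N.Normal, N.index ≠ 0 → Group.IsSolvable (G ⧸ N) →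
      ∀ M : Subgroup (G ⧸ N), M.Normal → M ≠ ⊥ →
        (∀ W : Subgroup (G ⧸ N), W.Normal → W ≤ M → W = ⊥ ∨ W = M) →
        K ≤ (Subgroup.centralizer (M : Set (G ⧸ N))).comap (QuotientGroup.mk' N)) :
    ∀ (n : ℕ) (N : Subgroup G) (hN : N.Normal), N.index ≤ n → N.index ≠ 0 →
      Group.IsSolvable (G ⧸ N) → Group.IsNilpotent (K ⧸ N.subgroupOf K) := by
  intro n
  induction n with
  | zero => intro N _ h1 h0; exact absurd (Nat.le_zero.1 h1) h0
  | succ n ih =>
    intro N hN hNn hN0 hsolv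
    have hfin : Finite (G ⧸ N) := Nat.finite_of_card_ne_zero hN0
    by_cases htop : N = ⊤
    · subst htop
      have h1 : (⊤ : Subgroup G).subgroupOf K = ⊤ := Subgroup.top_subgroupOf K
      have : Subsingleton (K ⧸ (⊤ : Subgroup G).subgroupOf K) := by
        rw [h1]; exact QuotientGroup.subsingleton_quotient_top
      infer_instance
    have hnt : Nontrivial (G ⧸ N) := by
      rw [← Finite.one_lt_card_iff_nontrivial]
      have h1 : Nat.card (G ⧸ N) = N.index := rfl
      have h2 : N.index ≠ 1 := fun h => htop (Subgroup.index_eq_one.1 h)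
      lia
    obtain ⟨M, hMn, hM0, hmin⟩ := exists_minimal_normal (Q := G ⧸ N)
    set N' := M.comap (QuotientGroup.mk' N) with hN'
    have hN'n : N'.Normal := hMn.comap _
    have hNN' : N ≤ N' := by
      intro x hx
      rw [hN', Subgroup.mem_comap]
      have : (QuotientGroup.mk' N) x = 1 := (QuotientGroup.eq_one_iff x).2 hx
      rw [this]
      exact M.one_mem
    have hidx : N'.index = M.index :=
      Subgroup.index_comap_of_surjective M (QuotientGroup.mk'_surjective N)
    have hMidx : M.index < N.index := by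
      have h1 : Nat.card M * M.index = N.index := Subgroup.card_mul_index M
      have h2 : 1 < Nat.card M := (Subgroup.one_lt_card_iff_ne_bot M).2 hM0
      have h3 : M.index ≠ 0 := Subgroup.index_ne_zero_of_finite
      have h4 := Nat.pos_of_ne_zero h3
      nlinarith
    have hN'0 : N'.index ≠ 0 := by rw [hidx]; exact Subgroup.index_ne_zero_of_finite
    have hsolv' : Group.IsSolvable (G ⧸ N') := by
      have hs : Function.Surjective (QuotientGroup.map N N' (MonoidHom.id G) hNN') := by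
        intro y
        obtain ⟨y, rfl⟩ := QuotientGroup.mk_surjective y
        exact ⟨(y : G ⧸ N), rfl⟩
      exact Group.isSolvable_of_surjective hs
    have hnil := ih N' hN'n (by lia) hN'0 hsolv'
    have hle : N.subgroupOf K ≤ N'.subgroupOf K := Subgroup.comap_mono hNN'
    let f := QuotientGroup.map (N.subgroupOf K) (N'.subgroupOf K) (MonoidHom.id K) hle
    refine Subgroup.isNilpotent_of_ker_le_center f ?_
    intro x hx
    obtain ⟨x, rfl⟩ := QuotientGroup.mk_surjective x
    have hxN' : x ∈ N'.subgroupOf K := by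
      rw [MonoidHom.mem_ker] at hx
      exact (QuotientGroup.eq_one_iff x).1 hx
    rw [Subgroup.mem_center_iff]
    intro y
    obtain ⟨y, rfl⟩ := QuotientGroup.mk_surjective y
    have h1 : ⁅y, x⁆ ∈ N.subgroupOf K := by
      rw [Subgroup.mem_subgroupOf]
      have h2 := hK N hN hN0 hsolv M hMn hM0 hmin y.2
      rw [Subgroup.mem_comap, Subgroup.mem_centralizer_iff] at h2
      have h3 := h2 ((QuotientGroup.mk' N) x.1) hxN'
      have h4 : Commute ((y.1 : G) : G ⧸ N) ((x.1 : G) : G ⧸ N) := h3.symm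
      exact commute_mk.1 h4
    exact (commute_mk.2 h1).eq

/-- **Main theorem on solvable quotients.** -/
theorem SFCC.exists_cyclic_quotients_of_solvable (h : SFCC G)
    (hunb : ∀ n : ℕ, ∃ N : Subgroup G, ∃ _ : N.Normal, N.index ≠ 0 ∧ n ≤ N.index ∧
      Group.IsSolvable (G ⧸ N)) : VCyc G := by
  by_contra hV
  have hNB : ∀ H : Subgroup G, H.index ≠ 0 → ∃ B : ℕ, ∀ N : Subgroup H, ∀ _ : N.Normal,
      N.index ≠ 0 → Group.IsNilpotent (H ⧸ N) → N.index ≤ B := by
    intro H hH
    have : H.FiniteIndex := ⟨hH⟩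
    exact (h.subgroup H).nilpotent_bound fun hH' => hV hH'.of_subgroup
  obtain ⟨r, a, lam, hsub, hcov⟩ := h
  have hcov' : Cov a := fun g => by
    obtain ⟨i, k, h, -⟩ := hcov g
    exact ⟨i, k, h⟩
  obtain ⟨B, hB⟩ := centralizer_bound hcov' hNB
  set K := coreBdd G B with hK
  have hK0 : K.index ≠ 0 := coreBdd_index_ne_zero hcov' B
  have hKc : ∀ N : Subgroup G, ∀ _ : N.Normal, N.index ≠ 0 → Group.IsSolvable (G ⧸ N) →
      ∀ M : Subgroup (G ⧸ N), M.Normal → M ≠ ⊥ →
        (∀ W : Subgroup (G ⧸ N), W.Normal → W ≤ M → W = ⊥ ∨ W = M) →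
        K ≤ (Subgroup.centralizer (M : Set (G ⧸ N))).comap (QuotientGroup.mk' N) := by
    intro N hN hN0 hsolv M hMn hM0 hmin
    have hfin : Finite (G ⧸ N) := Nat.finite_of_card_ne_zero hN0
    refine coreBdd_le (Subgroup.Normal.comap inferInstance _) ?_ (hB N hN hN0 hsolv M hMn hM0 hmin)
    rw [Subgroup.index_comap_of_surjective _ (QuotientGroup.mk'_surjective N)]
    exact Subgroup.index_ne_zero_of_finite
  obtain ⟨B', hB'⟩ := hNB K hK0
  obtain ⟨N, hN, hN0, hNn, hsolv⟩ := hunb (B' * K.index + 1)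
  have hnil := nilpotent_of_centralizes hKc N.index N hN le_rfl hN0 hsolv
  have hNKn : (N.subgroupOf K).Normal := Subgroup.Normal.subgroupOf hN K
  have hNK0 : (N.subgroupOf K).index ≠ 0 := by
    have h1 : N.relIndex K ≠ 0 := by
      intro h0
      have h2 := Subgroup.relIndex_dvd_index_of_normal N K
      rw [h0] at h2
      exact hN0 (Nat.eq_zero_of_zero_dvd h2)
    exact h1
  have h1 := hB' _ hNKn hNK0 hnil
  have h2 : (N ⊓ K).index = N.relIndex K * K.index := by
    rw [← Subgroup.relIndex_mul_index (inf_le_right : N ⊓ K ≤ K), Subgroup.inf_relIndex_right]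
  have h3 : N.index ≤ (N ⊓ K).index := by
    refine Nat.le_of_dvd (Nat.pos_of_ne_zero ?_) (Subgroup.index_dvd_of_le inf_le_left)
    rw [h2]
    exact mul_ne_zero hNK0 hK0
  have h4 : N.index ≤ B' * K.index := by
    calc N.index ≤ N.relIndex K * K.index := h2 ▸ h3
      _ ≤ B' * K.index := Nat.mul_le_mul_right _ h1
  lia

end Vale.Agent.P216.T1
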