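import Vale.Agent.P216.T1.Clifford5

/-!
# Chief factors of solvable groups
-/

set_option linter.all false

open scoped commutatorElement Nat

namespace Vale.Agent.P216.T1

theorem exists_minimal_normal {Q : Type*} [Group Q] [Finite Q] [Nontrivial Q] :
    ∃ M : Subgroup Q, M.Normal ∧ M ≠ ⊥ ∧ ∀ W : Subgroup Q, W.Normal → W ≤ M → W = ⊥ ∨ W = M := by
  classical
  let 𝒮 : Set (Subgroup Q) := {M | M.Normal ∧ M ≠ ⊥}
  have htop : (⊤ : Subgroup Q) ∈ 𝒮 := ⟨inferInstance, top_ne_bot⟩
  obtain ⟨M, hM⟩ := (Set.toFinite 𝒮).exists_minimal ⟨⊤, htop⟩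
  obtain ⟨hMn, hM0⟩ := hM.prop
  refine ⟨M, hMn, hM0, fun W hW hWM => ?_⟩
  by_cases h0 : W = ⊥
  · exact Or.inl h0
  · exact Or.inr (le_antisymm hWM (hM.le_of_le ⟨hW, h0⟩ hWM))

theorem minimal_normal_comm {Q : Type*} [Group Q] [hs : Group.IsSolvable Q] {M : Subgroup Q}
    (hMn : M.Normal) (hM0 : M ≠ ⊥)
    (hmin : ∀ W : Subgroup Q, W.Normal → W ≤ M → W = ⊥ ∨ W = M) :
    ∀ x ∈ M, ∀ y ∈ M, Commute x y := by
  have h1 : (⁅M, M⁆ : Subgroup Q).Normal := Subgroup.commutator_normal M M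
  have h2 : ⁅M, M⁆ ≤ M := Subgroup.commutator_le_right M M
  rcases hmin _ h1 h2 with h3 | h3
  · intro x hx y hy
    have h4 : ⁅x, y⁆ ∈ (⁅M, M⁆ : Subgroup Q) := Subgroup.commutator_mem_commutator hx hy
    rw [h3, Subgroup.mem_bot] at h4
    exact commutatorElement_eq_one_iff_commute.1 h4
  · exfalso
    have h4 : ∀ n, M ≤ derivedSeries Q n := by
      intro n
      induction n with
      | zero => exact le_top
      | succ n ih =>
        rw [derivedSeries_succ]
        calc M = ⁅M, M⁆ := h3.symm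
          _ ≤ _ := Subgroup.commutator_mono ih ih
    obtain ⟨n, hn⟩ := hs.solvable
    have := h4 n
    rw [hn, le_bot_iff] at this
    exact hM0 this

theorem chief_structure {Q : Type*} [Group Q] [Finite Q] [Group.IsSolvable Q] (M : Subgroup Q)
    (hMn : M.Normal) (hM0 : M ≠ ⊥)
    (hmin : ∀ W : Subgroup Q, W.Normal → W ≤ M → W = ⊥ ∨ W = M) {r : ℕ} (m : Fin r → Q)
    (hcov : ∀ x : Q, ∃ i, ∃ k : ℤ, IsConj x (m i ^ k)) (Mf : ℕ → ℕ)
    (hMf : ∀ D n k o s X : ℕ, 1 ≤ n → k ≤ r → 0 < o →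
      o ≤ (n ^ 2) ^ k → 2 ^ s ≤ o → X ≤ (o * o ^ k) ^ s → 2 ^ n ≤ 2 * (r * D * X) → X ≤ Mf D) :
    ∃ Q₁ Q₂ E : Subgroup Q, Q₁.Normal ∧ Q₂.Normal ∧ E.Normal ∧ Q₁.index ≤ r ! ∧
      (∀ a ∈ Q₁, ∀ b ∈ Q₁, ⁅a, b⁆ ∈ Q₂) ∧ Q₂ ≤ Q₁ ∧ E ≤ Q₂ ∧ E.relIndex Q₂ ≤ Mf Q₂.index ∧
      (∀ x ∈ E, ∀ y ∈ E, ⁅x, y⁆ ∈ Subgroup.centralizer (M : Set Q)) ∧
      Subgroup.centralizer (M : Set Q) ≤ E := by
  classical
  have hab := minimal_normal_comm hMn hM0 hmin
  letI : CommGroup M :=
    { (inferInstance : Group M) with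
      mul_comm := fun x y => Subtype.ext (hab x.1 x.2 y.1 y.2) }
  let A : Subgroup (MulAut M) := (MulAut.conjNormal (H := M) : Q →* MulAut M).range
  let ψ : Q →* A := (MulAut.conjNormal (H := M) : Q →* MulAut M).rangeRestrict
  have hψ : Function.Surjective ψ := MonoidHom.rangeRestrict_surjective _
  have hψa : ∀ (g : Q) (x : M), (((ψ g : A) : MulAut M) x : Q) = g * x * g⁻¹ := by
    intro g x
    exact MulAut.conjNormal_apply g x
  have hker : ∀ g : Q, ψ g = 1 ↔ g ∈ Subgroup.centralizer (M : Set Q) := by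
    intro g
    rw [Subgroup.mem_centralizer_iff]
    constructor
    · intro h1 x hx
      have h2 := hψa g ⟨x, hx⟩
      rw [h1] at h2
      have h3 : x = g * x * g⁻¹ := h2
      rw [eq_mul_inv_iff_mul_eq] at h3
      exact h3
    · intro h1
      apply Subtype.ext
      ext x
      rw [hψa]
      have h2 := h1 x.1 x.2
      rw [← h2]
      simp
  letI : DistribMulAction A (Additive M) :=
    { smul := fun a v => Additive.ofMul ((a : MulAut M) (Additive.toMul v))
      one_smul := fun v => rfl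
      mul_smul := fun a b v => rfl
      smul_zero := fun a => congrArg Additive.ofMul (map_one (a : MulAut M))
      smul_add := fun a v w => congrArg Additive.ofMul (map_mul (a : MulAut M) _ _) }
  have hsmul : ∀ (a : A) (v : Additive M), a • v = Additive.ofMul ((a : MulAut M) (Additive.toMul v)) :=
    fun _ _ => rfl
  have hfaith : FaithfulSMul A (Additive M) :=
    ⟨fun {a b} hab' => Subtype.ext (MulEquiv.ext fun x => hab' (Additive.ofMul x))⟩
  have hMnt : Nontrivial M := (Subgroup.nontrivial_iff_ne_bot M).2 hM0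
  have hfinM : Finite M := inferInstance
  have hfinA : Finite A := Finite.of_surjective ψ hψ
  have hsolvA : Group.IsSolvable A := Group.isSolvable_of_surjective hψ
  -- irreducibility
  have irr : ∀ W : AddSubgroup (Additive M), (∀ a : A, ∀ w ∈ W, a • w ∈ W) → W = ⊥ ∨ W = ⊤ := by
    intro W hW
    let W' : Subgroup Q := (AddSubgroup.toSubgroup' W).map M.subtype
    have hmem : ∀ x : M, (x : Q) ∈ W' ↔ Additive.ofMul x ∈ W := by
      intro x
      constructor
      · rintro ⟨y, hy, hyx⟩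
        have : y = x := Subtype.ext hyx
        rw [← this]
        exact hy
      · intro hx
        exact ⟨x, hx, rfl⟩
    have hW'M : W' ≤ M := by
      rintro _ ⟨y, -, rfl⟩
      exact y.2
    have hW'n : W'.Normal := by
      constructor
      rintro _ ⟨y, hy, rfl⟩ g
      refine ⟨((ψ g : A) : MulAut M) y, ?_, hψa g y⟩
      exact hW (ψ g) (Additive.ofMul y) hy
    rcases hmin W' hW'n hW'M with h1 | h1
    · left
      rw [eq_bot_iff]
      intro v hv
      have h2 : ((Additive.toMul v : M) : Q) ∈ W' := (hmem _).2 hv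
      rw [h1, Subgroup.mem_bot] at h2
      rw [AddSubgroup.mem_bot]
      have h3 : (Additive.toMul v : M) = 1 := Subtype.ext h2
      exact h3
    · right
      rw [eq_top_iff]
      intro v _
      have h2 : ((Additive.toMul v : M) : Q) ∈ W' := by rw [h1]; exact (Additive.toMul v).2
      exact (hmem _).1 h2
  -- the prime
  set p := (Nat.card M).minFac with hpdef
  have hcardM : Nat.card M ≠ 1 := (Finite.one_lt_card (α := M)).ne'
  have hp : p.Prime := Nat.minFac_prime hcardM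
  have hpV : ∀ v : Additive M, (p : ℤ) • v = 0 := by
    let W : Subgroup Q :=
      { carrier := {x | x ∈ M ∧ x ^ p = 1}
        one_mem' := ⟨M.one_mem, one_pow p⟩
        mul_mem' := fun {x y} hx hy =>
          ⟨M.mul_mem hx.1 hy.1, by rw [(hab x hx.1 y hy.1).mul_pow, hx.2, hy.2, one_mul]⟩
        inv_mem' := fun {x} hx => ⟨M.inv_mem hx.1, by rw [inv_pow, hx.2, inv_one]⟩ }
    have hWn : W.Normal := by
      constructor
      rintro x ⟨hx1, hx2⟩ g
      exact ⟨hMn.conj_mem x hx1 g, by rw [conj_pow, hx2]; group⟩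
    have hW0 : W ≠ ⊥ := by
      have := Fact.mk hp
      obtain ⟨x, hx⟩ := exists_prime_orderOf_dvd_card' (G := M) p (Nat.minFac_dvd _)
      intro h0
      have h1 : (x : Q) ∈ W := ⟨x.2, by
        have := pow_orderOf_eq_one x
        rw [hx] at this
        exact congrArg Subtype.val this⟩
      rw [h0, Subgroup.mem_bot] at h1
      have h2 : x = 1 := Subtype.ext h1
      rw [h2, orderOf_one] at hx
      exact hp.one_lt.ne hx
    have hWM : W = M := (hmin W hWn (fun x hx => hx.1)).resolve_left hW0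
    intro v
    have h1 : ((Additive.toMul v : M) : Q) ∈ W := by rw [hWM]; exact (Additive.toMul v).2
    have h2 : (Additive.toMul v : M) ^ p = 1 := Subtype.ext h1.2
    rw [natCast_zsmul]
    exact h2
  -- the lines
  have hgen : ∀ i : Fin r, ∃ d : ℤ, m i ^ d ∈ M ∧ ∀ k : ℤ, m i ^ k ∈ M → ∃ j : ℤ, k = d * j := by
    intro i
    let f : Multiplicative ℤ →* Q := zpowersHom Q (m i)
    have hf : ∀ k : ℤ, f (Multiplicative.ofAdd k) = m i ^ k := fun k => by simp [f]
    let L : AddSubgroup ℤ := Subgroup.toAddSubgroup' (M.comap f)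
    obtain ⟨d, hd⟩ := Int.subgroup_cyclic L
    have hmem : ∀ k : ℤ, k ∈ L ↔ m i ^ k ∈ M := by
      intro k
      have : k ∈ L ↔ f (Multiplicative.ofAdd k) ∈ M := Iff.rfl
      rw [this, hf]
    refine ⟨d, (hmem d).1 (by rw [hd]; exact AddSubgroup.mem_closure_singleton_self d), ?_⟩
    intro k hk
    have := (hmem k).2 hk
    rw [hd, AddSubgroup.mem_closure_singleton] at this
    obtain ⟨j, hj⟩ := this
    exact ⟨j, by rw [← hj, smul_eq_mul, mul_comm]⟩
  choose d hd hd' using hgen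
  let w : Fin r → Additive M := fun i => Additive.ofMul ⟨m i ^ d i, hd i⟩
  have hw : ∀ v : Additive M, v ≠ 0 → ∃ (i : Fin r) (a : A) (c : ℤ), v = a • (c • w i) := by
    intro v _
    obtain ⟨i, k, hik⟩ := hcov ((Additive.toMul v : M) : Q)
    obtain ⟨g, hg⟩ := isConj_iff.1 hik
    have hk : m i ^ k ∈ M := by
      rw [← hg]; exact hMn.conj_mem _ (Additive.toMul v).2 g
    obtain ⟨j, hj⟩ := hd' i k hk
    refine ⟨i, ψ g⁻¹, j, ?_⟩
    rw [hsmul]
    have h1 : (Additive.toMul (j • w i) : M) = ⟨m i ^ k, hk⟩ := by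
      apply Subtype.ext
      change (((⟨m i ^ d i, hd i⟩ : M) ^ j : M) : Q) = m i ^ k
      rw [Subgroup.coe_zpow, hj, zpow_mul]
    rw [h1]
    have h2 : (Additive.toMul v : M) = ((ψ g⁻¹ : A) : MulAut M) ⟨m i ^ k, hk⟩ := by
      apply Subtype.ext
      rw [hψa]
      change ((Additive.toMul v : M) : Q) = g⁻¹ * (m i ^ k) * g⁻¹⁻¹
      rw [← hg]
      group
    exact congrArg Additive.ofMul h2
  obtain ⟨A₁, A₂, E, h1, h2, h3, h4, h5, h6, h7, h8, h9⟩ :=
    exists_structure (A := A) (V := Additive M) irr hp hpV w hw Mf hMf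
  refine ⟨A₁.comap ψ, A₂.comap ψ, E.comap ψ, h1.comap ψ, h2.comap ψ, h9.comap ψ, ?_, ?_, ?_, ?_,
    ?_, ?_, ?_⟩
  · rw [Subgroup.index_comap_of_surjective _ hψ]; exact h3
  · intro a ha b hb
    rw [Subgroup.mem_comap, map_commutatorElement]
    exact h4 _ ha _ hb
  · exact Subgroup.comap_mono h5
  · exact Subgroup.comap_mono h6
  · rw [Subgroup.relIndex_comap, Subgroup.map_comap_eq_self_of_surjective hψ,
      Subgroup.index_comap_of_surjective _ hψ]
    exact h7
  · intro x hx y hy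
    rw [← hker, map_commutatorElement, commutatorElement_eq_one_iff_commute]
    exact h8 _ hx _ hy
  · intro x hx
    rw [Subgroup.mem_comap, (hker x).2 hx]
    exact one_mem E

end Vale.Agent.P216.T1
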