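import Vale.Agent.P216.MathlibUsed
import Mathlib.RingTheory.Ideal.Pointwise
import Mathlib.RingTheory.Ideal.AssociatedPrime.Basic
import Mathlib.RingTheory.Ideal.Quotient.Operations
import Mathlib.RingTheory.Artinian.Module
import Mathlib.Algebra.Module.Torsion.Basic
import Mathlib.GroupTheory.Index

/-!
# Homogeneous components of an irreducible action
-/

set_option linter.all false

open scoped commutatorElement Pointwise

namespace Vale.Agent.P216.T1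

open Submodule

theorem finite_orbit {A X : Type*} [Group A] [Finite A] [MulAction A X] {x : X} :
    Finite (MulAction.orbit A x) :=
  Set.Finite.to_subtype (Set.finite_range fun a : A => a • x)

/-- A group acting compatibly on a ring and irreducibly on a module over it. -/
structure CliffordData (A R V : Type*) [Group A] [CommRing R] [AddCommGroup V] [Module R V]
    [DistribMulAction A V] [MulSemiringAction A R] : Prop where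
  compat : ∀ (a : A) (ρ : R) (v : V), a • (ρ • v) = (a • ρ) • (a • v)
  irr : ∀ W : AddSubgroup V, (∀ a : A, ∀ w ∈ W, a • w ∈ W) → W = ⊥ ∨ W = ⊤

variable {A R V : Type*} [Group A] [CommRing R] [AddCommGroup V] [Module R V]
  [DistribMulAction A V] [MulSemiringAction A R]

/-- There is a maximal ideal with nonzero torsion. -/
theorem exists_maximal [Finite R] [Nontrivial V] :
    ∃ 𝔪 : Ideal R, 𝔪.IsMaximal ∧ ∃ v ∈ torsionBySet R V (𝔪 : Set R), v ≠ 0 := by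
  obtain ⟨𝔪, h𝔪⟩ := associatedPrimes.nonempty R V
  have hp : 𝔪.IsPrime := IsAssociatedPrime.isPrime h𝔪
  have hmax : 𝔪.IsMaximal := IsArtinianRing.isMaximal_of_isPrime 𝔪
  rw [AssociatedPrimes.mem_iff, isAssociatedPrime_iff] at h𝔪
  obtain ⟨-, v, hv⟩ := h𝔪
  have hvm : ∀ ρ ∈ 𝔪, ρ • v = 0 := by
    intro ρ hρ
    rw [hv] at hρ
    simpa using hρ
  refine ⟨𝔪, hmax, v, ?_, ?_⟩
  · rw [mem_torsionBySet_iff]
    rintro ⟨ρ, hρ⟩
    exact hvm ρ hρ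
  · rintro rfl
    apply hp.ne_top
    rw [hv]
    ext x
    simp

/-- The homogeneous component of a maximal ideal. -/
abbrev Vm (V : Type*) [AddCommGroup V] [Module R V] (𝔪 : Ideal R) : Submodule R V :=
  torsionBySet R V (𝔪 : Set R)

theorem mem_Vm {𝔪 : Ideal R} {v : V} : v ∈ Vm V 𝔪 ↔ ∀ ρ ∈ 𝔪, ρ • v = 0 := by
  rw [mem_torsionBySet_iff]
  exact ⟨fun h ρ hρ => h ⟨ρ, hρ⟩, fun h ρ => h ρ.1 ρ.2⟩

section

variable (h : CliffordData A R V) {𝔪₀ : Ideal R}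

include h

theorem CliffordData.smul_mem {𝔪 : Ideal R} {v : V} (a : A) (hv : v ∈ Vm V 𝔪) :
    a • v ∈ Vm V (a • 𝔪) := by
  rw [mem_Vm] at hv ⊢
  intro ρ hρ
  rw [Ideal.mem_pointwise_smul_iff_inv_smul_mem] at hρ
  have h1 : ρ • (a • v) = a • ((a⁻¹ • ρ) • v) := by
    rw [h.compat, smul_inv_smul]
  rw [h1, hv _ hρ, smul_zero]

theorem CliffordData.iSup_eq_top (hne : ∃ v ∈ Vm V 𝔪₀, v ≠ 0) :
    ⨆ 𝔪 : MulAction.orbit A 𝔪₀, Vm V 𝔪.1 = ⊤ := by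
  set U : Submodule R V := ⨆ 𝔪 : MulAction.orbit A 𝔪₀, Vm V 𝔪.1 with hU
  have hinv : ∀ a : A, ∀ w ∈ U.toAddSubgroup, a • w ∈ U.toAddSubgroup := by
    intro a w hw
    rw [Submodule.mem_toAddSubgroup] at hw ⊢
    refine Submodule.iSup_induction _ (motive := fun w => a • w ∈ U) hw ?_ ?_ ?_
    · intro 𝔪 v hv
      have h1 := h.smul_mem a hv
      exact Submodule.mem_iSup_of_mem (a • 𝔪 : MulAction.orbit A 𝔪₀) h1
    · rw [smul_zero]; exact U.zero_mem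
    · intro v w hv hw
      rw [smul_add]
      exact U.add_mem hv hw
  rcases h.irr _ hinv with h1 | h1
  · exfalso
    obtain ⟨v, hv, hv0⟩ := hne
    have h2 : v ∈ U := Submodule.mem_iSup_of_mem
      (⟨𝔪₀, MulAction.mem_orbit_self 𝔪₀⟩ : MulAction.orbit A 𝔪₀) hv
    have h3 : v ∈ U.toAddSubgroup := h2
    rw [h1] at h3
    exact hv0 h3
  · rw [eq_top_iff]
    intro v _
    have : v ∈ U.toAddSubgroup := by rw [h1]; trivial
    exact this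

theorem CliffordData.eq_zero_of_forall_mem [FaithfulSMul R V] (hne : ∃ v ∈ Vm V 𝔪₀, v ≠ 0) {ρ : R}
    (hρ : ∀ 𝔪 ∈ MulAction.orbit A 𝔪₀, ρ ∈ 𝔪) : ρ = 0 := by
  apply FaithfulSMul.eq_of_smul_eq_smul (α := V)
  intro v
  rw [zero_smul]
  have hv : v ∈ ⨆ 𝔪 : MulAction.orbit A 𝔪₀, Vm V 𝔪.1 := by
    rw [h.iSup_eq_top hne]; trivial
  refine Submodule.iSup_induction _ (motive := fun v => ρ • v = 0) hv ?_ ?_ ?_
  · intro 𝔪 v hv
    exact mem_Vm.1 hv ρ (hρ 𝔪.1 𝔪.2)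
  · rw [smul_zero]
  · intro v w hv hw
    rw [smul_add, hv, hw, add_zero]

theorem isMaximal_orbit [h𝔪 : 𝔪₀.IsMaximal] (𝔪 : MulAction.orbit A 𝔪₀) : 𝔪.1.IsMaximal := by
  obtain ⟨_, a, rfl⟩ := 𝔪
  change (a • 𝔪₀).IsMaximal
  rw [Ideal.pointwise_smul_eq_comap]
  exact Ideal.comap_isMaximal_of_surjective _ (RingEquiv.surjective _)

/-- The idempotents. -/
theorem CliffordData.exists_idem [Finite A] [FaithfulSMul R V] [𝔪₀.IsMaximal]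
    (hne : ∃ v ∈ Vm V 𝔪₀, v ≠ 0) :
    ∃ e : MulAction.orbit A 𝔪₀ → R, (∀ 𝔪, e 𝔪 - 1 ∈ 𝔪.1) ∧
      (∀ 𝔪 𝔪', 𝔪 ≠ 𝔪' → e 𝔪 ∈ 𝔪'.1) ∧ (∀ (a : A) 𝔪, a • e 𝔪 = e (a • 𝔪)) := by
  classical
  have hfin : Finite (MulAction.orbit A 𝔪₀) := finite_orbit
  have hcop : Pairwise (Function.onFun IsCoprime fun 𝔪 : MulAction.orbit A 𝔪₀ => 𝔪.1) := by
    intro 𝔪 𝔪' hne'
    have h1 := isMaximal_orbit h 𝔪
    have h2 := isMaximal_orbit h 𝔪'
    rw [Function.onFun, Ideal.isCoprime_iff_sup_eq]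
    exact h1.coprime_of_ne h2 fun h3 => hne' (Subtype.ext h3)
  have hex : ∀ 𝔪 : MulAction.orbit A 𝔪₀, ∃ ρ : R, ∀ 𝔪' : MulAction.orbit A 𝔪₀,
      ρ - (if 𝔪 = 𝔪' then 1 else 0) ∈ 𝔪'.1 := fun 𝔪 =>
    Ideal.exists_forall_sub_mem_ideal hcop fun 𝔪' => if 𝔪 = 𝔪' then 1 else 0
  choose e he using hex
  have he1 : ∀ 𝔪, e 𝔪 - 1 ∈ 𝔪.1 := fun 𝔪 => by simpa using he 𝔪 𝔪
  have he2 : ∀ 𝔪 𝔪', 𝔪 ≠ 𝔪' → e 𝔪 ∈ 𝔪'.1 := fun 𝔪 𝔪' hne' => by
    simpa [hne'] using he 𝔪 𝔪'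
  refine ⟨e, he1, he2, fun a 𝔪 => ?_⟩
  rw [← sub_eq_zero]
  apply h.eq_zero_of_forall_mem hne
  intro 𝔪' h𝔪'
  by_cases hc : a • 𝔪 = (⟨𝔪', h𝔪'⟩ : MulAction.orbit A 𝔪₀)
  · have h1 : a • e 𝔪 - 1 ∈ 𝔪' := by
      have : 𝔪' = a • 𝔪.1 := (congrArg Subtype.val hc).symm
      rw [this, Ideal.mem_pointwise_smul_iff_inv_smul_mem, smul_sub, inv_smul_smul, smul_one]
      exact he1 𝔪
    have h2 : e (a • 𝔪) - 1 ∈ 𝔪' := by
      rw [hc]; exact he1 ⟨𝔪', h𝔪'⟩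
    have : a • e 𝔪 - e (a • 𝔪) = (a • e 𝔪 - 1) - (e (a • 𝔪) - 1) := by ring
    rw [this]
    exact sub_mem h1 h2
  · have h1 : a • e 𝔪 ∈ 𝔪' := by
      obtain ⟨𝔪'', h𝔪''⟩ : ∃ 𝔪'' : MulAction.orbit A 𝔪₀, a • 𝔪'' = ⟨𝔪', h𝔪'⟩ :=
        ⟨a⁻¹ • ⟨𝔪', h𝔪'⟩, smul_inv_smul _ _⟩
      have h3 : 𝔪' = a • 𝔪''.1 := (congrArg Subtype.val h𝔪'').symm
      rw [h3, Ideal.mem_pointwise_smul_iff_inv_smul_mem, inv_smul_smul]
      refine he2 𝔪 𝔪'' ?_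
      rintro rfl
      exact hc h𝔪''
    exact sub_mem h1 (he2 _ _ hc)

end

end Vale.Agent.P216.T1
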