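import Vale.Agent.P216.T1.Clifford

/-!
# Counting in the homogeneous components
-/

set_option linter.all false

open scoped commutatorElement Pointwise

namespace Vale.Agent.P216.T1

open Submodule

variable {A R V : Type*} [Group A] [CommRing R] [AddCommGroup V] [Module R V]
  [DistribMulAction A V] [MulSemiringAction A R]

section

variable (h : CliffordData A R V) {𝔪₀ : Ideal R}

include h

/-- The idempotents, with their action on `V`. -/
theorem CliffordData.exists_idem' [Finite A] [FaithfulSMul R V] [𝔪₀.IsMaximal]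
    (hne : ∃ v ∈ Vm V 𝔪₀, v ≠ 0) :
    ∃ e : MulAction.orbit A 𝔪₀ → R,
      (∀ 𝔪, ∀ v ∈ Vm V 𝔪.1, e 𝔪 • v = v) ∧
      (∀ 𝔪 𝔪', 𝔪 ≠ 𝔪' → ∀ v ∈ Vm V 𝔪'.1, e 𝔪 • v = 0) ∧
      (∀ 𝔪, ∀ v : V, e 𝔪 • v ∈ Vm V 𝔪.1) ∧
      (∀ (a : A) 𝔪 (v : V), a • (e 𝔪 • v) = e (a • 𝔪) • (a • v)) := by
  obtain ⟨e, he1, he2, he3⟩ := h.exists_idem hne
  refine ⟨e, ?_, ?_, ?_, ?_⟩
  · intro 𝔪 v hv
    have := mem_Vm.1 hv _ (he1 𝔪)
    rwa [sub_smul, one_smul, sub_eq_zero] at this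
  · intro 𝔪 𝔪' hne' v hv
    exact mem_Vm.1 hv _ (he2 _ _ hne')
  · intro 𝔪 v
    rw [mem_Vm]
    intro ρ hρ
    rw [← mul_smul]
    have : ρ * e 𝔪 = 0 := by
      apply h.eq_zero_of_forall_mem hne
      intro 𝔪' h𝔪'
      by_cases hc : 𝔪 = ⟨𝔪', h𝔪'⟩
      · rw [hc] at hρ
        exact Ideal.mul_mem_right _ _ hρ
      · exact Ideal.mul_mem_left _ _ (he2 𝔪 ⟨𝔪', h𝔪'⟩ hc)
    rw [this, zero_smul]
  · intro a 𝔪 v
    rw [h.compat, he3]

/-- Transport of a nonzero vector to all components. -/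
theorem CliffordData.exists_ne_zero (hne : ∃ v ∈ Vm V 𝔪₀, v ≠ 0) (𝔪 : MulAction.orbit A 𝔪₀) :
    ∃ v ∈ Vm V 𝔪.1, v ≠ 0 := by
  obtain ⟨_, a, rfl⟩ := 𝔪
  obtain ⟨v, hv, hv0⟩ := hne
  exact ⟨a • v, h.smul_mem a hv, fun h0 => hv0 ((smul_eq_zero_iff_eq a).1 h0)⟩

/-- The number of components is at most the number of orbits on lines. -/
theorem CliffordData.card_orbit_le [Finite A] [FaithfulSMul R V] [𝔪₀.IsMaximal]
    (hne : ∃ v ∈ Vm V 𝔪₀, v ≠ 0) {p : ℕ} (hp : p.Prime) (hpV : ∀ v : V, (p : ℤ) • v = 0)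
    {r : ℕ} (w : Fin r → V)
    (hw : ∀ v : V, v ≠ 0 → ∃ (i : Fin r) (a : A) (c : ℤ), v = a • (c • w i)) :
    Nat.card (MulAction.orbit A 𝔪₀) ≤ r := by
  classical
  obtain ⟨e, he1, he2, he3, he4⟩ := h.exists_idem' hne
  have hfin : Finite (MulAction.orbit A 𝔪₀) := finite_orbit
  have := Fintype.ofFinite (MulAction.orbit A 𝔪₀)
  choose u hu hu0 using h.exists_ne_zero hne
  let sz : V → ℕ := fun v => (Finset.univ.filter fun 𝔪 : MulAction.orbit A 𝔪₀ => e 𝔪 • v ≠ 0).card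
  have hsz1 : ∀ (a : A) (v : V), sz (a • v) = sz v := by
    intro a v
    symm
    refine Finset.card_bij (fun 𝔪 _ => a • 𝔪) ?_ ?_ ?_
    · intro 𝔪 h𝔪
      simp only [Finset.mem_filter, Finset.mem_univ, true_and] at h𝔪 ⊢
      rw [← he4]
      exact fun h0 => h𝔪 ((smul_eq_zero_iff_eq a).1 h0)
    · intro 𝔪 _ 𝔪' _ heq
      exact smul_left_cancel a heq
    · intro 𝔪 h𝔪
      refine ⟨a⁻¹ • 𝔪, ?_, smul_inv_smul _ _⟩
      simp only [Finset.mem_filter, Finset.mem_univ, true_and] at h𝔪 ⊢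
      intro h0
      apply h𝔪
      have := he4 a (a⁻¹ • 𝔪) v
      rw [h0, smul_zero, smul_inv_smul] at this
      exact this.symm
  have hinj : ∀ (c : ℤ) (v : V), c • v ≠ 0 → ∀ x : V, c • x = 0 → x = 0 := by
    intro c v hcv x hx
    have hnd : ¬ (p : ℤ) ∣ c := by
      rintro ⟨d, rfl⟩
      apply hcv
      rw [mul_comm, mul_smul, hpV, smul_zero]
    have hcop : IsCoprime (p : ℤ) c :=
      (Prime.coprime_iff_not_dvd (Nat.prime_iff_prime_int.1 hp)).2 hnd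
    obtain ⟨s, t, hst⟩ := hcop
    have : x = (s * p + t * c) • x := by rw [hst, one_smul]
    rw [this, add_smul, mul_smul, mul_smul, hpV, hx, smul_zero, smul_zero, add_zero]
  have hsz2 : ∀ (c : ℤ) (v : V), c • v ≠ 0 → sz (c • v) = sz v := by
    intro c v hcv
    refine congrArg Finset.card (Finset.filter_congr fun 𝔪 _ => ?_)
    rw [not_iff_not]
    constructor
    · intro h1
      rw [smul_comm] at h1
      exact hinj c v hcv _ h1
    · intro h1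
      rw [smul_comm, h1, smul_zero]
  have hsz3 : ∀ S : Finset (MulAction.orbit A 𝔪₀), sz (∑ 𝔪 ∈ S, u 𝔪) = S.card := by
    intro S
    have : (Finset.univ.filter fun 𝔪 : MulAction.orbit A 𝔪₀ =>
        e 𝔪 • (∑ 𝔪' ∈ S, u 𝔪') ≠ 0) = S := by
      ext 𝔪
      simp only [Finset.mem_filter, Finset.mem_univ, true_and]
      rw [Finset.smul_sum]
      by_cases h𝔪 : 𝔪 ∈ S
      · rw [Finset.sum_eq_single_of_mem 𝔪 h𝔪 (fun 𝔪' _ hne' => he2 _ _ (Ne.symm hne') _ (hu 𝔪')),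
          he1 _ _ (hu 𝔪)]
        simp [h𝔪, hu0]
      · rw [Finset.sum_eq_zero (fun 𝔪' h𝔪' => he2 _ _ (by rintro rfl; exact h𝔪 h𝔪') _ (hu 𝔪'))]
        simp [h𝔪]
    simp only [sz]
    rw [this]
  rw [Nat.card_eq_fintype_card]
  set k := Fintype.card (MulAction.orbit A 𝔪₀) with hk
  have hsub : Finset.Icc 1 k ⊆ Finset.univ.image fun i : Fin r => sz (w i) := by
    intro j hj
    rw [Finset.mem_Icc] at hj
    obtain ⟨S, -, hS⟩ := Finset.exists_subset_card_eq (s := (Finset.univ :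
      Finset (MulAction.orbit A 𝔪₀))) (n := j) (by rw [Finset.card_univ]; exact hj.2)
    have h1 := hsz3 S
    have hv0 : (∑ 𝔪 ∈ S, u 𝔪) ≠ 0 := by
      intro h0
      rw [h0] at h1
      simp [sz] at h1
      lia
    obtain ⟨i, a, c, hv⟩ := hw _ hv0
    rw [Finset.mem_image]
    refine ⟨i, Finset.mem_univ _, ?_⟩
    have hc : c • w i ≠ 0 := by
      intro h0
      rw [h0, smul_zero] at hv
      exact hv0 hv
    rw [← hsz2 c (w i) hc, ← hsz1 a, ← hv, h1, hS]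
  have h1 := Finset.card_le_card hsub
  have h2 : (Finset.univ.image fun i : Fin r => sz (w i)).card ≤ r := by
    refine Finset.card_image_le.trans ?_
    simp
  simp only [Nat.card_Icc, add_tsub_cancel_right] at h1
  lia

/-- The orbit count. -/
theorem CliffordData.card_Vm_le [Finite A] [Finite R] [Nontrivial V] {p : ℕ} (hp : p.Prime)
    (hpV : ∀ v : V, (p : ℤ) • v = 0)
    {r : ℕ} (w : Fin r → V)
    (hw : ∀ v : V, v ≠ 0 → ∃ (i : Fin r) (a : A) (c : ℤ), v = a • (c • w i))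
    (E : Subgroup A) (hE : ∀ e ∈ E, ∃ ρ : R, ∀ v : V, e • v = ρ • v) :
    Nat.card (Vm V 𝔪₀) ≤ r * E.index * Nat.card (R ⧸ 𝔪₀) := by
  classical
  choose! ε hε using hE
  have hex : ∀ i : Fin r, ∃ u ∈ Vm V 𝔪₀, ∀ (a : A) (c : ℤ), a • (c • w i) ∈ Vm V 𝔪₀ →
      a • (c • w i) ≠ 0 → ∃ (g : A) (d : ℤ), a • (c • w i) = g • (d • u) := by
    intro i
    by_cases hi : ∃ (a' : A) (c' : ℤ), a' • (c' • w i) ∈ Vm V 𝔪₀ ∧ a' • (c' • w i) ≠ 0
    · obtain ⟨a', c', h1, h2⟩ := hi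
      refine ⟨_, h1, fun a c _ _ => ?_⟩
      have hnd : ¬ (p : ℤ) ∣ c' := by
        rintro ⟨d, rfl⟩
        apply h2
        rw [mul_comm, mul_smul, hpV, smul_zero, smul_zero]
      have hcop : IsCoprime (p : ℤ) c' :=
        (Prime.coprime_iff_not_dvd (Nat.prime_iff_prime_int.1 hp)).2 hnd
      obtain ⟨s, t, hst⟩ := hcop
      have h3 : (t * c') • w i = w i := by
        have : (s * p + t * c') • w i = w i := by rw [hst, one_smul]
        rwa [add_smul, mul_smul, hpV, smul_zero, zero_add] at this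
      refine ⟨a * a'⁻¹, c * t, ?_⟩
      have h4 : (c * t) • (a' • (c' • w i)) = a' • (c • w i) := by
        rw [smul_comm (c * t) a', smul_smul, mul_assoc, mul_smul, h3]
      rw [h4, mul_smul, inv_smul_smul]
    · refine ⟨0, Submodule.zero_mem _, fun a c h1 h2 => ?_⟩
      exact absurd ⟨a, c, h1, h2⟩ hi
  choose u hu hu' using hex
  have hfinA : Finite (A ⧸ E) := inferInstance
  have hfinR : Finite (R ⧸ 𝔪₀) := Quotient.finite _
  let Ψ : Fin r × (A ⧸ E) × (R ⧸ 𝔪₀) → V := fun x =>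
    (Quotient.out x.2.1) • ((Quotient.out x.2.2 : R) • u x.1)
  have hout : ∀ (κ : R ⧸ 𝔪₀) (ρ : R), Ideal.Quotient.mk 𝔪₀ ρ = κ →
      ∀ i, (Quotient.out κ : R) • u i = ρ • u i := by
    intro κ ρ hκ i
    have h1 : Ideal.Quotient.mk 𝔪₀ (Quotient.out κ : R) = κ := Quotient.out_eq κ
    rw [← hκ, Ideal.Quotient.mk_eq_mk_iff_sub_mem] at h1
    have h2 := mem_Vm.1 (hu i) _ h1
    rw [sub_smul, sub_eq_zero] at h2
    rw [← h2, hκ]
  have hsub : (Vm V 𝔪₀ : Set V) ⊆ Set.range Ψ := by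
    intro v hv
    by_cases hv0 : v = 0
    · obtain ⟨v', hv'⟩ := exists_ne (0 : V)
      obtain ⟨i, -, -, -⟩ := hw v' hv'
      refine ⟨(i, ((1 : A) : A ⧸ E), 0), ?_⟩
      simp only [Ψ]
      rw [hout 0 0 (map_zero _), zero_smul, smul_zero, hv0]
    · obtain ⟨i, a, c, hvac⟩ := hw v hv0
      obtain ⟨g, d, hgd⟩ := hu' i a c (by rw [← hvac]; exact hv) (by rw [← hvac]; exact hv0)
      set x : A ⧸ E := (g : A ⧸ E) with hx
      obtain ⟨e, he⟩ := QuotientGroup.mk_out_eq_mul E g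
      -- `x.out = g * e`
      have hg : g = Quotient.out x * (e : A)⁻¹ := by
        have : Quotient.out x = g * e := he
        rw [this]; group
      refine ⟨(i, x, Ideal.Quotient.mk 𝔪₀ ((d : R) * ε (e : A)⁻¹)), ?_⟩
      simp only [Ψ]
      rw [hout _ _ rfl, hvac, hgd]
      conv_rhs => rw [hg]
      rw [mul_smul (Quotient.out x : A), smul_comm ((e : A)⁻¹) d (u i), hε _ (E.inv_mem e.2),
        mul_smul, Int.cast_smul_eq_zsmul]
  have h1 : Nat.card (Vm V 𝔪₀) ≤ Nat.card (Set.range Ψ) :=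
    Nat.card_mono (Set.toFinite _) hsub
  have h2 : Nat.card (Set.range Ψ) ≤ Nat.card (Fin r × (A ⧸ E) × (R ⧸ 𝔪₀)) :=
    Finite.card_range_le Ψ
  refine h1.trans (h2.trans (le_of_eq ?_))
  rw [Nat.card_prod, Nat.card_prod, Nat.card_fin, mul_assoc]
  rfl

end

end Vale.Agent.P216.T1
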