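import Vale.Agent.P216.MathlibUsed
import Mathlib.GroupTheory.Index
import Mathlib.LinearAlgebra.FiniteDimensional.Basic
import Mathlib.LinearAlgebra.Matrix.ToLin
import Mathlib.LinearAlgebra.Dimension.Constructions

/-!
# Linear independence of a Heisenberg type group of operators
-/

set_option linter.all false

open scoped commutatorElement

namespace Vale.Agent.P216.T1

theorem linearIndependent_of_eigen {K W S J : Type*} [Field K] [AddCommGroup W] [Module K W]
    (T : J → Module.End K W) (c : J → S → K) (w : S → W) (hw : ∀ s, w s ≠ 0)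
    (hT : ∀ j s, T j (w s) = c j s • w s) (hc : ∀ s s', (∀ j, c j s = c j s') → s = s') :
    LinearIndependent K w := by
  classical
  rw [linearIndependent_iff']
  intro F
  induction F using Finset.induction_on with
  | empty => intro a _ i hi; simp at hi
  | insert s₀ F hs₀ ih =>
    intro a ha
    have h1 : ∀ s ∈ F, a s = 0 := by
      intro s₁ hs₁
      have hne : s₁ ≠ s₀ := by rintro rfl; exact hs₀ hs₁
      obtain ⟨j, hj⟩ : ∃ j, c j s₁ ≠ c j s₀ := by
        by_contra! hcon
        exact hne (hc _ _ hcon)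
      have h2 : ∑ s ∈ F, (a s * (c j s - c j s₀)) • w s = 0 := by
        have h3 := congrArg (T j) ha
        rw [map_sum, map_zero] at h3
        simp only [map_smul, hT] at h3
        have h4 := congrArg (fun x => c j s₀ • x) ha
        simp only [smul_zero, Finset.smul_sum] at h4
        rw [Finset.sum_insert hs₀] at h3 h4
        have h5 : ∑ s ∈ F, (a s * (c j s - c j s₀)) • w s =
            (a s₀ • c j s₀ • w s₀ + ∑ s ∈ F, a s • c j s • w s) -
            (c j s₀ • a s₀ • w s₀ + ∑ s ∈ F, c j s₀ • a s • w s) := by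
          rw [smul_comm (a s₀) (c j s₀), add_sub_add_left_eq_sub, ← Finset.sum_sub_distrib]
          refine Finset.sum_congr rfl fun s _ => ?_
          rw [mul_sub, sub_smul, mul_smul, mul_smul, smul_comm (a s) (c j s₀)]
        rw [h5, h3, h4, sub_zero]
      have h3 := ih (fun s => a s * (c j s - c j s₀)) h2 s₁ hs₁
      rcases mul_eq_zero.1 h3 with h4 | h4
      · exact h4
      · exact absurd (sub_eq_zero.1 h4) hj
    intro s hs
    rcases Finset.mem_insert.1 hs with rfl | hs
    · rw [Finset.sum_insert hs₀, Finset.sum_eq_zero (fun s hs => by rw [h1 s hs, zero_smul]),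
        add_zero] at ha
      exact (smul_eq_zero.1 ha).resolve_right (hw s)
    · exact h1 s hs

theorem index_le_sq {K W B : Type*} [Field K] [AddCommGroup W] [Module K W]
    [FiniteDimensional K W] [Nontrivial W] [Group B] (β : B →* Module.End K W)
    (hscal : ∀ b b' : B, ∃ c : K, β ⁅b, b'⁆ = c • 1) (B₀ : Subgroup B)
    (hB₀ : ∀ b, (∀ b', β ⁅b, b'⁆ = 1) → b ∈ B₀) :
    B₀.index ≠ 0 ∧ B₀.index ≤ Module.finrank K W ^ 2 := by
  classical
  choose c hc using hscal
  have hβ1 : ∀ b : B, β b * β b⁻¹ = 1 := fun b => by rw [← map_mul, mul_inv_cancel, map_one]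
  have hβ2 : ∀ b : B, β b⁻¹ * β b = 1 := fun b => by rw [← map_mul, inv_mul_cancel, map_one]
  let T : B → Module.End K (Module.End K W) := fun b =>
    LinearMap.mulLeft K (β b) * LinearMap.mulRight K (β b⁻¹)
  have hT : ∀ (b : B) (f : Module.End K W), T b f = β b * f * β b⁻¹ := by
    intro b f
    simp [T, mul_assoc]
  have hconj : ∀ b s : B, β (b * s * b⁻¹) = c b s • β s := by
    intro b s
    have h1 := hc b s
    have h2 : b * s * b⁻¹ = ⁅b, s⁆ * s := by rw [commutatorElement_def]; group
    rw [h2, map_mul, h1, smul_mul_assoc, one_mul]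
  have hne : ∀ b : B, β b ≠ 0 := by
    intro b h0
    have := hβ1 b
    rw [h0, zero_mul] at this
    exact zero_ne_one this
  have hli : LinearIndependent K fun s : B ⧸ B₀ => β s.out := by
    refine linearIndependent_of_eigen T (fun b s => c b s.out) _ (fun s => hne _) ?_ ?_
    · intro b s
      rw [hT, ← map_mul, ← map_mul, hconj]
    · intro s s' hss'
      rw [← QuotientGroup.out_eq' s, ← QuotientGroup.out_eq' s', QuotientGroup.eq]
      apply hB₀
      intro b
      -- conjugation by `b` fixes `s⁻¹ s'`
      set x := s.out with hx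
      set y := s'.out with hy
      have h1 : β (b * x * b⁻¹) = c b x • β x := hconj b x
      have h2 : β (b * y * b⁻¹) = c b x • β y := by rw [hconj b y]; rw [hss' b]
      have h3 : β (b * x * b⁻¹) * β (b * (x⁻¹ * y) * b⁻¹) =
          β (b * x * b⁻¹) * β (x⁻¹ * y) := by
        rw [← map_mul]
        have e1 : b * x * b⁻¹ * (b * (x⁻¹ * y) * b⁻¹) = b * y * b⁻¹ := by group
        rw [e1, h2, h1, smul_mul_assoc, ← map_mul, mul_inv_cancel_left]
      have h4 : β (b * (x⁻¹ * y) * b⁻¹) = β (x⁻¹ * y) := by
        have := congrArg (fun f => β (b * x * b⁻¹)⁻¹ * f) h3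
        simpa only [← mul_assoc, hβ2, one_mul] using this
      have e2 : ⁅x⁻¹ * y, b⁆ = (x⁻¹ * y) * (b * (x⁻¹ * y) * b⁻¹)⁻¹ := by
        rw [commutatorElement_def]; group
      rw [e2, map_mul, ← h4, hβ1]
  have hfin : Finite (B ⧸ B₀) := hli.finite
  have := Fintype.ofFinite (B ⧸ B₀)
  have hcard := hli.fintype_card_le_finrank
  constructor
  · exact Subgroup.index_ne_zero_of_finite
  · rw [Subgroup.index, Nat.card_eq_fintype_card]
    refine hcard.trans (le_of_eq ?_)
    rw [Module.finrank_linearMap, sq]

end Vale.Agent.P216.T1
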