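import Vale.Agent.P216.T1.Clifford2
import Vale.Agent.P216.T1.LinInd
import Mathlib.Algebra.Polynomial.Roots
import Mathlib.LinearAlgebra.FreeModule.Finite.CardQuotient
import Mathlib.FieldTheory.Finiteness

/-!
# Bounds for the index and the number of roots
-/

set_option linter.all false

open scoped commutatorElement Pointwise

namespace Vale.Agent.P216.T1

open Submodule

variable {A R V : Type*} [Group A] [CommRing R] [AddCommGroup V] [Module R V]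
  [DistribMulAction A V] [MulSemiringAction A R]

section

variable (h : CliffordData A R V) {𝔪₀ : Ideal R}

include h

theorem CliffordData.card_Vm_smul (a : A) (𝔪 : Ideal R) :
    Nat.card (Vm V (a • 𝔪)) = Nat.card (Vm V 𝔪) := by
  refine Nat.card_congr (Equiv.symm
    { toFun := fun v => ⟨a • v.1, h.smul_mem a v.2⟩
      invFun := fun v => ⟨a⁻¹ • v.1, ?_⟩
      left_inv := fun v => Subtype.ext (inv_smul_smul a v.1)
      right_inv := fun v => Subtype.ext (smul_inv_smul a v.1) })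
  have := h.smul_mem a⁻¹ v.2
  rwa [inv_smul_smul] at this

theorem card_quot_smul (a : A) (𝔪 : Ideal R) :
    Nat.card (R ⧸ (a • 𝔪)) = Nat.card (R ⧸ 𝔪) :=
  Nat.card_congr (Ideal.quotientEquiv 𝔪 (a • 𝔪) (MulSemiringAction.toRingEquiv A R a) rfl
    ).symm.toEquiv

theorem CliffordData.index_bound [Finite R] [Finite V] {𝔪 : Ideal R} [h𝔪 : 𝔪.IsMaximal]
    (hne : ∃ v ∈ Vm V 𝔪, v ≠ 0)
    (B : Subgroup A) (hB : ∀ b ∈ B, ∀ ρ : R, b • ρ = ρ)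
    (hcomm : ∀ b ∈ B, ∀ b' ∈ B, ∃ ρ : R, ∀ v : V, ⁅b, b'⁆ • v = ρ • v) :
    ∃ n, 1 ≤ n ∧ Nat.card (Vm V 𝔪) = Nat.card (R ⧸ 𝔪) ^ n ∧
      ∃ B₀ : Subgroup B, B₀.index ≠ 0 ∧ B₀.index ≤ n ^ 2 ∧
        ∀ b ∈ B₀, ∀ b' : B, ∀ v ∈ Vm V 𝔪, (⁅b, b'⁆ : B).1 • v = v := by
  classical
  letI : Field (R ⧸ 𝔪) := Ideal.Quotient.field 𝔪
  letI : Module (R ⧸ 𝔪) (Vm V 𝔪) :=
    (torsionBySet_isTorsionBySet (R := R) (M := V) (𝔪 : Set R)).module
  have hmk : ∀ (ρ : R) (v : Vm V 𝔪), (Ideal.Quotient.mk 𝔪 ρ) • v = ρ • v := fun ρ v => rfl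
  have hnt : Nontrivial (Vm V 𝔪) := by
    obtain ⟨v, hv, hv0⟩ := hne
    exact ⟨⟨⟨v, hv⟩, 0, fun h0 => hv0 (congrArg Subtype.val h0)⟩⟩
  have hfinq : Finite (R ⧸ 𝔪) := Quotient.finite _
  have hfinW : Finite (Vm V 𝔪) := inferInstance
  have hfd : Module.Finite (R ⧸ 𝔪) (Vm V 𝔪) := Module.Finite.of_finite
  have hbm : ∀ b ∈ B, b • 𝔪 = 𝔪 := by
    intro b hb
    ext x
    rw [Ideal.mem_pointwise_smul_iff_inv_smul_mem, hB b⁻¹ (B.inv_mem hb)]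
  have hbV : ∀ b ∈ B, ∀ v ∈ Vm V 𝔪, b • v ∈ Vm V 𝔪 := by
    intro b hb v hv
    have := h.smul_mem b hv
    rwa [hbm b hb] at this
  let β : B →* Module.End (R ⧸ 𝔪) (Vm V 𝔪) :=
    { toFun := fun b =>
        { toFun := fun v => ⟨b.1 • v.1, hbV b.1 b.2 v.1 v.2⟩
          map_add' := fun v w => Subtype.ext (smul_add _ _ _)
          map_smul' := by
            intro κ v
            obtain ⟨ρ, rfl⟩ := Ideal.Quotient.mk_surjective κ
            apply Subtype.ext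
            rw [RingHom.id_apply, hmk, hmk]
            change b.1 • (ρ • v.1) = ρ • (b.1 • v.1)
            rw [h.compat, hB b.1 b.2] }
      map_one' := by ext v; simp
      map_mul' := by intro b b'; ext v; simp [mul_smul] }
  have hβ : ∀ (b : B) (v : Vm V 𝔪), (β b v).1 = b.1 • v.1 := fun _ _ => rfl
  have hscal : ∀ b b' : B, ∃ c : R ⧸ 𝔪, β ⁅b, b'⁆ = c • 1 := by
    intro b b'
    obtain ⟨ρ, hρ⟩ := hcomm b.1 b.2 b'.1 b'.2
    refine ⟨Ideal.Quotient.mk 𝔪 ρ, ?_⟩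
    ext v
    rw [hβ]
    change (⁅b, b'⁆ : B).1 • v.1 = ((Ideal.Quotient.mk 𝔪 ρ) • v : Vm V 𝔪).1
    rw [hmk]
    exact hρ v.1
  let B₀ : Subgroup B :=
    { carrier := {b | ∀ b' : B, β ⁅b, b'⁆ = 1}
      one_mem' := by
        intro b'
        rw [commutatorElement_one_left, map_one]
      mul_mem' := by
        intro a b ha hb y
        have e : ⁅a * b, y⁆ = a * ⁅b, y⁆ * a⁻¹ * ⁅a, y⁆ := by
          simp only [commutatorElement_def]; group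
        rw [e, map_mul, map_mul, map_mul, hb y, ha y, mul_one, mul_one, ← map_mul,
          mul_inv_cancel, map_one]
      inv_mem' := by
        intro a ha y
        have e : ⁅a⁻¹, y⁆ = a⁻¹ * ⁅a, y⁆⁻¹ * a := by
          simp only [commutatorElement_def]; group
        have h1 : β ⁅a, y⁆⁻¹ = 1 := by
          have h2 : β ⁅a, y⁆ * β ⁅a, y⁆⁻¹ = 1 := by rw [← map_mul, mul_inv_cancel, map_one]
          rwa [ha y, one_mul] at h2
        rw [e, map_mul, map_mul, h1, mul_one, ← map_mul, inv_mul_cancel, map_one] }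
  obtain ⟨h1, h2⟩ := index_le_sq β hscal B₀ (fun b hb => hb)
  refine ⟨Module.finrank (R ⧸ 𝔪) (Vm V 𝔪), Module.finrank_pos, Module.natCard_eq_pow_finrank,
    B₀, h1, h2, ?_⟩
  intro b hb b' v hv
  have h3 : β ⁅b, b'⁆ = 1 := hb b'
  have h4 := congrArg Subtype.val (DFunLike.congr_fun h3 ⟨v, hv⟩)
  exact h4

theorem CliffordData.relIndex_B_le [Finite A] [Finite R] [Finite V] [FaithfulSMul R V]
    [FaithfulSMul A V] [h𝔪 : 𝔪₀.IsMaximal] (hne : ∃ v ∈ Vm V 𝔪₀, v ≠ 0)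
    {E B : Subgroup A} (hB : ∀ b ∈ B, ∀ ρ : R, b • ρ = ρ)
    (hE : ∀ e ∈ E, ∃ ρ : R, ∀ v : V, e • v = ρ • v)
    (hBE : ∀ b ∈ B, ∀ b' ∈ B, ⁅b, b'⁆ ∈ E)
    (hZ : ∀ b ∈ B, (∀ b' ∈ B, ⁅b, b'⁆ = 1) → b ∈ E) :
    ∃ n, 1 ≤ n ∧ Nat.card (Vm V 𝔪₀) = Nat.card (R ⧸ 𝔪₀) ^ n ∧
      E.relIndex B ≠ 0 ∧ E.relIndex B ≤ (n ^ 2) ^ Nat.card (MulAction.orbit A 𝔪₀) := by
  classical
  have hfin : Finite (MulAction.orbit A 𝔪₀) := finite_orbit
  have := Fintype.ofFinite (MulAction.orbit A 𝔪₀)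
  have hcomm : ∀ b ∈ B, ∀ b' ∈ B, ∃ ρ : R, ∀ v : V, ⁅b, b'⁆ • v = ρ • v :=
    fun b hb b' hb' => hE _ (hBE b hb b' hb')
  have hcard : ∀ 𝔪 : MulAction.orbit A 𝔪₀, Nat.card (Vm V 𝔪.1) = Nat.card (Vm V 𝔪₀) ∧
      Nat.card (R ⧸ 𝔪.1) = Nat.card (R ⧸ 𝔪₀) := by
    rintro ⟨_, a, rfl⟩
    exact ⟨h.card_Vm_smul a 𝔪₀, card_quot_smul h a 𝔪₀⟩
  obtain ⟨n, hn1, hn2, -⟩ := h.index_bound hne B hB hcomm
  have hex : ∀ 𝔪 : MulAction.orbit A 𝔪₀, ∃ B₀ : Subgroup B, B₀.index ≠ 0 ∧ B₀.index ≤ n ^ 2 ∧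
        ∀ b ∈ B₀, ∀ b' : B, ∀ v ∈ Vm V 𝔪.1, (⁅b, b'⁆ : B).1 • v = v := by
    intro 𝔪
    have h𝔪' := isMaximal_orbit h 𝔪
    obtain ⟨n', hn1', hn2', B₀, hB₀⟩ := h.index_bound (h.exists_ne_zero hne 𝔪) B hB hcomm
    obtain ⟨hc1, hc2⟩ := hcard 𝔪
    rw [hc1, hc2, hn2] at hn2'
    have hq : 2 ≤ Nat.card (R ⧸ 𝔪₀) := by
      have : Nontrivial (R ⧸ 𝔪₀) := Ideal.Quotient.nontrivial_iff.2 h𝔪.ne_top
      have : Finite (R ⧸ 𝔪₀) := Quotient.finite _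
      exact Finite.one_lt_card
    have hnn : n = n' := Nat.pow_right_injective hq hn2'
    rw [hnn]
    exact ⟨B₀, hB₀⟩
  choose B₀ hB1 hB2 hB3 using hex
  have hle : (⨅ 𝔪, B₀ 𝔪) ≤ E.subgroupOf B := by
    intro b hb
    rw [Subgroup.mem_iInf] at hb
    rw [Subgroup.mem_subgroupOf]
    apply hZ _ b.2
    intro b' hb'
    apply FaithfulSMul.eq_of_smul_eq_smul (α := V)
    intro v
    rw [one_smul]
    have hv : v ∈ ⨆ 𝔪 : MulAction.orbit A 𝔪₀, Vm V 𝔪.1 := by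
      rw [h.iSup_eq_top hne]; trivial
    refine Submodule.iSup_induction _ (motive := fun v => ⁅b.1, b'⁆ • v = v) hv ?_ ?_ ?_
    · intro 𝔪 v hv
      exact hB3 𝔪 b (hb 𝔪) ⟨b', hb'⟩ v hv
    · rw [smul_zero]
    · intro v w hv hw
      rw [smul_add, hv, hw]
  have h1 : (⨅ 𝔪, B₀ 𝔪).index ≠ 0 := Subgroup.index_iInf_ne_zero hB1
  have h2 : (⨅ 𝔪, B₀ 𝔪).index ≤ ∏ 𝔪, (B₀ 𝔪).index := Subgroup.index_iInf_le B₀
  have h3 : (E.subgroupOf B).index ∣ (⨅ 𝔪, B₀ 𝔪).index := Subgroup.index_dvd_of_le hle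
  refine ⟨n, hn1, hn2, ?_, ?_⟩
  · intro h0
    have h4 : (E.subgroupOf B).index = 0 := h0
    rw [h4] at h3
    exact h1 (Nat.eq_zero_of_zero_dvd h3)
  · have h4 : E.relIndex B ≤ (⨅ 𝔪, B₀ 𝔪).index := Nat.le_of_dvd (Nat.pos_of_ne_zero h1) h3
    refine h4.trans (h2.trans ?_)
    calc ∏ 𝔪, (B₀ 𝔪).index ≤ ∏ 𝔪 : MulAction.orbit A 𝔪₀, n ^ 2 :=
          Finset.prod_le_prod (fun _ _ => Nat.zero_le _) fun 𝔪 _ => hB2 𝔪
      _ = (n ^ 2) ^ Nat.card (MulAction.orbit A 𝔪₀) := by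
          rw [Finset.prod_const, Finset.card_univ, Nat.card_eq_fintype_card]

theorem CliffordData.card_roots_le [Finite A] [Finite R] [FaithfulSMul R V]
    [FaithfulSMul A V] [h𝔪 : 𝔪₀.IsMaximal] (hne : ∃ v ∈ Vm V 𝔪₀, v ≠ 0)
    {E : Subgroup A} (hE : ∀ e ∈ E, ∃ ρ : R, ∀ v : V, e • v = ρ • v) {o : ℕ} (ho : 0 < o) :
    Nat.card {e : A // e ∈ E ∧ e ^ o = 1} ≤ o ^ Nat.card (MulAction.orbit A 𝔪₀) := by
  classical
  have hfin : Finite (MulAction.orbit A 𝔪₀) := finite_orbit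
  have := Fintype.ofFinite (MulAction.orbit A 𝔪₀)
  choose! ε hε using hE
  have hεpow : ∀ e ∈ E, e ^ o = 1 → ε e ^ o = 1 := by
    intro e he hpow
    apply FaithfulSMul.eq_of_smul_eq_smul (α := V)
    intro v
    have h1 : ∀ (n : ℕ) (v : V), e ^ n • v = ε e ^ n • v := by
      intro n
      induction n with
      | zero => intro v; simp
      | succ n ih => intro v; rw [pow_succ, pow_succ, mul_smul, mul_smul, hε e he, ih]
    rw [← h1, hpow, one_smul, one_smul]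
  let f : {e : A // e ∈ E ∧ e ^ o = 1} →
      ((𝔪 : MulAction.orbit A 𝔪₀) → {κ : R ⧸ 𝔪.1 // κ ^ o = 1}) := fun e 𝔪 =>
    ⟨Ideal.Quotient.mk 𝔪.1 (ε e.1), by rw [← map_pow, hεpow _ e.2.1 e.2.2, map_one]⟩
  have hf : Function.Injective f := by
    intro e e' hee'
    apply Subtype.ext
    apply FaithfulSMul.eq_of_smul_eq_smul (α := V)
    intro v
    rw [hε _ e.2.1, hε _ e'.2.1]
    congr 1
    rw [← sub_eq_zero]
    apply h.eq_zero_of_forall_mem hne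
    intro 𝔪 h𝔪'
    rw [← Ideal.Quotient.mk_eq_mk_iff_sub_mem]
    exact congrArg Subtype.val (congrFun hee' ⟨𝔪, h𝔪'⟩)
  have hfq : ∀ 𝔪 : MulAction.orbit A 𝔪₀, Finite (R ⧸ 𝔪.1) := fun 𝔪 => Quotient.finite _
  refine (Nat.card_le_card_of_injective f hf).trans ?_
  rw [Nat.card_pi]
  calc ∏ 𝔪 : MulAction.orbit A 𝔪₀, Nat.card {κ : R ⧸ 𝔪.1 // κ ^ o = 1}
      ≤ ∏ 𝔪 : MulAction.orbit A 𝔪₀, o := by
        refine Finset.prod_le_prod (fun _ _ => Nat.zero_le _) fun 𝔪 _ => ?_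
        have h𝔪' := isMaximal_orbit h 𝔪
        letI : Field (R ⧸ 𝔪.1) := Ideal.Quotient.field 𝔪.1
        have := Fintype.ofFinite (R ⧸ 𝔪.1)
        rw [Nat.card_eq_fintype_card, Fintype.card_subtype]
        have hsub : (Finset.univ.filter fun κ : R ⧸ 𝔪.1 => κ ^ o = 1) ⊆
            (Polynomial.nthRoots o (1 : R ⧸ 𝔪.1)).toFinset := by
          intro κ hκ
          rw [Multiset.mem_toFinset, Polynomial.mem_nthRoots ho]
          exact (Finset.mem_filter.1 hκ).2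
        refine (Finset.card_le_card hsub).trans ?_
        exact (Multiset.toFinset_card_le _).trans (Polynomial.card_nthRoots o 1)
    _ = o ^ Nat.card (MulAction.orbit A 𝔪₀) := by
        rw [Finset.prod_const, Finset.card_univ, Nat.card_eq_fintype_card]

end

end Vale.Agent.P216.T1
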