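import Vale.Agent.P216.T1.Index

/-!
# Counting: groups acting faithfully on a central extension
-/

set_option linter.all false

open scoped commutatorElement

namespace Vale.Agent.P216.T1

variable {A : Type*} [Group A]

theorem exists_gens : ∀ (N : ℕ) (E B : Subgroup A), E ≤ B → E.relIndex B ≠ 0 →
    E.relIndex B ≤ N → ∃ s : Finset A, (∀ x ∈ s, x ∈ B) ∧ B ≤ E ⊔ Subgroup.closure (s : Set A) ∧
      2 ^ s.card ≤ E.relIndex B := by
  classical
  intro N
  induction N with
  | zero => intro E B _ h0 h; exact absurd (Nat.le_zero.1 h) h0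
  | succ N ih =>
    intro E B hEB h0 hN
    by_cases hBE : B ≤ E
    · refine ⟨∅, by simp, le_trans hBE le_sup_left, ?_⟩
      simp only [Finset.card_empty, pow_zero]
      exact Nat.pos_of_ne_zero h0
    · obtain ⟨b, hbB, hbE⟩ := SetLike.not_le_iff_exists.1 hBE
      set E' := E ⊔ Subgroup.zpowers b with hE'
      have hEE' : E ≤ E' := le_sup_left
      have hbE' : b ∈ E' := (le_sup_right : Subgroup.zpowers b ≤ E') (Subgroup.mem_zpowers b)
      have hE'B : E' ≤ B := sup_le hEB (by rwa [Subgroup.zpowers_le])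
      have hmul := Subgroup.relIndex_mul_relIndex E E' B hEE' hE'B
      have h1 : E.relIndex E' ≠ 0 := by
        intro h; rw [h, zero_mul] at hmul; exact h0 hmul.symm
      have h2 : E'.relIndex B ≠ 0 := by
        intro h; rw [h, mul_zero] at hmul; exact h0 hmul.symm
      have h3 : E.relIndex E' ≠ 1 := by
        intro h
        rw [Subgroup.relIndex_eq_one] at h
        exact hbE (h hbE')
      have h4 : 2 ≤ E.relIndex E' := by lia
      have h5 : E'.relIndex B ≤ N := by
        have : E'.relIndex B < E.relIndex B := by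
          rw [← hmul]
          have := Nat.pos_of_ne_zero h2
          nlinarith
        lia
      obtain ⟨s, hs1, hs2, hs3⟩ := ih E' B hE'B h2 h5
      refine ⟨insert b s, ?_, ?_, ?_⟩
      · intro x hx
        rcases Finset.mem_insert.1 hx with rfl | hx
        · exact hbB
        · exact hs1 x hx
      · refine hs2.trans (sup_le (sup_le le_sup_left ?_) ?_)
        · rw [Subgroup.zpowers_le]
          refine (le_sup_right : Subgroup.closure _ ≤ _) (Subgroup.subset_closure ?_)
          simp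
        · refine le_trans (Subgroup.closure_mono ?_) le_sup_right
          simp
      · calc 2 ^ (insert b s).card ≤ 2 ^ (s.card + 1) :=
              Nat.pow_le_pow_right (by norm_num) (Finset.card_insert_le _ _)
          _ = 2 * 2 ^ s.card := pow_succ' 2 _
          _ ≤ E.relIndex E' * E'.relIndex B := Nat.mul_le_mul h4 hs3
          _ = E.relIndex B := hmul

theorem card_map_mk' (E B : Subgroup A) [E.Normal] :
    Nat.card (B.map (QuotientGroup.mk' E)) = E.relIndex B := by
  have h1 : E = (QuotientGroup.mk' E).ker := (QuotientGroup.ker_mk' E).symm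
  conv_rhs => rw [h1]
  rw [Subgroup.relIndex_ker]

theorem pow_relIndex_mem {E B : Subgroup A} [E.Normal] {b : A} (hb : b ∈ B) :
    b ^ E.relIndex B ∈ E := by
  rw [← QuotientGroup.eq_one_iff]
  have h1 : (⟨(QuotientGroup.mk' E) b, Subgroup.mem_map_of_mem _ hb⟩ :
      B.map (QuotientGroup.mk' E)) ^ Nat.card (B.map (QuotientGroup.mk' E)) = 1 := pow_card_eq_one'
  rw [card_map_mk'] at h1
  exact congrArg Subtype.val h1

theorem relIndex_le_of_gens [Finite A] {E B A₂ : Subgroup A} [hE : E.Normal] [hB : B.Normal]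
    (hEB : E ≤ B) (hBA : B ≤ A₂) (hcen : ∀ a ∈ A₂, ∀ e ∈ E, Commute a e)
    (hC : ∀ a ∈ A₂, (∀ b ∈ B, Commute a b) → a ∈ E) {s : Finset A} (hsB : ∀ x ∈ s, x ∈ B)
    (hs : B ≤ E ⊔ Subgroup.closure (s : Set A)) {M : ℕ}
    (hM : Nat.card {e : A // e ∈ E ∧ e ^ E.relIndex B = 1} ≤ M) :
    E.relIndex A₂ ≤ (E.relIndex B * M) ^ s.card := by
  classical
  have := Fintype.ofFinite A
  set o := E.relIndex B with ho
  -- the conjugates of `b` under `A₂`
  let Tb : A → Finset A := fun b => (Finset.univ : Finset A₂).image fun a => a.1 * b * a.1⁻¹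
  have hTb : ∀ b ∈ B, (Tb b).card ≤ M * o := by
    intro b hb
    have hbo : b ^ o ∈ E := pow_relIndex_mem hb
    have hpow : ∀ x ∈ Tb b, x ∈ B ∧ x ^ o = b ^ o := by
      intro x hx
      obtain ⟨a, -, rfl⟩ := Finset.mem_image.1 hx
      refine ⟨hB.conj_mem b hb a.1, ?_⟩
      rw [conj_pow, (hcen a.1 a.2 _ hbo).eq, mul_inv_cancel_right]
    refine (Finset.card_le_mul_card_image (f := fun x : A => (x : A ⧸ E)) (Tb b) M ?_).trans ?_
    · intro z hz
      obtain ⟨x₀, hx₀, rfl⟩ := Finset.mem_image.1 hz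
      refine le_trans ?_ hM
      have := Fintype.ofFinite {e : A // e ∈ E ∧ e ^ o = 1}
      rw [Nat.card_eq_fintype_card, ← Finset.card_univ]
      refine Finset.card_le_card_of_injOn (fun x => if hx : (x₀⁻¹ * x) ∈ E ∧ (x₀⁻¹ * x) ^ o = 1
        then ⟨x₀⁻¹ * x, hx⟩ else ⟨1, one_mem _, one_pow _⟩) (fun _ _ => Finset.mem_univ _) ?_
      have hprop : ∀ x ∈ (Tb b).filter (fun x : A => (x : A ⧸ E) = (x₀ : A ⧸ E)),
          (x₀⁻¹ * x) ∈ E ∧ (x₀⁻¹ * x) ^ o = 1 := by
        intro x hx
        rw [Finset.mem_filter] at hx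
        obtain ⟨hx1, hx2⟩ := hx
        have he : x₀⁻¹ * x ∈ E := QuotientGroup.eq.1 hx2.symm
        refine ⟨he, ?_⟩
        obtain ⟨h1, h2⟩ := hpow x hx1
        obtain ⟨h3, h4⟩ := hpow x₀ hx₀
        have hc : Commute x₀ (x₀⁻¹ * x) := hcen x₀ (hBA h3) _ he
        have h5 : (x₀ * (x₀⁻¹ * x)) ^ o = x₀ ^ o * (x₀⁻¹ * x) ^ o := hc.mul_pow o
        rw [mul_inv_cancel_left, h2, h4] at h5
        exact (mul_eq_left.1 h5.symm)
      intro x hx y hy hxy
      have hx' := hprop x hx
      have hy' := hprop y hy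
      simp only [dif_pos hx', dif_pos hy', Subtype.mk.injEq, mul_right_inj] at hxy
      exact hxy
    · refine Nat.mul_le_mul_left M ?_
      rw [ho, ← card_map_mk', Nat.card_eq_fintype_card, ← Finset.card_univ]
      refine Finset.card_le_card_of_injOn (fun z => if hz : z ∈ B.map (QuotientGroup.mk' E)
        then ⟨z, hz⟩ else 1) (fun _ _ => Finset.mem_univ _) ?_
      have hprop : ∀ z ∈ (Tb b).image (fun x : A => (x : A ⧸ E)),
          z ∈ B.map (QuotientGroup.mk' E) := by
        intro z hz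
        obtain ⟨x, hx, rfl⟩ := Finset.mem_image.1 hz
        exact ⟨x, (hpow x hx).1, rfl⟩
      intro x hx y hy hxy
      have hx' := hprop x hx
      have hy' := hprop y hy
      simp only [dif_pos hx', dif_pos hy', Subtype.mk.injEq] at hxy
      exact hxy
  -- the main injection
  let Φ : (A₂ ⧸ E.subgroupOf A₂) → ((b : s) → Tb b.1) := fun x b =>
    ⟨x.out.1 * b.1 * x.out.1⁻¹, Finset.mem_image.2 ⟨x.out, Finset.mem_univ _, rfl⟩⟩
  have hΦ : Function.Injective Φ := by
    intro x y hxy
    rw [← QuotientGroup.out_eq' x, ← QuotientGroup.out_eq' y, QuotientGroup.eq,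
      Subgroup.mem_subgroupOf]
    set u := x.out with hu
    set v := y.out with hv
    apply hC _ (u⁻¹ * v).2
    let Z : Subgroup A := Subgroup.centralizer {((u⁻¹ * v : A₂) : A)}
    have hEZ : E ≤ Z := by
      intro e he
      rw [Subgroup.mem_centralizer_iff]
      intro z hz
      rw [Set.mem_singleton_iff] at hz
      rw [hz]
      exact hcen _ (u⁻¹ * v).2 e he
    have hsZ : Subgroup.closure (s : Set A) ≤ Z := by
      rw [Subgroup.closure_le]
      intro b hb
      rw [SetLike.mem_coe, Subgroup.mem_centralizer_iff]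
      intro z hz
      rw [Set.mem_singleton_iff] at hz
      rw [hz]
      have h1 := congrArg (fun f => (f ⟨b, hb⟩).1) hxy
      simp only [Φ] at h1
      have h2 : u.1 * b * u.1⁻¹ = v.1 * b * v.1⁻¹ := h1
      change (u.1⁻¹ * v.1) * b = b * (u.1⁻¹ * v.1)
      have h3 : v.1 * b = (u.1 * b * u.1⁻¹) * v.1 := by rw [h2]; group
      rw [mul_assoc, h3]; group
    intro b hb
    have := (hs.trans (sup_le hEZ hsZ)) hb
    rw [Subgroup.mem_centralizer_iff] at this
    exact this _ (Set.mem_singleton _)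
  have h1 := Nat.card_le_card_of_injective Φ hΦ
  have h2 : E.relIndex A₂ = Nat.card (A₂ ⧸ E.subgroupOf A₂) := rfl
  rw [h2]
  refine h1.trans ?_
  rw [Nat.card_pi]
  calc ∏ b : s, Nat.card (Tb b.1) ≤ ∏ b : s, (o * M) := by
        refine Finset.prod_le_prod (fun _ _ => Nat.zero_le _) fun b _ => ?_
        rw [Nat.card_eq_fintype_card, Fintype.card_coe, mul_comm]
        exact hTb b.1 (hsB b.1 b.2)
    _ = (o * M) ^ s.card := by simp

end Vale.Agent.P216.T1
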