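import Vale.Agent.P216.T1.Clifford3
import Vale.Agent.P216.T1.GenCount
import Mathlib.GroupTheory.Solvable
import Mathlib.Analysis.SpecificLimits.Normed
import Mathlib.FieldTheory.Finite.Basic

/-!
# Structure of solvable linear groups with few orbits
-/

set_option linter.all false

open scoped commutatorElement Pointwise Nat

namespace Vale.Agent.P216.T1

open Submodule

section Numeric

theorem bound_n (c d : ℕ) : ∃ N : ℕ, ∀ n : ℕ, n ≤ d + c * (Nat.log 2 n + 1) ^ 2 → n ≤ N := by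
  have h1 := tendsto_pow_const_div_const_pow_of_one_lt 2 (one_lt_two (α := ℝ))
  have hε : (0 : ℝ) < 1 / (8 * (c + 1)) := by positivity
  have h2 := (h1.eventually_lt_const hε).and (Filter.eventually_ge_atTop (d + 1))
  obtain ⟨l₀, hl₀⟩ := Filter.eventually_atTop.1 h2
  refine ⟨2 ^ l₀, fun n hn => ?_⟩
  by_contra! hlt
  have hn0 : n ≠ 0 := by rintro rfl; simp at hlt
  set l := Nat.log 2 n with hl
  have hl1 : l₀ ≤ l := by
    rw [hl]
    exact Nat.le_log_of_pow_le one_lt_two hlt.le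
  have hl2 : 2 ^ l ≤ n := Nat.pow_log_le_self 2 hn0
  obtain ⟨h3, h4⟩ := hl₀ l hl1
  have h5 : (0 : ℝ) < 2 ^ l := by positivity
  rw [div_lt_iff₀ h5] at h3
  have hl3 : (1 : ℝ) ≤ l := by exact_mod_cast (by lia : 1 ≤ l)
  have h6 : (c : ℝ) * (l + 1) ^ 2 ≤ 2 ^ l / 2 := by
    have h7 : ((l : ℝ) + 1) ^ 2 ≤ 4 * (l : ℝ) ^ 2 := by nlinarith
    have hc : (0 : ℝ) ≤ c := Nat.cast_nonneg c
    have h8 : (c : ℝ) * (1 / (8 * (c + 1))) ≤ 1 / 8 := by
      rw [mul_one_div, div_le_div_iff₀ (by positivity) (by norm_num)]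
      nlinarith
    calc (c : ℝ) * (l + 1) ^ 2 ≤ c * (4 * (l : ℝ) ^ 2) := by
          apply mul_le_mul_of_nonneg_left h7 hc
      _ ≤ c * (4 * (1 / (8 * ((c : ℝ) + 1)) * (2 : ℝ) ^ l)) := by
          apply mul_le_mul_of_nonneg_left _ hc
          apply mul_le_mul_of_nonneg_left h3.le (by norm_num)
      _ = 4 * (c * (1 / (8 * ((c : ℝ) + 1)))) * (2 : ℝ) ^ l := by ring
      _ ≤ 4 * (1 / 8) * (2 : ℝ) ^ l := by
          apply mul_le_mul_of_nonneg_right _ h5.le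
          linarith
      _ = (2 : ℝ) ^ l / 2 := by ring
  have h7 : (d : ℝ) < 2 ^ l / 2 := by
    have h8 : d < 2 ^ d := Nat.lt_two_pow_self
    have h9 : 2 ^ (d + 1) ≤ 2 ^ l := Nat.pow_le_pow_right (by norm_num) h4
    have h10 : (2 : ℝ) ^ (d + 1) ≤ 2 ^ l := by exact_mod_cast h9
    have h11 : (d : ℝ) < 2 ^ d := by exact_mod_cast h8
    rw [pow_succ] at h10
    linarith
  have h8 : (2 : ℝ) ^ l ≤ d + c * (l + 1) ^ 2 := by
    have : 2 ^ l ≤ d + c * (l + 1) ^ 2 := hl2.trans hn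
    exact_mod_cast this
  linarith

theorem numeric (r D : ℕ) : ∃ M : ℕ, ∀ n k o s X : ℕ, 1 ≤ n → k ≤ r → 0 < o →
    o ≤ (n ^ 2) ^ k → 2 ^ s ≤ o → X ≤ (o * o ^ k) ^ s → 2 ^ n ≤ 2 * (r * D * X) → X ≤ M := by
  obtain ⟨N, hN⟩ := bound_n (4 * r ^ 2 * (r + 1)) (2 * (r * D))
  refine ⟨2 ^ (4 * r ^ 2 * (r + 1) * (Nat.log 2 N + 1) ^ 2), ?_⟩
  intro n k o s X hn hk ho hok hs hX h2n
  set L := Nat.log 2 n + 1 with hL
  have hnL : n < 2 ^ L := Nat.lt_pow_succ_log_self one_lt_two n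
  have hoL : o ≤ 2 ^ (2 * L * r) := by
    calc o ≤ (n ^ 2) ^ k := hok
      _ ≤ ((2 ^ L) ^ 2) ^ k := Nat.pow_le_pow_left (Nat.pow_le_pow_left hnL.le 2) k
      _ = 2 ^ (L * 2 * k) := by rw [← pow_mul, ← pow_mul, mul_assoc]
      _ ≤ 2 ^ (2 * L * r) := by
          apply Nat.pow_le_pow_right (by norm_num)
          calc L * 2 * k ≤ L * 2 * r := Nat.mul_le_mul_left _ hk
            _ = 2 * L * r := by ring
  have hsL : s ≤ 2 * L * r := (Nat.pow_le_pow_iff_right one_lt_two).1 (hs.trans hoL)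
  have hXL : X ≤ 2 ^ (4 * r ^ 2 * (r + 1) * L ^ 2) := by
    calc X ≤ (o * o ^ k) ^ s := hX
      _ = (o ^ (k + 1)) ^ s := by rw [pow_succ']
      _ ≤ ((2 ^ (2 * L * r)) ^ (k + 1)) ^ s :=
          Nat.pow_le_pow_left (Nat.pow_le_pow_left hoL _) _
      _ = 2 ^ (2 * L * r * (k + 1) * s) := by rw [← pow_mul, ← pow_mul, mul_assoc (2 * L * r)]
      _ ≤ 2 ^ (2 * L * r * (r + 1) * (2 * L * r)) := by
          apply Nat.pow_le_pow_right (by norm_num)
          exact Nat.mul_le_mul (Nat.mul_le_mul_left _ (by lia)) hsL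
      _ = 2 ^ (4 * r ^ 2 * (r + 1) * L ^ 2) := by ring_nf
  have hnN : n ≤ N := by
    apply hN
    have h1 : 2 ^ n ≤ 2 ^ (2 * (r * D) + 4 * r ^ 2 * (r + 1) * L ^ 2) := by
      calc 2 ^ n ≤ 2 * (r * D * X) := h2n
        _ = (2 * (r * D)) * X := by ring
        _ ≤ 2 ^ (2 * (r * D)) * 2 ^ (4 * r ^ 2 * (r + 1) * L ^ 2) :=
            Nat.mul_le_mul (Nat.lt_two_pow_self).le hXL
        _ = _ := (pow_add _ _ _).symm
    exact (Nat.pow_le_pow_iff_right one_lt_two).1 h1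
  refine hXL.trans (Nat.pow_le_pow_right (by norm_num) (Nat.mul_le_mul_left _ ?_))
  apply Nat.pow_le_pow_left
  rw [hL]
  exact Nat.succ_le_succ (Nat.log_mono_right hnN)

end Numeric

section GroupTheory

variable {A : Type*} [Group A]

theorem exists_B [Finite A] [Group.IsSolvable A] {E A₂ : Subgroup A} (hE : E.Normal)
    (hA₂ : A₂.Normal) (hEA : E ≤ A₂) (hcen : ∀ a ∈ A₂, ∀ e ∈ E, Commute a e)
    (hmax : ∀ F : Subgroup A, F.Normal → E ≤ F → (∀ x ∈ F, ∀ y ∈ F, Commute x y) → F ≤ E) :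
    ∃ B : Subgroup A, B.Normal ∧ E ≤ B ∧ B ≤ A₂ ∧ (∀ b ∈ B, ∀ b' ∈ B, ⁅b, b'⁆ ∈ E) ∧
      (∀ b ∈ B, (∀ b' ∈ B, ⁅b, b'⁆ = 1) → b ∈ E) ∧
      (∀ a ∈ A₂, (∀ b ∈ B, Commute a b) → a ∈ E) := by
  classical
  let 𝒮 : Set (Subgroup A) :=
    {B | B.Normal ∧ E ≤ B ∧ B ≤ A₂ ∧ (∀ b ∈ B, ∀ b' ∈ B, ⁅b, b'⁆ ∈ E)}
  have hE𝒮 : E ∈ 𝒮 := by
    refine ⟨hE, le_rfl, hEA, fun b hb b' hb' => ?_⟩
    rw [commutatorElement_eq_one_iff_commute.2 (hcen b (hEA hb) b' hb')]
    exact one_mem E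
  obtain ⟨B, hB⟩ := (Set.toFinite 𝒮).exists_maximal ⟨E, hE𝒮⟩
  obtain ⟨hBn, hEB, hBA, hBE⟩ := hB.prop
  have hcn : (Subgroup.centralizer (B : Set A)).Normal := inferInstance
  have hZ : B ⊓ Subgroup.centralizer (B : Set A) ≤ E := by
    apply hmax _ (Subgroup.normal_inf_normal _ _)
    · refine le_inf hEB ?_
      intro e he
      rw [Subgroup.mem_centralizer_iff]
      intro b hb
      exact hcen b (hBA hb) e he
    · rintro x ⟨hx1, hx2⟩ y ⟨hy1, hy2⟩
      exact (Subgroup.mem_centralizer_iff.1 hx2 y hy1).symm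
  refine ⟨B, hBn, hEB, hBA, hBE, ?_, ?_⟩
  · intro b hb hb'
    exact hZ ⟨hb, Subgroup.mem_centralizer_iff.2 fun y hy =>
      (commutatorElement_eq_one_iff_commute.1 (hb' y hy)).symm⟩
  -- the centralizer of `B` in `A₂`
  set C : Subgroup A := A₂ ⊓ Subgroup.centralizer (B : Set A) with hC
  have hCn : C.Normal := Subgroup.normal_inf_normal _ _
  suffices hCE : C ≤ E by
    intro a ha hab
    exact hCE ⟨ha, Subgroup.mem_centralizer_iff.2 fun y hy => (hab y hy).symm⟩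
  by_contra hCE
  let d : ℕ → Subgroup A := fun n => Nat.rec (motive := fun _ => Subgroup A) C (fun _ X => ⁅X, X⁆) n
  have hd0 : d 0 = C := rfl
  have hds : ∀ n, d (n + 1) = ⁅d n, d n⁆ := fun _ => rfl
  have hdn : ∀ n, (d n).Normal := by
    intro n
    induction n with
    | zero => exact hCn
    | succ n ih =>
      have := ih
      exact Subgroup.commutator_normal (d n) (d n)
  have hdC : ∀ n, d n ≤ C := by
    intro n
    induction n with
    | zero => exact le_rfl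
    | succ n ih =>
      rw [hds]
      have := hdn n
      exact (Subgroup.commutator_le_right _ _).trans ih
  have hdd : ∀ n, d n ≤ derivedSeries A n := by
    intro n
    induction n with
    | zero => exact le_top
    | succ n ih => rw [hds, derivedSeries_succ]; exact Subgroup.commutator_mono ih ih
  have hex : ∃ n, d n ≤ E := by
    obtain ⟨n, hn⟩ := Group.IsSolvable.solvable (G := A)
    exact ⟨n, (hdd n).trans (by rw [hn]; exact bot_le)⟩
  set l := Nat.find hex with hl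
  have hl1 : d l ≤ E := Nat.find_spec hex
  have hl0 : l ≠ 0 := by
    intro h0
    rw [h0, hd0] at hl1
    exact hCE hl1
  set D := d (l - 1) with hD
  have hDE : ¬ D ≤ E := Nat.find_min hex (by lia)
  have hDn : D.Normal := hdn _
  have hDC : D ≤ C := hdC _
  have hDD : ∀ x ∈ D, ∀ y ∈ D, ⁅x, y⁆ ∈ E := by
    intro x hx y hy
    apply hl1
    have : l = (l - 1) + 1 := by lia
    rw [this, hds]
    exact Subgroup.commutator_mem_commutator hx hy
  have hB' : B ⊔ D ∈ 𝒮 := by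
    refine ⟨Subgroup.sup_normal _ _, hEB.trans le_sup_left, sup_le hBA (hDC.trans inf_le_left), ?_⟩
    have hmem : ∀ x ∈ B ⊔ D, ∃ b ∈ B, ∃ c ∈ D, x = b * c := by
      intro x hx
      have h1 : x ∈ ((B ⊔ D : Subgroup A) : Set A) := hx
      rw [Subgroup.mul_normal] at h1
      obtain ⟨b, hb, c, hc, rfl⟩ := h1
      exact ⟨b, hb, c, hc, rfl⟩
    have hcm : ∀ {x y : A}, ⁅x, y⁆ ∈ E ↔ Commute (x : A ⧸ E) (y : A ⧸ E) := by
      intro x y
      rw [← QuotientGroup.eq_one_iff, ← commutatorElement_eq_one_iff_commute]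
      rw [commutatorElement_def, commutatorElement_def, QuotientGroup.mk_mul,
        QuotientGroup.mk_mul, QuotientGroup.mk_mul, QuotientGroup.mk_inv, QuotientGroup.mk_inv]
    have hBD : ∀ b ∈ B, ∀ c ∈ D, Commute (b : A ⧸ E) (c : A ⧸ E) := by
      intro b hb c hc
      have h1 := Subgroup.mem_centralizer_iff.1 (hDC hc).2 b hb
      have h2 : Commute b c := h1
      exact h2.map (QuotientGroup.mk' E)
    intro x hx y hy
    obtain ⟨b, hb, c, hc, rfl⟩ := hmem x hx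
    obtain ⟨b', hb', c', hc', rfl⟩ := hmem y hy
    rw [hcm, QuotientGroup.mk_mul, QuotientGroup.mk_mul]
    refine Commute.mul_left (Commute.mul_right ?_ ?_) (Commute.mul_right ?_ ?_)
    · exact hcm.1 (hBE b hb b' hb')
    · exact hBD b hb c' hc'
    · exact (hBD b' hb' c hc).symm
    · exact hcm.1 (hDD c hc c' hc')
  have h1 : B ⊔ D ≤ B := hB.le_of_ge hB' le_sup_left
  apply hDE
  intro x hx
  exact hZ ⟨h1 (Subgroup.mem_sup_right hx), (hDC hx).2⟩

end GroupTheory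

end Vale.Agent.P216.T1
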