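import Vale.Agent.P216.T1.Clifford4
import Mathlib.RingTheory.IntegralDomain
import Mathlib.Algebra.Ring.Subring.Basic
import Mathlib.Data.Finite.Perm

/-!
# The main estimate for solvable linear groups with few orbits
-/

set_option linter.all false

open scoped commutatorElement Pointwise Nat

namespace Vale.Agent.P216.T1

open Submodule

section

variable {A R V : Type*} [Group A] [CommRing R] [AddCommGroup V] [Module R V]
  [DistribMulAction A V] [MulSemiringAction A R]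

variable (h : CliffordData A R V) {𝔪₀ : Ideal R}

include h

/-- The stabilizer of all components acts on `R` through an abelian group. -/
theorem CliffordData.smul_comm_of_ker [Finite R] [FaithfulSMul R V] [h𝔪 : 𝔪₀.IsMaximal]
    (hne : ∃ v ∈ Vm V 𝔪₀, v ≠ 0) {a b : A}
    (ha : ∀ 𝔪 : MulAction.orbit A 𝔪₀, a • 𝔪.1 = 𝔪.1)
    (hb : ∀ 𝔪 : MulAction.orbit A 𝔪₀, b • 𝔪.1 = 𝔪.1) (ρ : R) :
    a • (b • ρ) = b • (a • ρ) := by
  rw [← sub_eq_zero]
  apply h.eq_zero_of_forall_mem hne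
  intro 𝔪 h𝔪'
  have hmax := isMaximal_orbit h ⟨𝔪, h𝔪'⟩
  change 𝔪.IsMaximal at hmax
  replace ha := ha ⟨𝔪, h𝔪'⟩
  replace hb := hb ⟨𝔪, h𝔪'⟩
  change a • 𝔪 = 𝔪 at ha
  change b • 𝔪 = 𝔪 at hb
  letI : Field (R ⧸ 𝔪) := Ideal.Quotient.field 𝔪
  have hfin : Finite (R ⧸ 𝔪) := Quotient.finite _
  have hcongr : ∀ g : A, g • 𝔪 = 𝔪 → ∀ σ τ : R, Ideal.Quotient.mk 𝔪 σ = Ideal.Quotient.mk 𝔪 τ →
      Ideal.Quotient.mk 𝔪 (g • σ) = Ideal.Quotient.mk 𝔪 (g • τ) := by
    intro g hg σ τ hστ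
    rw [Ideal.Quotient.mk_eq_mk_iff_sub_mem] at hστ ⊢
    rw [← smul_sub, ← hg]
    exact Ideal.smul_mem_pointwise_smul _ _ _ hστ
  obtain ⟨g, hg⟩ := IsCyclic.exists_generator (α := (R ⧸ 𝔪)ˣ)
  obtain ⟨ζ, hζ⟩ := Ideal.Quotient.mk_surjective (g : R ⧸ 𝔪)
  have hζ0 : ζ ∉ 𝔪 := by
    intro h0
    rw [Ideal.Quotient.eq_zero_iff_mem.2 h0] at hζ
    exact g.ne_zero hζ.symm
  have hpow : ∀ σ : R, σ ∉ 𝔪 → ∃ j : ℕ, Ideal.Quotient.mk 𝔪 σ = Ideal.Quotient.mk 𝔪 ζ ^ j := by
    intro σ hσ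
    have h0 : Ideal.Quotient.mk 𝔪 σ ≠ 0 := fun h0 => hσ (Ideal.Quotient.eq_zero_iff_mem.1 h0)
    have h1 := hg (Units.mk0 _ h0)
    rw [← mem_powers_iff_mem_zpowers] at h1
    obtain ⟨j, hj⟩ := h1
    refine ⟨j, ?_⟩
    have h2 := congrArg Units.val hj
    simp only [Units.val_pow_eq_pow_val, Units.val_mk0] at h2
    rw [hζ, h2]
  have hgen : ∀ g : A, g • 𝔪 = 𝔪 → ∃ s : ℕ,
      Ideal.Quotient.mk 𝔪 (g • ζ) = Ideal.Quotient.mk 𝔪 (ζ ^ s) := by
    intro g hg
    have h1 : g • ζ ∉ 𝔪 := by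
      intro h1
      rw [← hg, Ideal.smul_mem_pointwise_smul_iff] at h1
      exact hζ0 h1
    obtain ⟨s, hs⟩ := hpow _ h1
    exact ⟨s, by rw [hs, map_pow]⟩
  obtain ⟨s, hs⟩ := hgen a ha
  obtain ⟨t, ht⟩ := hgen b hb
  rw [← Ideal.Quotient.mk_eq_mk_iff_sub_mem]
  by_cases hρ : ρ ∈ 𝔪
  · have h1 : Ideal.Quotient.mk 𝔪 ρ = Ideal.Quotient.mk 𝔪 0 := by
      rw [map_zero, Ideal.Quotient.eq_zero_iff_mem]; exact hρ
    have h2 := hcongr a ha _ _ (hcongr b hb _ _ h1)
    have h3 := hcongr b hb _ _ (hcongr a ha _ _ h1)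
    rw [h2, h3]
    simp
  · obtain ⟨j, hj⟩ := hpow ρ hρ
    rw [← map_pow] at hj
    have h2 := hcongr a ha _ _ (hcongr b hb _ _ hj)
    have h3 := hcongr b hb _ _ (hcongr a ha _ _ hj)
    rw [h2, h3, smul_pow', smul_pow', smul_pow', smul_pow', map_pow, map_pow]
    congr 1
    rw [hcongr a ha _ _ ht, hcongr b hb _ _ hs, smul_pow', smul_pow', map_pow, map_pow, hs, ht,
      map_pow, map_pow, ← pow_mul, ← pow_mul, mul_comm]

/-- **The main estimate.** -/
theorem CliffordData.main [Finite A] [Group.IsSolvable A] [Finite R] [Finite V] [Nontrivial V]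
    [FaithfulSMul R V] [FaithfulSMul A V] {p : ℕ} (hp : p.Prime)
    (hpV : ∀ v : V, (p : ℤ) • v = 0) {r : ℕ} (w : Fin r → V)
    (hw : ∀ v : V, v ≠ 0 → ∃ (i : Fin r) (a : A) (c : ℤ), v = a • (c • w i))
    {E : Subgroup A} (hEn : E.Normal) (hE : ∀ e ∈ E, ∃ ρ : R, ∀ v : V, e • v = ρ • v)
    (hmax : ∀ F : Subgroup A, F.Normal → E ≤ F → (∀ x ∈ F, ∀ y ∈ F, Commute x y) → F ≤ E)
    (hgen : ∀ a : A, (∀ e ∈ E, Commute a e) → ∀ ρ : R, a • ρ = ρ) (M : ℕ → ℕ)
    (hM : ∀ D n k o s X : ℕ, 1 ≤ n → k ≤ r → 0 < o →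
      o ≤ (n ^ 2) ^ k → 2 ^ s ≤ o → X ≤ (o * o ^ k) ^ s → 2 ^ n ≤ 2 * (r * D * X) → X ≤ M D) :
    ∃ A₁ A₂ : Subgroup A, A₁.Normal ∧ A₂.Normal ∧ A₁.index ≤ r ! ∧
      (∀ a ∈ A₁, ∀ b ∈ A₁, ⁅a, b⁆ ∈ A₂) ∧ A₂ ≤ A₁ ∧ E ≤ A₂ ∧ E.relIndex A₂ ≤ M A₂.index := by
  classical
  obtain ⟨𝔪₀, h𝔪, hne⟩ := exists_maximal (R := R) (V := V)
  have hfin : Finite (MulAction.orbit A 𝔪₀) := finite_orbit
  set k := Nat.card (MulAction.orbit A 𝔪₀) with hk
  have hkr : k ≤ r := h.card_orbit_le hne hp hpV w hw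
  let A₁ : Subgroup A := (MulAction.toPermHom A (MulAction.orbit A 𝔪₀)).ker
  let A₂ : Subgroup A := (MulAction.toPermHom A R).ker
  have hA₁ : ∀ a : A, a ∈ A₁ → ∀ 𝔪 : MulAction.orbit A 𝔪₀, a • 𝔪.1 = 𝔪.1 := by
    intro a ha 𝔪
    rw [MonoidHom.mem_ker] at ha
    have h1 := Equiv.congr_fun ha 𝔪
    exact congrArg Subtype.val h1
  have hA₂ : ∀ a : A, a ∈ A₂ ↔ ∀ ρ : R, a • ρ = ρ := by
    intro a
    rw [MonoidHom.mem_ker]
    constructor
    · intro h1 ρ
      exact Equiv.congr_fun h1 ρ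
    · intro h1
      ext ρ
      exact h1 ρ
  have hcen : ∀ a ∈ A₂, ∀ e ∈ E, Commute a e := by
    intro a ha e he
    rw [hA₂] at ha
    obtain ⟨ρ, hρ⟩ := hE e he
    apply FaithfulSMul.eq_of_smul_eq_smul (α := V)
    intro v
    rw [mul_smul, mul_smul, hρ, hρ, h.compat, ha]
  have hEA : E ≤ A₂ := by
    intro e he
    rw [hA₂]
    apply hgen
    intro e' he'
    obtain ⟨ρ, hρ⟩ := hE e he
    obtain ⟨ρ', hρ'⟩ := hE e' he'
    apply FaithfulSMul.eq_of_smul_eq_smul (α := V)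
    intro v
    rw [mul_smul, mul_smul, hρ, hρ', hρ, hρ', smul_comm]
  have hA₂n : A₂.Normal := MonoidHom.normal_ker _
  obtain ⟨B, hBn, hEB, hBA, hBE, hZ, hC⟩ := exists_B hEn hA₂n hEA hcen hmax
  have hBt : ∀ b ∈ B, ∀ ρ : R, b • ρ = ρ := fun b hb => (hA₂ b).1 (hBA hb)
  obtain ⟨n, hn1, hn2, hB0, hBk⟩ := h.relIndex_B_le hne hBt hE hBE hZ
  set o := E.relIndex B with ho
  have ho0 : 0 < o := Nat.pos_of_ne_zero hB0
  obtain ⟨s, hs1, hs2, hs3⟩ := exists_gens o E B hEB hB0 le_rfl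
  have hX := relIndex_le_of_gens (A₂ := A₂) hEB hBA hcen hC hs1 hs2 (M := o ^ k)
    (h.card_roots_le hne hE ho0)
  refine ⟨A₁, A₂, MonoidHom.normal_ker _, hA₂n, ?_, ?_, ?_, hEA, ?_⟩
  · have h1 : A₁.index ≤ k ! := by
      rw [Subgroup.index_ker]
      refine (Nat.card_le_card_of_injective _ Subtype.val_injective).trans ?_
      rw [Nat.card_perm]
    exact h1.trans (Nat.factorial_le hkr)
  · intro a ha b hb
    rw [hA₂]
    intro ρ
    have hc := h.smul_comm_of_ker hne (hA₁ a ha) (hA₁ b hb)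
    have h1 := hc (a⁻¹ • (b⁻¹ • ρ))
    rw [smul_inv_smul] at h1
    rw [commutatorElement_def, mul_smul, mul_smul, mul_smul, h1, smul_inv_smul]
  · intro a ha
    rw [MonoidHom.mem_ker]
    ext 𝔪 : 1
    apply Subtype.ext
    change a • 𝔪.1 = 𝔪.1
    ext ρ
    rw [Ideal.mem_pointwise_smul_iff_inv_smul_mem, (hA₂ a⁻¹).1 (A₂.inv_mem ha)]
  · have h1 := h.card_Vm_le (𝔪₀ := 𝔪₀) hp hpV w hw E hE
    rw [hn2] at h1
    have hq : 2 ≤ Nat.card (R ⧸ 𝔪₀) := by
      have : Nontrivial (R ⧸ 𝔪₀) := Ideal.Quotient.nontrivial_iff.2 h𝔪.ne_top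
      have : Finite (R ⧸ 𝔪₀) := Quotient.finite _
      exact Finite.one_lt_card
    have h2 : 2 ^ n ≤ 2 * (r * A₂.index * E.relIndex A₂) := by
      have h3 : Nat.card (R ⧸ 𝔪₀) ^ (n - 1) ≤ r * E.index := by
        have h4 : Nat.card (R ⧸ 𝔪₀) ^ (n - 1) * Nat.card (R ⧸ 𝔪₀) ≤
            r * E.index * Nat.card (R ⧸ 𝔪₀) := by
          rw [← pow_succ, Nat.sub_add_cancel hn1]
          exact h1
        exact Nat.le_of_mul_le_mul_right h4 (by lia)
      have h5 : 2 ^ (n - 1) ≤ Nat.card (R ⧸ 𝔪₀) ^ (n - 1) := Nat.pow_le_pow_left hq _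
      have h6 : E.index = A₂.index * E.relIndex A₂ := by
        rw [mul_comm, Subgroup.relIndex_mul_index hEA]
      calc 2 ^ n = 2 * 2 ^ (n - 1) := by
            rw [← pow_succ', Nat.sub_add_cancel hn1]
        _ ≤ 2 * (r * E.index) := Nat.mul_le_mul_left 2 (h5.trans h3)
        _ = 2 * (r * A₂.index * E.relIndex A₂) := by rw [h6, mul_assoc]
    exact hM A₂.index n k o s.card _ hn1 hkr ho0 hBk hs3 hX h2

end

section Concrete

variable {A V : Type*} [Group A] [AddCommGroup V] [DistribMulAction A V]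

/-- The ring generated by a subgroup in the endomorphism ring. -/
def opRing (V : Type*) [AddCommGroup V] [DistribMulAction A V] (E : Subgroup A) :
    Subring (AddMonoid.End V) :=
  Subring.closure ((DistribMulAction.toAddMonoidEnd A V) '' (E : Set A))

theorem opRing_conj {E : Subgroup A} (hE : E.Normal) (a : A) {f : AddMonoid.End V}
    (hf : f ∈ opRing V E) : DistribMulAction.toAddMonoidEnd A V a * f *
      DistribMulAction.toAddMonoidEnd A V a⁻¹ ∈ opRing V E := by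
  have h1 : DistribMulAction.toAddMonoidEnd A V a⁻¹ * DistribMulAction.toAddMonoidEnd A V a = 1 := by
    rw [← map_mul, inv_mul_cancel, map_one]
  have h2 : DistribMulAction.toAddMonoidEnd A V a * DistribMulAction.toAddMonoidEnd A V a⁻¹ = 1 := by
    rw [← map_mul, mul_inv_cancel, map_one]
  induction hf using Subring.closure_induction with
  | mem x hx =>
    obtain ⟨e, he, rfl⟩ := hx
    rw [← map_mul, ← map_mul]
    exact Subring.subset_closure ⟨_, hE.conj_mem e he a, rfl⟩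
  | zero => rw [mul_zero, zero_mul]; exact Subring.zero_mem _
  | one => rw [mul_one, h2]; exact Subring.one_mem _
  | add x y _ _ hx hy => rw [mul_add, add_mul]; exact Subring.add_mem _ hx hy
  | neg x _ hx => rw [mul_neg, neg_mul]; exact Subring.neg_mem _ hx
  | mul x y _ _ hx hy =>
    have e : DistribMulAction.toAddMonoidEnd A V a * (x * y) *
        DistribMulAction.toAddMonoidEnd A V a⁻¹ =
        (DistribMulAction.toAddMonoidEnd A V a * x * DistribMulAction.toAddMonoidEnd A V a⁻¹) *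
        (DistribMulAction.toAddMonoidEnd A V a * y * DistribMulAction.toAddMonoidEnd A V a⁻¹) := by
      calc _ = DistribMulAction.toAddMonoidEnd A V a * x * 1 * y *
            DistribMulAction.toAddMonoidEnd A V a⁻¹ := by rw [mul_one]; simp only [mul_assoc]
        _ = _ := by rw [← h1]; simp only [mul_assoc]
    rw [e]
    exact Subring.mul_mem _ hx hy

/-- **Solvable irreducible groups with few orbits on lines.** -/
theorem exists_structure [Finite A] [Group.IsSolvable A] [Finite V] [Nontrivial V]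
    [FaithfulSMul A V]
    (irr : ∀ W : AddSubgroup V, (∀ a : A, ∀ w ∈ W, a • w ∈ W) → W = ⊥ ∨ W = ⊤)
    {p : ℕ} (hp : p.Prime)
    (hpV : ∀ v : V, (p : ℤ) • v = 0) {r : ℕ} (w : Fin r → V)
    (hw : ∀ v : V, v ≠ 0 → ∃ (i : Fin r) (a : A) (c : ℤ), v = a • (c • w i)) (M : ℕ → ℕ)
    (hM : ∀ D n k o s X : ℕ, 1 ≤ n → k ≤ r → 0 < o →
      o ≤ (n ^ 2) ^ k → 2 ^ s ≤ o → X ≤ (o * o ^ k) ^ s → 2 ^ n ≤ 2 * (r * D * X) → X ≤ M D) :
    ∃ A₁ A₂ E : Subgroup A, A₁.Normal ∧ A₂.Normal ∧ A₁.index ≤ r ! ∧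
      (∀ a ∈ A₁, ∀ b ∈ A₁, ⁅a, b⁆ ∈ A₂) ∧ A₂ ≤ A₁ ∧ E ≤ A₂ ∧ E.relIndex A₂ ≤ M A₂.index ∧
      (∀ x ∈ E, ∀ y ∈ E, Commute x y) ∧ E.Normal := by
  classical
  -- a maximal abelian normal subgroup
  let 𝒮 : Set (Subgroup A) := {E | E.Normal ∧ ∀ x ∈ E, ∀ y ∈ E, Commute x y}
  have hbot : (⊥ : Subgroup A) ∈ 𝒮 := by
    refine ⟨inferInstance, fun x hx y _ => ?_⟩
    rw [Subgroup.mem_bot] at hx
    rw [hx]
    exact Commute.one_left y
  obtain ⟨E, hE⟩ := (Set.toFinite 𝒮).exists_maximal ⟨⊥, hbot⟩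
  obtain ⟨hEn, hEab⟩ := hE.prop
  have hcomm : ∀ x ∈ (DistribMulAction.toAddMonoidEnd A V) '' (E : Set A),
      ∀ y ∈ (DistribMulAction.toAddMonoidEnd A V) '' (E : Set A), x * y = y * x := by
    rintro _ ⟨e, he, rfl⟩ _ ⟨e', he', rfl⟩
    rw [← map_mul, ← map_mul, (hEab e he e' he').eq]
  letI : CommRing (opRing V E) := Subring.closureCommRingOfComm hcomm
  letI : MulSemiringAction A (opRing V E) :=
    { smul := fun a f => ⟨_, opRing_conj hEn a f.2⟩
      one_smul := fun f => Subtype.ext (by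
        change DistribMulAction.toAddMonoidEnd A V 1 * f.1 *
          DistribMulAction.toAddMonoidEnd A V 1⁻¹ = f.1
        rw [inv_one, map_one, one_mul, mul_one])
      mul_smul := fun a b f => Subtype.ext (by
        change DistribMulAction.toAddMonoidEnd A V (a * b) * f.1 *
            DistribMulAction.toAddMonoidEnd A V (a * b)⁻¹ =
          DistribMulAction.toAddMonoidEnd A V a * (DistribMulAction.toAddMonoidEnd A V b * f.1 *
            DistribMulAction.toAddMonoidEnd A V b⁻¹) * DistribMulAction.toAddMonoidEnd A V a⁻¹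
        rw [mul_inv_rev, map_mul, map_mul]
        simp only [mul_assoc])
      smul_zero := fun a => Subtype.ext (by
        change DistribMulAction.toAddMonoidEnd A V a * 0 *
          DistribMulAction.toAddMonoidEnd A V a⁻¹ = 0
        rw [mul_zero, zero_mul])
      smul_add := fun a f g => Subtype.ext (by
        change DistribMulAction.toAddMonoidEnd A V a * (f.1 + g.1) *
            DistribMulAction.toAddMonoidEnd A V a⁻¹ =
          DistribMulAction.toAddMonoidEnd A V a * f.1 * DistribMulAction.toAddMonoidEnd A V a⁻¹ +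
          DistribMulAction.toAddMonoidEnd A V a * g.1 * DistribMulAction.toAddMonoidEnd A V a⁻¹
        rw [mul_add, add_mul])
      smul_one := fun a => Subtype.ext (by
        change DistribMulAction.toAddMonoidEnd A V a * 1 *
          DistribMulAction.toAddMonoidEnd A V a⁻¹ = 1
        rw [mul_one, ← map_mul, mul_inv_cancel, map_one])
      smul_mul := fun a f g => Subtype.ext (by
        have h1 : DistribMulAction.toAddMonoidEnd A V a⁻¹ *
            DistribMulAction.toAddMonoidEnd A V a = 1 := by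
          rw [← map_mul, inv_mul_cancel, map_one]
        change DistribMulAction.toAddMonoidEnd A V a * (f.1 * g.1) *
            DistribMulAction.toAddMonoidEnd A V a⁻¹ =
          (DistribMulAction.toAddMonoidEnd A V a * f.1 * DistribMulAction.toAddMonoidEnd A V a⁻¹) *
          (DistribMulAction.toAddMonoidEnd A V a * g.1 * DistribMulAction.toAddMonoidEnd A V a⁻¹)
        calc _ = DistribMulAction.toAddMonoidEnd A V a * f.1 * 1 * g.1 *
              DistribMulAction.toAddMonoidEnd A V a⁻¹ := by rw [mul_one]; simp only [mul_assoc]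
          _ = _ := by rw [← h1]; simp only [mul_assoc]) }
  have hsmul : ∀ (a : A) (f : opRing V E) (v : V),
      ((a • f : opRing V E) : AddMonoid.End V) v = a • ((f : AddMonoid.End V) (a⁻¹ • v)) :=
    fun _ _ _ => rfl
  letI : Module (opRing V E) V :=
    { smul := fun f v => (f : AddMonoid.End V) v
      one_smul := fun v => rfl
      mul_smul := fun f g v => rfl
      smul_zero := fun f => map_zero (f : AddMonoid.End V)
      smul_add := fun f v w => map_add (f : AddMonoid.End V) v w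
      add_smul := fun f g v => rfl
      zero_smul := fun v => rfl }
  have hact : ∀ (f : opRing V E) (v : V), f • v = (f : AddMonoid.End V) v := fun _ _ => rfl
  have h : CliffordData A (opRing V E) V :=
    { compat := by
        intro a f v
        rw [hact, hact, hsmul, inv_smul_smul]
      irr := irr }
  have hfinE : Finite (AddMonoid.End V) :=
    Finite.of_injective (fun f : AddMonoid.End V => (f : V → V)) fun f g hfg =>
      DFunLike.coe_injective hfg
  have hfinR : Finite (opRing V E) := inferInstance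
  have hfaith : FaithfulSMul (opRing V E) V :=
    ⟨fun {f g} hfg => Subtype.ext (AddMonoidHom.ext hfg)⟩
  have hEact : ∀ e ∈ E, ∃ ρ : opRing V E, ∀ v : V, e • v = ρ • v := fun e he =>
    ⟨⟨_, Subring.subset_closure ⟨e, he, rfl⟩⟩, fun v => rfl⟩
  have hmax : ∀ F : Subgroup A, F.Normal → E ≤ F → (∀ x ∈ F, ∀ y ∈ F, Commute x y) → F ≤ E :=
    fun F hF hEF hFab => hE.le_of_ge ⟨hF, hFab⟩ hEF
  have hgen : ∀ a : A, (∀ e ∈ E, Commute a e) → ∀ ρ : opRing V E, a • ρ = ρ := by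
    rintro a hae ⟨f, hf⟩
    apply Subtype.ext
    change DistribMulAction.toAddMonoidEnd A V a * f * DistribMulAction.toAddMonoidEnd A V a⁻¹ = f
    have h2 : DistribMulAction.toAddMonoidEnd A V a *
        DistribMulAction.toAddMonoidEnd A V a⁻¹ = 1 := by
      rw [← map_mul, mul_inv_cancel, map_one]
    suffices hc : DistribMulAction.toAddMonoidEnd A V a * f =
        f * DistribMulAction.toAddMonoidEnd A V a by
      rw [hc, mul_assoc, h2, mul_one]
    induction hf using Subring.closure_induction with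
    | mem x hx =>
      obtain ⟨e, he, rfl⟩ := hx
      rw [← map_mul, ← map_mul, (hae e he).eq]
    | zero => rw [mul_zero, zero_mul]
    | one => rw [mul_one, one_mul]
    | add x y _ _ hx hy => rw [mul_add, add_mul, hx, hy]
    | neg x _ hx => rw [mul_neg, neg_mul, hx]
    | mul x y _ _ hx hy => rw [← mul_assoc, hx, mul_assoc, hy, mul_assoc]
  obtain ⟨A₁, A₂, h1, h2, h3, h4, h5, h6, h7⟩ :=
    h.main hp hpV w hw hEn hEact hmax hgen M hM
  exact ⟨A₁, A₂, E, h1, h2, h3, h4, h5, h6, h7, hEab, hEn⟩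

end Concrete

end Vale.Agent.P216.T1
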