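import Vale.Agent.P216.T1.Index

/-!
# Uniform commutator estimate
-/

set_option linter.all false

open scoped commutatorElement

namespace Vale.Agent.P216.T1

variable {G : Type*} [Group G] {p : ℕ} {ι : Type*} [Fintype ι]

theorem exists_comm_bound [hp : Fact p.Prime] {a : ι → G} (hcov : Cov a) :
    ∃ m, 0 < m ∧ ∀ n, 0 < n → ∀ x ∈ F p G n, ∀ y ∈ F p G m, ⁅x, y⁆ ∈ F p G (p * (p * n)) := by
  classical
  set r := Fintype.card ι with hr
  refine ⟨p ^ ((r + r) * p ^ (r + r)), pow_pos hp.out.pos _, fun n hn => ?_⟩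
  have hpp := hp.out.pos
  have hpn : 0 < p * n := Nat.mul_pos hpp hn
  have hppn : 0 < p * (p * n) := Nat.mul_pos hpp hpn
  have h1 : n ≤ p * n := Nat.le_mul_of_pos_left n hpp
  have h2 : p * n ≤ p * (p * n) := Nat.le_mul_of_pos_left _ hpp
  obtain ⟨l₁, hl₁, h₁⟩ := relIndex_F_eq_pow (p := p) hcov hn h1 le_rfl
  obtain ⟨l₂, hl₂, h₂⟩ := relIndex_F_eq_pow (p := p) hcov hpn h2 le_rfl
  set N := F p G (p * (p * n)) with hN
  set V := F p G n with hV
  have hNV : N ≤ V := F_antitone (h1.trans h2)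
  have hrel : N.relIndex V = p ^ (l₂ + l₁) := by
    rw [← Subgroup.relIndex_mul_relIndex N (F p G (p * n)) V (F_antitone h2) (F_antitone h1),
      h₁, h₂, pow_add]
  let A : Subgroup (G ⧸ N) := V.map (QuotientGroup.mk' N)
  have hA : A.Normal := Subgroup.Normal.map inferInstance _ (QuotientGroup.mk'_surjective N)
  have hcardA : Nat.card A = p ^ (l₂ + l₁) := by
    rw [← hrel]
    have h1 : N = (QuotientGroup.mk' N).ker := (QuotientGroup.ker_mk' N).symm
    conv_rhs => rw [h1]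
    rw [Subgroup.relIndex_ker]
  have hfin : Finite A := Nat.finite_of_card_ne_zero (by rw [hcardA]; positivity)
  let ψ : G →* MulAut A := (MulAut.conjNormal (H := A)).comp (QuotientGroup.mk' N)
  set K := ψ.ker with hK
  have hKmem : ∀ y : G, y ∈ K ↔ ∀ x ∈ V, ⁅x, y⁆ ∈ N := by
    intro y
    rw [hK, MonoidHom.mem_ker]
    constructor
    · intro h x hx
      have hxA : (QuotientGroup.mk' N) x ∈ A := Subgroup.mem_map_of_mem _ hx
      have h3 := DFunLike.congr_fun h ⟨_, hxA⟩
      have h4 := congrArg Subtype.val h3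
      simp only [ψ, MonoidHom.comp_apply, MulAut.conjNormal_apply, MulAut.one_apply] at h4
      rw [← QuotientGroup.eq_one_iff]
      have h5 : (y : G ⧸ N) * (x : G ⧸ N) * (y : G ⧸ N)⁻¹ = (x : G ⧸ N) := h4
      have h6 : ((⁅x, y⁆ : G) : G ⧸ N) =
          (x : G ⧸ N) * ((y : G ⧸ N) * (x : G ⧸ N) * (y : G ⧸ N)⁻¹)⁻¹ := by
        rw [commutatorElement_def, QuotientGroup.mk_mul, QuotientGroup.mk_mul,
          QuotientGroup.mk_mul, QuotientGroup.mk_inv, QuotientGroup.mk_inv]
        group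
      rw [h6, h5, mul_inv_cancel]
    · intro h
      ext ⟨z, hz⟩
      obtain ⟨x, hx, rfl⟩ := hz
      have h4 := (QuotientGroup.eq_one_iff _).2 (h x hx)
      simp only [ψ, MonoidHom.comp_apply, MulAut.conjNormal_apply, MulAut.one_apply]
      change (y : G ⧸ N) * (x : G ⧸ N) * (y : G ⧸ N)⁻¹ = (x : G ⧸ N)
      have h6 : ((⁅x, y⁆ : G) : G ⧸ N) =
          (x : G ⧸ N) * ((y : G ⧸ N) * (x : G ⧸ N) * (y : G ⧸ N)⁻¹)⁻¹ := by
        rw [commutatorElement_def, QuotientGroup.mk_mul, QuotientGroup.mk_mul,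
          QuotientGroup.mk_mul, QuotientGroup.mk_inv, QuotientGroup.mk_inv]
        group
      rw [h6, mul_inv_eq_one] at h4
      exact h4.symm
  have hNK : N ≤ K := by
    intro y hy
    rw [hKmem]
    intro x _
    rw [commutatorElement_def]
    exact N.mul_mem ((F_normal _).conj_mem y hy x) (N.inv_mem hy)
  have hKdvd : K.index ∣ N.index := Subgroup.index_dvd_of_le hNK
  obtain ⟨l, hl⟩ := index_F_eq_pow (p := p) hcov (p * (p * n) - 1)
  rw [Nat.sub_add_cancel hppn] at hl
  rw [hN, hl] at hKdvd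
  obtain ⟨e, -, he⟩ := (Nat.dvd_prime_pow hp.out).1 hKdvd
  have hle : K.index ≤ p ^ ((r + r) * p ^ (r + r)) := by
    rw [hK, Subgroup.index_ker]
    calc Nat.card ψ.range ≤ Nat.card (MulAut A) :=
          Nat.card_le_card_of_injective _ (Subtype.val_injective)
      _ ≤ Nat.card (A → A) := Nat.card_le_card_of_injective (fun f : MulAut A => (f : A → A))
            (fun f g h => DFunLike.coe_injective h)
      _ = Nat.card A ^ Nat.card A := Nat.card_fun
      _ = (p ^ (l₂ + l₁)) ^ (p ^ (l₂ + l₁)) := by rw [hcardA]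
      _ = p ^ ((l₂ + l₁) * p ^ (l₂ + l₁)) := (pow_mul _ _ _).symm
      _ ≤ p ^ ((r + r) * p ^ (r + r)) := by
          apply Nat.pow_le_pow_right hpp
          exact Nat.mul_le_mul (by lia) (Nat.pow_le_pow_right hpp (by lia))
  have hee : e ≤ (r + r) * p ^ (r + r) := by
    rw [he] at hle
    exact (Nat.pow_le_pow_iff_right hp.out.one_lt).1 hle
  have hFK : F p G (p ^ ((r + r) * p ^ (r + r))) ≤ K :=
    (F_antitone (Nat.pow_le_pow_right hpp hee)).trans (F_le_of_index e K he)
  intro x hx y hy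
  exact (hKmem y).1 (hFK hy) x hx

end Vale.Agent.P216.T1
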