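import Vale.Agent.P216.MathlibUsed
import Mathlib.GroupTheory.PGroup
import Mathlib.GroupTheory.Commutator.Basic
import Mathlib.GroupTheory.Sylow

/-!
# The `p`-power and commutator filtration of a group
-/

set_option linter.all false

open scoped commutatorElement

namespace Vale.Agent.P216.T1

variable {G : Type*} [Group G]

/-- The smallest family `M 0 ≥ M 1 = G ≥ M 2 ≥ ⋯` of subgroups closed under `p`-th powers
`M j → M (p * j)` and commutators `M i × M j → M (i + j)`. -/
inductive ZMem (p : ℕ) : ℕ → G → Prop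
  | zero (x : G) : ZMem p 0 x
  | top (x : G) : ZMem p 1 x
  | one (n : ℕ) : ZMem p n 1
  | mul {n : ℕ} {x y : G} : ZMem p n x → ZMem p n y → ZMem p n (x * y)
  | inv {n : ℕ} {x : G} : ZMem p n x → ZMem p n x⁻¹
  | pow {n j : ℕ} {x : G} : ZMem p j x → j < n → n ≤ p * j → ZMem p n (x ^ p)
  | comm {i j : ℕ} {a b : G} : 0 < i → 0 < j → ZMem p i a → ZMem p j b → ZMem p (i + j) ⁅a, b⁆
  | mono {n : ℕ} {x : G} : ZMem p (n + 1) x → ZMem p n x

/-- The `n`-th term of the filtration. -/
def F (p : ℕ) (G : Type*) [Group G] (n : ℕ) : Subgroup G where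
  carrier := {x | ZMem p n x}
  mul_mem' := ZMem.mul
  one_mem' := ZMem.one n
  inv_mem' := ZMem.inv

theorem mem_F {p n : ℕ} {x : G} : x ∈ F p G n ↔ ZMem p n x := Iff.rfl

variable {p : ℕ}

@[simp] theorem F_one : F p G 1 = ⊤ := by
  ext x; simp [mem_F, ZMem.top x]

theorem F_antitone : Antitone (F p G) :=
  antitone_nat_of_succ_le fun _ _ hx => ZMem.mono hx

theorem comm_mem {i j : ℕ} (hi : 0 < i) (hj : 0 < j) {a b : G} (ha : a ∈ F p G i)
    (hb : b ∈ F p G j) : ⁅a, b⁆ ∈ F p G (i + j) := ZMem.comm hi hj ha hb

theorem pow_mem_F (hp : 1 < p) {j : ℕ} (hj : 0 < j) {x : G} (hx : x ∈ F p G j) :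
    x ^ p ∈ F p G (p * j) := by
  refine ZMem.pow hx ?_ le_rfl
  nlinarith

instance F_normal (n : ℕ) : (F p G n).Normal := by
  constructor
  intro x hx g
  rcases Nat.eq_zero_or_pos n with rfl | hn
  · exact ZMem.zero _
  · have h1 : ⁅g, x⁆ ∈ F p G n :=
      F_antitone (Nat.le_add_left n 1) (comm_mem one_pos hn (ZMem.top g) hx)
    have h2 := (F p G n).mul_mem h1 hx
    simpa [commutatorElement_def, mul_assoc] using h2

/-- The intersection of all the terms. -/
def Fω (p : ℕ) (G : Type*) [Group G] : Subgroup G := ⨅ n, F p G n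

theorem mem_Fω {x : G} : x ∈ Fω p G ↔ ∀ n, x ∈ F p G n := by
  simp [Fω, Subgroup.mem_iInf]

instance Fω_normal : (Fω p G).Normal := by
  constructor
  intro x hx g
  rw [mem_Fω] at hx ⊢
  exact fun n => (F_normal n).conj_mem x (hx n) g

/-- A normal subgroup of index `p ^ e` contains the `p ^ e`-th term. -/
theorem F_le_of_index [hp : Fact p.Prime] : ∀ (e : ℕ) (N : Subgroup G) [N.Normal],
    N.index = p ^ e → F p G (p ^ e) ≤ N := by
  intro e
  induction e with
  | zero =>
    intro N _ hN
    rw [pow_zero, Subgroup.index_eq_one] at hN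
    rw [hN]; exact le_top
  | succ e ih =>
    intro N _ hN
    have hp1 : 1 < p := hp.out.one_lt
    have hcard : Nat.card (G ⧸ N) = p ^ (e + 1) := hN
    have : Finite (G ⧸ N) := Nat.finite_of_card_ne_zero (by rw [hcard]; positivity)
    have hpg : IsPGroup p (G ⧸ N) := IsPGroup.of_card hcard
    have : Nontrivial (G ⧸ N) := by
      rw [← Finite.one_lt_card_iff_nontrivial, hcard]
      exact Nat.one_lt_pow (Nat.succ_ne_zero e) hp1
    have hcn : Nontrivial (Subgroup.center (G ⧸ N)) := hpg.center_nontrivial
    have hpc : IsPGroup p (Subgroup.center (G ⧸ N)) := hpg.to_subgroup _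
    obtain ⟨c, hc⟩ : ∃ c : Subgroup.center (G ⧸ N), orderOf c = p := by
      obtain ⟨n, hn0, hn⟩ := hpc.nontrivial_iff_card.1 hcn
      apply exists_prime_orderOf_dvd_card' p
      rw [hn]
      exact dvd_pow_self p hn0.ne'
    let z : G ⧸ N := c
    have hz : ∀ g : G ⧸ N, g * z = z * g := fun g => Subgroup.mem_center_iff.1 c.2 g
    have hzo : orderOf z = p := by rw [← hc]; exact Subgroup.orderOf_coe c
    have hZn : (Subgroup.zpowers z).Normal := by
      constructor
      rintro x ⟨k, rfl⟩ g
      have : g * z ^ k * g⁻¹ = z ^ k := by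
        have : Commute g (z ^ k) := Commute.zpow_right (hz g) k
        rw [this.eq]; group
      rw [this]; exact ⟨k, rfl⟩
    let N' : Subgroup G := (Subgroup.zpowers z).comap (QuotientGroup.mk' N)
    have : N'.Normal := Subgroup.Normal.comap hZn _
    have hNN' : N ≤ N' := by
      intro x hx
      have : (QuotientGroup.mk' N) x = 1 := by
        simpa using (QuotientGroup.eq_one_iff x).2 hx
      rw [Subgroup.mem_comap, this]; exact one_mem _
    have hN'i : N'.index = p ^ e := by
      have h1 : N'.index = (Subgroup.zpowers z).index :=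
        Subgroup.index_comap_of_surjective _ (QuotientGroup.mk'_surjective N)
      have h2 : Nat.card (Subgroup.zpowers z) * (Subgroup.zpowers z).index = p ^ (e + 1) := by
        rw [Subgroup.card_mul_index, hcard]
      rw [Nat.card_zpowers, hzo, pow_succ'] at h2
      rw [h1]
      exact Nat.eq_of_mul_eq_mul_left hp.out.pos h2
    have hN' := ih N' hN'i
    -- elements of `N'` are central modulo `N` and have order dividing `p` modulo `N`
    have hcen : ∀ x ∈ N', ∀ g : G, ⁅x, g⁆ ∈ N := by
      rintro x ⟨k, hk⟩ g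
      rw [← QuotientGroup.eq_one_iff]
      have hk' : z ^ k = (x : G ⧸ N) := hk
      have : Commute (x : G ⧸ N) (g : G ⧸ N) := by
        rw [← hk']; exact (Commute.zpow_right (hz g) k).symm
      have h3 := commutatorElement_eq_one_iff_commute.2 this
      simpa [commutatorElement_def] using h3
    have hpow : ∀ x ∈ N', x ^ p ∈ N := by
      rintro x ⟨k, hk⟩
      rw [← QuotientGroup.eq_one_iff]
      have hk' : z ^ k = (x : G ⧸ N) := hk
      rw [QuotientGroup.mk_pow, ← hk', ← zpow_natCast, ← zpow_mul, mul_comm, zpow_mul,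
        zpow_natCast, ← hzo, pow_orderOf_eq_one, one_zpow]
    have key : ∀ (n : ℕ) (x : G), ZMem p n x → p ^ (e + 1) ≤ n → x ∈ N := by
      intro n x hx
      have hpe : 2 ≤ p ^ (e + 1) := by
        calc 2 ≤ p := hp1
          _ = p ^ 1 := (pow_one p).symm
          _ ≤ p ^ (e + 1) := Nat.pow_le_pow_right hp.out.pos (by lia)
      induction hx with
      | zero x => intro h; lia
      | top x => intro h; lia
      | one n => intro _; exact one_mem N
      | mul _ _ h1 h2 => intro h; exact mul_mem (h1 h) (h2 h)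
      | inv _ h1 => intro h; exact inv_mem (h1 h)
      | @pow n j x hx hjn hnj _ =>
        intro h
        apply hpow
        apply hN'
        have hj : p ^ e ≤ j := by
          have : p * p ^ e ≤ p * j := by rw [← pow_succ']; lia
          exact Nat.le_of_mul_le_mul_left this hp.out.pos
        exact F_antitone hj hx
      | @comm i j a b hi hj ha hb _ _ =>
        intro h
        have h2 : 2 * p ^ e ≤ i + j := by
          calc 2 * p ^ e ≤ p * p ^ e := Nat.mul_le_mul_right _ hp1
            _ = p ^ (e + 1) := (pow_succ' p e).symm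
            _ ≤ i + j := h
        rcases le_or_gt (p ^ e) i with h3 | h3
        · exact hcen a (hN' (F_antitone h3 ha)) b
        · have h4 : p ^ e ≤ j := by lia
          have := hcen b (hN' (F_antitone h4 hb)) a
          rw [← commutatorElement_inv]
          exact inv_mem this
      | mono _ h1 => intro h; exact h1 (by lia)
    exact fun x hx => key _ x hx le_rfl

end Vale.Agent.P216.T1
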