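import Vale.Agent.P216.T1.Comm

/-!
# The gap argument: beyond a gap, the filtration is generated by `p`-th powers and the graded
Lie bracket vanishes
-/

set_option linter.all false

open scoped commutatorElement

namespace Vale.Agent.P216.T1

variable {G : Type*} [Group G] {p : ℕ} {ι : Type*} [Fintype ι]

theorem exists_gap [hp : Fact p.Prime] {a : ι → G} (hcov : Cov a) {m : ℕ} (hm : 0 < m) :
    ∃ q, p * m ≤ q ∧ F p G q = F p G (q + m) := by
  classical
  set r := Fintype.card ι with hr
  have hpp := hp.out.pos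
  have hp2 := hp.out.two_le
  set n := p * ((r + 1) * m) with hn
  have hn0 : 0 < n := by positivity
  by_contra! hcon
  have hpn : n + (r + 1) * m ≤ p * n := by
    have : (r + 1) * m ≤ n := Nat.le_mul_of_pos_left _ hpp
    nlinarith
  have key : ∀ i ≤ r + 1, p ^ i ≤ (F p G (n + i * m)).relIndex (F p G n) := by
    intro i
    induction i with
    | zero => intro _; simp
    | succ i ih =>
      intro hi
      have hi' : (i + 1) * m ≤ (r + 1) * m := Nat.mul_le_mul_right m hi
      have h1 : n ≤ n + i * m := Nat.le_add_right _ _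
      have e1 : n + (i + 1) * m = n + i * m + m := by ring
      have h2 : n + i * m ≤ n + (i + 1) * m := by lia
      rw [← Subgroup.relIndex_mul_relIndex _ (F p G (n + i * m)) (F p G n) (F_antitone h2)
        (F_antitone h1)]
      obtain ⟨l, hl, h3⟩ := relIndex_F_eq_pow (p := p) hcov (n := n + i * m) (by lia)
        (j := n + (i + 1) * m) h2 (by nlinarith)
      have hne : F p G (n + i * m) ≠ F p G (n + i * m + m) := by
        apply hcon
        have : m ≤ (r + 1) * m := Nat.le_mul_of_pos_left _ (Nat.succ_pos r)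
        calc p * m ≤ n := Nat.mul_le_mul_left p this
          _ ≤ _ := h1
      have hl0 : l ≠ 0 := by
        rintro rfl
        rw [pow_zero, Subgroup.relIndex_eq_one] at h3
        apply hne
        rw [← e1]
        exact le_antisymm h3 (F_antitone h2)
      rw [h3, pow_succ']
      exact Nat.mul_le_mul (Nat.le_self_pow hl0 p) (ih (by lia))
  obtain ⟨l, hl, h3⟩ := relIndex_F_eq_pow (p := p) hcov (n := n) hn0
        (j := n + (r + 1) * m) (Nat.le_add_right _ _) hpn
  have h4 := key (r + 1) le_rfl
  rw [h3] at h4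
  have := (Nat.pow_le_pow_iff_right hp.out.one_lt).1 h4
  lia

theorem commutator_mul_left (a b c : G) : ⁅a * b, c⁆ = a * ⁅b, c⁆ * a⁻¹ * ⁅a, c⁆ := by
  simp only [commutatorElement_def]; group

theorem commutator_inv_left (a c : G) : ⁅a⁻¹, c⁆ = a⁻¹ * ⁅a, c⁆⁻¹ * a := by
  simp only [commutatorElement_def]; group

theorem commutator_pow_left {a c : G} (h : Commute ⁅a, c⁆ a) (k : ℕ) :
    ⁅a ^ k, c⁆ = ⁅a, c⁆ ^ k := by
  induction k with
  | zero => simp
  | succ k ih =>
    rw [pow_succ, commutator_mul_left, ih, pow_succ' ⁅a, c⁆ k]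
    have : Commute ⁅a, c⁆ (a ^ k) := h.pow_right k
    rw [← this.eq]; group

theorem mk_commutator (N : Subgroup G) [N.Normal] (a b : G) :
    ((⁅a, b⁆ : G) : G ⧸ N) = ⁅(a : G ⧸ N), (b : G ⧸ N)⁆ := by
  rw [commutatorElement_def, commutatorElement_def, QuotientGroup.mk_mul, QuotientGroup.mk_mul,
    QuotientGroup.mk_mul, QuotientGroup.mk_inv, QuotientGroup.mk_inv]

theorem commute_mk {N : Subgroup G} [N.Normal] {a b : G} :
    Commute (a : G ⧸ N) (b : G ⧸ N) ↔ ⁅a, b⁆ ∈ N := by
  rw [← QuotientGroup.eq_one_iff, mk_commutator, commutatorElement_eq_one_iff_commute]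

/-- The elements of `G` that commute with `S` modulo `N`. -/
def cent (N S : Subgroup G) [hN : N.Normal] : Subgroup G where
  carrier := {x | ∀ y ∈ S, ⁅x, y⁆ ∈ N}
  one_mem' := by intro y _; rw [commutatorElement_one_left]; exact N.one_mem
  mul_mem' := by
    intro a b ha hb y hy
    rw [commutator_mul_left]
    exact N.mul_mem (hN.conj_mem _ (hb y hy) a) (ha y hy)
  inv_mem' := by
    intro a ha y hy
    rw [commutator_inv_left]
    have := hN.conj_mem _ (N.inv_mem (ha y hy)) a⁻¹
    simpa using this

/-- The subgroup generated by the `p`-th powers used to define the `n`-th term. -/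
def T (p : ℕ) (G : Type*) [Group G] (n : ℕ) : Subgroup G :=
  Subgroup.closure {z | ∃ (j : ℕ) (x : G), x ∈ F p G j ∧ j < n ∧ n ≤ p * j ∧ z = x ^ p}

theorem gap_induction [hp : Fact p.Prime] {m : ℕ} (hm : 0 < m)
    (hcomm : ∀ n, 0 < n → ∀ x ∈ F p G n, ∀ y ∈ F p G m, ⁅x, y⁆ ∈ F p G (p * (p * n)))
    {q : ℕ} (hq : p * m ≤ q) (hgap : F p G q = F p G (q + m)) :
    ∀ n, q + m ≤ n → F p G n ≤ T p G n ⊔ F p G (n + 1) ∧
      ∀ i, 0 < i → ∀ x ∈ F p G n, ∀ y ∈ F p G i, ⁅x, y⁆ ∈ F p G (n + i + 1) := by
  have hp2 := hp.out.two_le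
  have hpp := hp.out.pos
  intro n
  induction n using Nat.strong_induction_on with
  | _ n ih =>
  intro hn
  have hpm2 : 2 * m ≤ p * m := Nat.mul_le_mul_right m hp2
  -- commutators
  have hC : ∀ i j : ℕ, 0 < i → 0 < j → i + j = n → j ≤ i → ∀ a ∈ F p G i, ∀ b ∈ F p G j,
      ⁅a, b⁆ ∈ F p G (n + 1) := by
    intro i j hi hj hij hji a ha b hb
    rcases le_or_gt m j with hmj | hjm
    · have h1 := hcomm i hi a ha b (F_antitone hmj hb)
      refine F_antitone ?_ h1
      have : 2 * (2 * i) ≤ p * (p * i) := Nat.mul_le_mul hp2 (Nat.mul_le_mul_right i hp2)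
      lia
    · rcases le_or_gt (q + m) i with hqi | hiq
      · have h1 := (ih i (by lia) hqi).2 j hj a ha b hb
        rw [hij] at h1
        exact h1
      · have hqi : q ≤ i := by lia
        have ha' : a ∈ F p G (q + m) := by
          rw [← hgap]; exact F_antitone hqi ha
        have h1 := comm_mem (by lia) hj ha' hb
        exact F_antitone (by lia) h1
  have h1 : F p G n ≤ T p G n ⊔ F p G (n + 1) := by
    have key : ∀ (n' : ℕ) (x : G), ZMem p n' x → n' = n → x ∈ T p G n ⊔ F p G (n + 1) := by
      intro n' x hx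
      induction hx with
      | zero x => intro h; lia
      | top x => intro h; lia
      | one _ => intro _; exact one_mem _
      | mul _ _ h1 h2 => intro h; exact mul_mem (h1 h) (h2 h)
      | inv _ h1 => intro h; exact inv_mem (h1 h)
      | @pow n' j x hx hjn hnj _ =>
        intro h
        subst h
        refine (le_sup_left : T p G n' ≤ _) (Subgroup.subset_closure ?_)
        exact ⟨j, x, hx, hjn, hnj, rfl⟩
      | @comm i j a b hi hj ha hb _ _ =>
        intro h
        refine (le_sup_right : F p G (n + 1) ≤ _) ?_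
        rcases le_total j i with hji | hij
        · exact hC i j hi hj h hji a ha b hb
        · have := hC j i hj hi (by lia) hij b hb a ha
          rw [← commutatorElement_inv]
          exact inv_mem this
      | mono hx _ =>
        intro h
        subst h
        exact (le_sup_right : F p G _ ≤ _) hx
    exact fun x hx => key n x hx rfl
  refine ⟨h1, fun i hi => ?_⟩
  -- the second part
  have hT : T p G n ≤ cent (F p G (n + i + 1)) (F p G i) := by
    rw [T, Subgroup.closure_le]
    rintro z ⟨j, x, hx, hjn, hnj, rfl⟩ y hy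
    have hmj : m ≤ j := by
      have : p * m ≤ p * j := by lia
      exact Nat.le_of_mul_le_mul_left this hpp
    have hj : 0 < j := by lia
    have hc : ⁅x, y⁆ ∈ F p G (j + i) := comm_mem hj hi hx hy
    have hcx : ⁅⁅x, y⁆, x⁆ ∈ F p G (n + i + 1) := by
      refine F_antitone ?_ (hcomm (j + i) (by lia) _ hc x (F_antitone hmj hx))
      have h2 : 2 * (p * (j + i)) ≤ p * (p * (j + i)) := Nat.mul_le_mul_right _ hp2
      have h3 : p * (j + i) = p * j + p * i := by ring
      have h4 : 2 * i ≤ p * i := Nat.mul_le_mul_right _ hp2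
      lia
    have h5 : Commute ⁅(x : G ⧸ F p G (n + i + 1)), (y : G ⧸ F p G (n + i + 1))⁆
        (x : G ⧸ F p G (n + i + 1)) := by
      rw [← mk_commutator, commute_mk]; exact hcx
    have h6 := commutator_pow_left h5 p
    rw [← QuotientGroup.mk_pow, ← mk_commutator, ← mk_commutator, ← QuotientGroup.mk_pow] at h6
    rw [← QuotientGroup.eq_one_iff, h6, QuotientGroup.eq_one_iff]
    refine F_antitone ?_ (pow_mem_F hp.out.one_lt (by lia) hc)
    have h3 : p * (j + i) = p * j + p * i := by ring
    have h4 : 2 * i ≤ p * i := Nat.mul_le_mul_right _ hp2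
    lia
  have hF : F p G (n + 1) ≤ cent (F p G (n + i + 1)) (F p G i) := by
    intro x hx y hy
    have := comm_mem (by lia) hi hx hy
    exact F_antitone (by lia) this
  intro x hx y hy
  exact (sup_le hT hF) (h1 hx) y hy

end Vale.Agent.P216.T1
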