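import Vale.Agent.P216.T1.Filt

/-!
# Indices in the filtration for finitely cyclically covered groups
-/

set_option linter.all false

open scoped commutatorElement

namespace Vale.Agent.P216.T1

variable {G : Type*} [Group G] {p : ℕ}

/-- Every element is conjugate to a power of some `a i`. -/
def Cov {ι : Type*} (a : ι → G) : Prop := ∀ g : G, ∃ i, ∃ k : ℤ, IsConj g (a i ^ k)

theorem zpow_bezout [hp : Fact p.Prime] {N U V : Subgroup G} (hNU : N ≤ U) (hUV : U ≤ V)
    (hpow : ∀ y ∈ V, y ^ p ∈ N) {a : G} {k t : ℤ} (hkU : a ^ k ∈ U) (hkN : a ^ k ∉ N)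
    (ht : a ^ t ∈ V) : a ^ t ∈ U := by
  set d : ℤ := (Int.gcd k t : ℤ) with hd
  have hdV : a ^ d ∈ V := by
    rw [hd, Int.gcd_eq_gcd_ab, zpow_add, zpow_mul, zpow_mul]
    exact mul_mem (zpow_mem (hUV hkU) _) (zpow_mem ht _)
  obtain ⟨k', hk'⟩ : d ∣ k := Int.gcd_dvd_left _ _
  obtain ⟨t', ht'⟩ : d ∣ t := Int.gcd_dvd_right _ _
  have hdp : a ^ (d * (p : ℤ)) ∈ N := by
    rw [zpow_mul, zpow_natCast]
    exact hpow _ hdV
  have hnd : ¬ (p : ℤ) ∣ k' := by
    rintro ⟨q, hq⟩
    apply hkN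
    rw [hk', hq, ← mul_assoc, zpow_mul]
    exact zpow_mem hdp q
  have hcop : IsCoprime (p : ℤ) k' :=
    (Prime.coprime_iff_not_dvd (Nat.prime_iff_prime_int.1 hp.out)).2 hnd
  obtain ⟨u, v, huv⟩ := hcop
  have hdU : a ^ d ∈ U := by
    have : d = (d * p) * u + k * v := by
      rw [hk']
      linear_combination (-d) * huv
    rw [this, zpow_add, zpow_mul _ (d * p), zpow_mul _ k]
    exact mul_mem (zpow_mem (hNU hdp) _) (zpow_mem hkU _)
  rw [ht', zpow_mul]
  exact zpow_mem hdU _

theorem relIndex_sup_zpowers [hp : Fact p.Prime] {N : Subgroup G} [N.Normal] {x : G}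
    (hx : x ∉ N) (hxp : x ^ p ∈ N) : N.relIndex (N ⊔ Subgroup.zpowers x) = p := by
  rw [Subgroup.relIndex_sup_left]
  have h1 : N = (QuotientGroup.mk' N).ker := (QuotientGroup.ker_mk' N).symm
  conv_lhs => rw [h1]
  rw [Subgroup.relIndex_ker, MonoidHom.map_zpowers, Nat.card_zpowers]
  apply orderOf_eq_prime
  · rw [← map_pow]
    exact (QuotientGroup.eq_one_iff _).2 hxp
  · intro h
    exact hx ((QuotientGroup.eq_one_iff _).1 h)

variable {ι : Type*} [Fintype ι]

open Classical in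
/-- The indices `i` for which some power of `a i` lies in `V` but not in `N`. -/
noncomputable def A (a : ι → G) (N V : Subgroup G) : Finset ι :=
  Finset.univ.filter fun i => ∃ k : ℤ, a i ^ k ∈ V ∧ a i ^ k ∉ N

theorem mem_A {a : ι → G} {N V : Subgroup G} {i : ι} :
    i ∈ A a N V ↔ ∃ k : ℤ, a i ^ k ∈ V ∧ a i ^ k ∉ N := by
  classical
  simp [A]

theorem sup_zpowers_normal {N : Subgroup G} [N.Normal] {x : G} (h : ∀ g : G, ⁅g, x⁆ ∈ N) :
    (N ⊔ Subgroup.zpowers x).Normal := by
  have hcomm : ∀ g : G, Commute (g : G ⧸ N) (x : G ⧸ N) := by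
    intro g
    rw [← commutatorElement_eq_one_iff_commute]
    have := (QuotientGroup.eq_one_iff _).2 (h g)
    simpa [commutatorElement_def] using this
  have hZ : (Subgroup.zpowers (x : G ⧸ N)).Normal := by
    constructor
    rintro y ⟨k, rfl⟩ g
    obtain ⟨g, rfl⟩ := QuotientGroup.mk_surjective g
    have : (g : G ⧸ N) * (x : G ⧸ N) ^ k * (g : G ⧸ N)⁻¹ = (x : G ⧸ N) ^ k := by
      rw [(Commute.zpow_right (hcomm g) k).eq]; group
    exact ⟨k, this.symm⟩
  have : N ⊔ Subgroup.zpowers x = (Subgroup.zpowers (x : G ⧸ N)).comap (QuotientGroup.mk' N) := by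
    have h1 : Subgroup.zpowers (x : G ⧸ N) = (Subgroup.zpowers x).map (QuotientGroup.mk' N) := by
      rw [MonoidHom.map_zpowers]; rfl
    rw [h1, Subgroup.comap_map_eq, QuotientGroup.ker_mk', sup_comm]
  rw [this]
  exact Subgroup.Normal.comap hZ _

/-- **Lemma W.** -/
theorem relIndex_eq_pow [hp : Fact p.Prime] {a : ι → G} (hcov : Cov a) {n : ℕ} (hn : 0 < n)
    {V : Subgroup G} [hV : V.Normal] (hVn : V ≤ F p G n) : ∀ (s : ℕ) (N : Subgroup G) [N.Normal],
    N ≤ V → F p G (p * n) ≤ N → (A a N V).card ≤ s →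
    ∃ l ≤ (A a N V).card, N.relIndex V = p ^ l := by
  classical
  intro s
  induction s with
  | zero =>
    intro N hN hNV _ hs
    have h0 : A a N V = ∅ := by simpa using hs
    have hVN : V ≤ N := by
      intro x hx
      by_contra hxN
      obtain ⟨i, k, hik⟩ := hcov x
      obtain ⟨c, hc⟩ := isConj_iff.1 hik
      have : i ∈ A a N V := by
        rw [mem_A]
        refine ⟨k, ?_, ?_⟩
        · rw [← hc]; exact hV.conj_mem x hx c
        · intro h
          apply hxN
          have := hN.conj_mem _ h c⁻¹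
          rw [← hc] at this
          simpa [mul_assoc] using this
      rw [h0] at this
      simp at this
    exact ⟨0, by simp, by rw [pow_zero, Subgroup.relIndex_eq_one]; exact hVN⟩
  | succ s ih =>
    intro N hN hNV hpn hs
    by_cases hVN : V ≤ N
    · exact ⟨0, by simp, by rw [pow_zero, Subgroup.relIndex_eq_one]; exact hVN⟩
    -- the largest `j` with `V ⊓ F j` not contained in `N`
    have hex : ∃ j, V ⊓ F p G (j + 1) ≤ N :=
      ⟨p * n, inf_le_right.trans ((F_antitone (Nat.le_succ _)).trans hpn)⟩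
    set j := Nat.find hex with hj
    have hj1 : V ⊓ F p G (j + 1) ≤ N := Nat.find_spec hex
    have hnj : n ≤ j := by
      by_contra hlt
      apply hVN
      intro x hx
      exact hj1 ⟨hx, F_antitone (by lia) (hVn hx)⟩
    have hj2 : ¬ V ⊓ F p G j ≤ N := by
      intro hcon
      have hj0 : 0 < j := lt_of_lt_of_le hn hnj
      have := Nat.find_min hex (m := j - 1) (by lia)
      apply this
      rw [Nat.sub_add_cancel hj0]
      exact hcon
    obtain ⟨x, ⟨hxV, hxj⟩, hxN⟩ := SetLike.not_le_iff_exists.1 hj2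
    have hj0 : 0 < j := lt_of_lt_of_le hn hnj
    have hcom : ∀ g : G, ⁅g, x⁆ ∈ N := by
      intro g
      apply hj1
      refine ⟨?_, ?_⟩
      · rw [commutatorElement_def]
        exact V.mul_mem (hV.conj_mem x hxV g) (V.inv_mem hxV)
      · have h := comm_mem (p := p) one_pos hj0 (ZMem.top g) hxj
        rw [add_comm] at h
        exact h
    have hxp : x ^ p ∈ N := by
      apply hj1
      refine ⟨V.pow_mem hxV p, ?_⟩
      refine F_antitone ?_ (pow_mem_F hp.out.one_lt hj0 hxj)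
      have := hp.out.two_le
      nlinarith
    have hU : (N ⊔ Subgroup.zpowers x).Normal := sup_zpowers_normal hcom
    set U := N ⊔ Subgroup.zpowers x with hUdef
    have hNU : N ≤ U := le_sup_left
    have hxU : x ∈ U := (le_sup_right : Subgroup.zpowers x ≤ U) (Subgroup.mem_zpowers x)
    have hUV : U ≤ V := sup_le hNV (by rwa [Subgroup.zpowers_le])
    have hrel : N.relIndex U = p := relIndex_sup_zpowers hxN hxp
    have hpow : ∀ y ∈ V, y ^ p ∈ N := fun y hy =>
      hpn (pow_mem_F hp.out.one_lt hn (hVn hy))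
    -- the number of indices drops
    obtain ⟨i, k, hik⟩ := hcov x
    obtain ⟨c, hc⟩ := isConj_iff.1 hik
    have hkU : a i ^ k ∈ U := by rw [← hc]; exact hU.conj_mem x hxU c
    have hkN : a i ^ k ∉ N := by
      intro h
      apply hxN
      have := hN.conj_mem _ h c⁻¹
      rw [← hc] at this
      simpa [mul_assoc] using this
    have hlt : A a U V ⊂ A a N V := by
      rw [Finset.ssubset_iff_of_subset]
      · refine ⟨i, mem_A.2 ⟨k, hUV hkU, hkN⟩, ?_⟩
        rw [mem_A]
        rintro ⟨t, htV, htU⟩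
        exact htU (zpow_bezout hNU hUV hpow hkU hkN htV)
      · intro i' hi'
        rw [mem_A] at hi' ⊢
        obtain ⟨t, h1, h2⟩ := hi'
        exact ⟨t, h1, fun h => h2 (hNU h)⟩
    have hcard := Finset.card_lt_card hlt
    obtain ⟨l, hl, hlU⟩ := ih U hUV (hpn.trans hNU) (by lia)
    refine ⟨l + 1, by lia, ?_⟩
    rw [← Subgroup.relIndex_mul_relIndex N U V hNU hUV, hrel, hlU, pow_succ']

theorem relIndex_F_eq_pow [hp : Fact p.Prime] {a : ι → G} (hcov : Cov a) {n : ℕ} (hn : 0 < n)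
    {j : ℕ} (h1 : n ≤ j) (h2 : j ≤ p * n) :
    ∃ l ≤ Fintype.card ι, (F p G j).relIndex (F p G n) = p ^ l := by
  obtain ⟨l, hl, h⟩ := relIndex_eq_pow hcov hn le_rfl _ (F p G j) (F_antitone h1)
    (F_antitone h2) le_rfl
  exact ⟨l, hl.trans (Finset.card_le_univ _), h⟩

theorem index_F_eq_pow [hp : Fact p.Prime] {a : ι → G} (hcov : Cov a) :
    ∀ n : ℕ, ∃ l, (F p G (n + 1)).index = p ^ l := by
  intro n
  induction n with
  | zero => exact ⟨0, by rw [zero_add, F_one, Subgroup.index_top, pow_zero]⟩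
  | succ n ih =>
    obtain ⟨l, hl⟩ := ih
    obtain ⟨l', -, hl'⟩ := relIndex_F_eq_pow (p := p) hcov (n := n + 1) (Nat.succ_pos n)
      (j := n + 1 + 1) (by lia) (by have := hp.out.two_le; nlinarith)
    refine ⟨l' + l, ?_⟩
    rw [← Subgroup.relIndex_mul_index (F_antitone (Nat.le_succ (n + 1))), hl, hl', pow_add]

theorem index_F_ne_zero [hp : Fact p.Prime] {a : ι → G} (hcov : Cov a) {n : ℕ} (hn : 0 < n) :
    (F p G n).index ≠ 0 := by
  obtain ⟨m, rfl⟩ : ∃ m, n = m + 1 := ⟨n - 1, by lia⟩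
  obtain ⟨l, hl⟩ := index_F_eq_pow (p := p) hcov m
  rw [hl]
  exact pow_ne_zero _ hp.out.pos.ne'

/-- If `N` is normal of index `p ^ e`, the index of `N` divides the index of `F (p ^ e)`. -/
theorem exists_index_F_ge [hp : Fact p.Prime] {a : ι → G} (hcov : Cov a) {e : ℕ}
    {N : Subgroup G} [N.Normal] (hN : N.index = p ^ e) : p ^ e ≤ (F p G (p ^ e)).index := by
  rw [← hN]
  refine Nat.le_of_dvd (Nat.pos_of_ne_zero ?_) (Subgroup.index_dvd_of_le ?_)
  · rw [hN]
    exact index_F_ne_zero hcov (pow_pos hp.out.pos e)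
  · rw [hN]
    exact F_le_of_index e N hN

end Vale.Agent.P216.T1
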