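import Vale.Agent.P216.T1.Gap
import Mathlib.Analysis.SpecificLimits.Basic

/-!
# The power map in the filtration, and the main group theoretic theorem
-/

set_option linter.all false

open scoped commutatorElement

namespace Vale.Agent.P216.T1

variable {G : Type*} [Group G] {p : ℕ} {ι : Type*} [Fintype ι]

/-- The subgroup generated by the `p`-th powers of the elements of `S`. -/
def P (p : ℕ) (S : Subgroup G) : Subgroup G := Subgroup.closure {z | ∃ x ∈ S, z = x ^ p}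

theorem F_le_P_sup [hp : Fact p.Prime] {n₀ : ℕ}
    (hT : ∀ n, n₀ ≤ n → F p G n ≤ T p G n ⊔ F p G (n + 1)) (k : ℕ) :
    ∀ N, n₀ * p ^ (k + 1) ≤ N → F p G (n₀ * p ^ (k + 1)) ≤ P p (F p G (n₀ * p ^ k)) ⊔ F p G N := by
  intro N hN
  induction N, hN using Nat.le_induction with
  | base => exact le_sup_right
  | succ N hN ih =>
    have hn₀ : n₀ ≤ N :=
      (Nat.le_mul_of_pos_right _ (pow_pos hp.out.pos _)).trans hN
    refine ih.trans (sup_le le_sup_left ((hT N hn₀).trans (sup_le ?_ le_sup_right)))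
    refine le_trans ?_ le_sup_left
    rw [T, Subgroup.closure_le]
    rintro z ⟨j, x, hx, hjN, hNj, rfl⟩
    refine Subgroup.subset_closure ⟨x, F_antitone ?_ hx, rfl⟩
    have : p * (n₀ * p ^ k) ≤ p * j := by
      calc p * (n₀ * p ^ k) = n₀ * p ^ (k + 1) := by ring
        _ ≤ N := hN
        _ ≤ p * j := hNj
    exact Nat.le_of_mul_le_mul_left this hp.out.pos

/-- The `p`-power homomorphism between consecutive layers. -/
theorem layer_relIndex [hp : Fact p.Prime] {m : ℕ} (hm : 0 < m)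
    (hcomm : ∀ n, 0 < n → ∀ x ∈ F p G n, ∀ y ∈ F p G m, ⁅x, y⁆ ∈ F p G (p * (p * n)))
    {n₀ : ℕ} (hmn : m ≤ n₀) (hT : ∀ n, n₀ ≤ n → F p G n ≤ T p G n ⊔ F p G (n + 1)) (k : ℕ)
    (hne : (F p G (n₀ * p ^ (k + 1))).relIndex (F p G (n₀ * p ^ k)) ≠ 0) :
    (F p G (n₀ * p ^ (k + 2))).relIndex (F p G (n₀ * p ^ (k + 1))) ≤
        (F p G (n₀ * p ^ (k + 1))).relIndex (F p G (n₀ * p ^ k)) ∧
    ((F p G (n₀ * p ^ (k + 2))).relIndex (F p G (n₀ * p ^ (k + 1))) =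
        (F p G (n₀ * p ^ (k + 1))).relIndex (F p G (n₀ * p ^ k)) →
      ∀ x ∈ F p G (n₀ * p ^ k), x ^ p ∈ F p G (n₀ * p ^ (k + 2)) →
        x ∈ F p G (n₀ * p ^ (k + 1))) := by
  have hpp := hp.out.pos
  have hn₀ : 0 < n₀ := by lia
  set L0 := F p G (n₀ * p ^ k) with hL0
  set L1 := F p G (n₀ * p ^ (k + 1)) with hL1
  set L2 := F p G (n₀ * p ^ (k + 2)) with hL2
  have e2 : p * (p * (n₀ * p ^ k)) = n₀ * p ^ (k + 2) := by ring
  have e1 : p * (n₀ * p ^ k) = n₀ * p ^ (k + 1) := by ring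
  have e1' : p * (n₀ * p ^ (k + 1)) = n₀ * p ^ (k + 2) := by ring
  have hpos : 0 < n₀ * p ^ k := by positivity
  have hpos1 : 0 < n₀ * p ^ (k + 1) := by positivity
  have hmk : m ≤ n₀ * p ^ k := hmn.trans (Nat.le_mul_of_pos_right _ (pow_pos hpp _))
  have hcomm0 : ∀ x ∈ L0, ∀ y ∈ L0, ⁅x, y⁆ ∈ L2 := by
    intro x hx y hy
    have := hcomm _ hpos x hx y (F_antitone hmk hy)
    rwa [e2] at this
  let φ : L0 →* G ⧸ L2 :=
    { toFun := fun x => ((x.1 ^ p : G) : G ⧸ L2)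
      map_one' := by simp
      map_mul' := by
        rintro ⟨x, hx⟩ ⟨y, hy⟩
        have h : Commute (x : G ⧸ L2) (y : G ⧸ L2) := commute_mk.2 (hcomm0 x hx y hy)
        change (((x * y) ^ p : G) : G ⧸ L2) = ((x ^ p : G) : G ⧸ L2) * ((y ^ p : G) : G ⧸ L2)
        rw [QuotientGroup.mk_pow, QuotientGroup.mk_pow, QuotientGroup.mk_pow,
          QuotientGroup.mk_mul, h.mul_pow] }
  have hφ : ∀ x : L0, φ x = ((x.1 ^ p : G) : G ⧸ L2) := fun _ => rfl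
  have hrange : φ.range = L1.map (QuotientGroup.mk' L2) := by
    apply le_antisymm
    · rintro _ ⟨⟨x, hx⟩, rfl⟩
      refine ⟨x ^ p, ?_, rfl⟩
      have := pow_mem_F hp.out.one_lt hpos hx
      rw [e1] at this
      exact this
    · rw [Subgroup.map_le_iff_le_comap]
      refine (F_le_P_sup hT k (n₀ * p ^ (k + 2)) ?_).trans (sup_le ?_ ?_)
      · rw [← e1']
        exact Nat.le_mul_of_pos_left _ hpp
      · rw [P, Subgroup.closure_le]
        rintro z ⟨x, hx, rfl⟩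
        exact ⟨⟨x, hx⟩, rfl⟩
      · intro x hx
        rw [Subgroup.mem_comap]
        have : (QuotientGroup.mk' L2) x = 1 := (QuotientGroup.eq_one_iff _).2 hx
        rw [this]
        exact one_mem _
  have hcard : φ.ker.index = L2.relIndex L1 := by
    rw [Subgroup.index_ker, hrange]
    have h1 : L2 = (QuotientGroup.mk' L2).ker := (QuotientGroup.ker_mk' L2).symm
    conv_rhs => rw [h1]
    rw [Subgroup.relIndex_ker]
  have hle : L1.subgroupOf L0 ≤ φ.ker := by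
    rintro ⟨x, hx⟩ hx1
    rw [Subgroup.mem_subgroupOf] at hx1
    rw [MonoidHom.mem_ker, hφ]
    refine (QuotientGroup.eq_one_iff _).2 ?_
    have := pow_mem_F hp.out.one_lt hpos1 hx1
    rw [e1'] at this
    exact this
  constructor
  · rw [← hcard]
    exact Nat.le_of_dvd (Nat.pos_of_ne_zero hne) (Subgroup.index_dvd_of_le hle)
  · intro heq x hx hxp
    have h1 : φ.ker.index = (L1.subgroupOf L0).index := by rw [hcard, heq]; rfl
    have h2 := Subgroup.relIndex_mul_index hle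
    have h3 : (L1.subgroupOf L0).relIndex φ.ker = 1 := by
      rw [h1] at h2
      exact Nat.eq_of_mul_eq_mul_right (Nat.pos_of_ne_zero hne) (by rw [one_mul]; exact h2)
    rw [Subgroup.relIndex_eq_one] at h3
    have h4 : (⟨x, hx⟩ : L0) ∈ φ.ker := by
      rw [MonoidHom.mem_ker, hφ]
      exact (QuotientGroup.eq_one_iff _).2 hxp
    exact h3 h4

/-- The data produced by the gap argument. -/
structure Good (p : ℕ) (G : Type*) [Group G] (m n₀ k₁ : ℕ) : Prop where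
  m_pos : 0 < m
  m_le : m ≤ n₀
  comm : ∀ n, 0 < n → ∀ x ∈ F p G n, ∀ y ∈ F p G m, ⁅x, y⁆ ∈ F p G (p * (p * n))
  pow_mem : ∀ k, k₁ ≤ k → ∀ x ∈ F p G (n₀ * p ^ k), x ^ p ∈ F p G (n₀ * p ^ (k + 2)) →
    x ∈ F p G (n₀ * p ^ (k + 1))

theorem exists_good [hp : Fact p.Prime] {a : ι → G} (hcov : Cov a) :
    ∃ m n₀ k₁, Good p G m n₀ k₁ := by
  have hpp := hp.out.pos
  obtain ⟨m, hm, hcomm⟩ := exists_comm_bound (p := p) hcov
  obtain ⟨q, hq, hgap⟩ := exists_gap (p := p) hcov hm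
  have hgi := gap_induction hm hcomm hq hgap
  have hT : ∀ n, q + m ≤ n → F p G n ≤ T p G n ⊔ F p G (n + 1) := fun n hn => (hgi n hn).1
  let d : ℕ → ℕ := fun k => (F p G ((q + m) * p ^ (k + 1))).relIndex (F p G ((q + m) * p ^ k))
  have hd : ∀ k, d k ≠ 0 := by
    intro k
    obtain ⟨l, -, hl⟩ := relIndex_F_eq_pow (p := p) hcov (n := (q + m) * p ^ k) (by positivity)
      (j := (q + m) * p ^ (k + 1))
      (Nat.mul_le_mul_left _ (Nat.pow_le_pow_right hpp (Nat.le_succ k)))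
      (le_of_eq (by ring))
    change (F p G ((q + m) * p ^ (k + 1))).relIndex (F p G ((q + m) * p ^ k)) ≠ 0
    rw [hl]
    positivity
  have hstep := fun k => layer_relIndex hm hcomm (Nat.le_add_left m q) hT k (hd k)
  have hanti : Antitone d := antitone_nat_of_succ_le fun k => (hstep k).1
  refine ⟨m, q + m, Function.argmin d, hm, Nat.le_add_left m q, hcomm, fun k hk => ?_⟩
  apply (hstep k).2
  apply le_antisymm (hstep k).1
  exact (hanti hk).trans (Function.argmin_le d (k + 1))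

variable {m n₀ k₁ : ℕ}

theorem Good.fk_antitone [hp : Fact p.Prime] : Antitone fun k => F p G (n₀ * p ^ k) :=
  fun _ _ h => F_antitone (Nat.mul_le_mul_left _ (Nat.pow_le_pow_right hp.out.pos h))

/-- The `p`-th power raises the depth by exactly one. -/
theorem Good.pow_depth [hp : Fact p.Prime] (h : Good p G m n₀ k₁) {k : ℕ} (hk : k₁ ≤ k) {x : G}
    (hx : x ∈ F p G (n₀ * p ^ k)) (hx' : x ∉ F p G (n₀ * p ^ (k + 1))) :
    x ^ p ∈ F p G (n₀ * p ^ (k + 1)) ∧ x ^ p ∉ F p G (n₀ * p ^ (k + 2)) := by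
  have hn₀ : 0 < n₀ := lt_of_lt_of_le h.m_pos h.m_le
  have hpp := hp.out.pos
  constructor
  · have := pow_mem_F hp.out.one_lt (by positivity) hx
    have e : p * (n₀ * p ^ k) = n₀ * p ^ (k + 1) := by ring
    rwa [e] at this
  · exact fun h1 => hx' (h.pow_mem k hk x hx h1)

theorem Good.exists_depth [hp : Fact p.Prime] (h : Good p G m n₀ k₁) {k : ℕ} {x : G}
    (hx : x ∈ F p G (n₀ * p ^ k)) (hx' : x ∉ Fω p G) :
    ∃ j, k ≤ j ∧ x ∈ F p G (n₀ * p ^ j) ∧ x ∉ F p G (n₀ * p ^ (j + 1)) := by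
  classical
  have hn₀ : 0 < n₀ := lt_of_lt_of_le h.m_pos h.m_le
  have hex : ∃ j, x ∉ F p G (n₀ * p ^ j) := by
    by_contra! hcon
    apply hx'
    rw [mem_Fω]
    intro n
    refine F_antitone ?_ (hcon n)
    calc n ≤ p ^ n := (Nat.lt_pow_self hp.out.one_lt).le
      _ ≤ n₀ * p ^ n := Nat.le_mul_of_pos_left _ hn₀
  have h1 := Nat.find_spec hex
  set j := Nat.find hex with hj
  have hkj : k < j := by
    by_contra hle
    exact h1 (Good.fk_antitone (by lia : j ≤ k) hx)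
  have h2 := Nat.find_min hex (m := j - 1) (by lia)
  rw [not_not] at h2
  refine ⟨j - 1, by lia, h2, ?_⟩
  rwa [Nat.sub_add_cancel (by lia)]

theorem Good.natPow_depth [hp : Fact p.Prime] (h : Good p G m n₀ k₁) :
    ∀ t : ℕ, t ≠ 0 → ∀ (j : ℕ), k₁ ≤ j → ∀ y : G, y ∈ F p G (n₀ * p ^ j) →
      y ∉ F p G (n₀ * p ^ (j + 1)) → ∀ k, y ^ t ∈ F p G (n₀ * p ^ k) → p ^ k ≤ p ^ j * t := by
  intro t
  induction t using Nat.strong_induction_on with
  | _ t ih =>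
  intro ht j hj y hy hy' k hk
  have hpp := hp.out.pos
  have hp2 := hp.out.two_le
  obtain ⟨h1, h2⟩ := h.pow_depth hj hy hy'
  by_cases hdvd : p ∣ t
  · obtain ⟨s, rfl⟩ := hdvd
    have hs : s ≠ 0 := by rintro rfl; simp at ht
    have hst : s < p * s := by
      have : 0 < s := Nat.pos_of_ne_zero hs
      nlinarith
    have h3 := ih s hst hs (j + 1) (by lia) (y ^ p) h1 h2 k (by rwa [← pow_mul])
    calc p ^ k ≤ p ^ (j + 1) * s := h3
      _ = p ^ j * (p * s) := by ring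
  · have hkj : k ≤ j := by
      by_contra hlt
      apply hy'
      have h3 : y ^ t ∈ F p G (n₀ * p ^ (j + 1)) := Good.fk_antitone (by lia : j + 1 ≤ k) hk
      have hcop : Nat.Coprime p t := (Nat.Prime.coprime_iff_not_dvd hp.out).2 hdvd
      have hb : (1 : ℤ) = p * Nat.gcdA p t + t * Nat.gcdB p t := by
        have := Nat.gcd_eq_gcd_ab p t
        rw [hcop.gcd_eq_one] at this
        exact_mod_cast this
      have : y = (y ^ p) ^ Nat.gcdA p t * (y ^ t) ^ Nat.gcdB p t := by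
        conv_lhs => rw [← zpow_one y, hb, zpow_add, zpow_mul, zpow_mul, zpow_natCast, zpow_natCast]
      rw [this]
      exact mul_mem (zpow_mem h1 _) (zpow_mem h3 _)
    calc p ^ k ≤ p ^ j := Nat.pow_le_pow_right hpp hkj
      _ ≤ p ^ j * t := Nat.le_mul_of_pos_right _ (Nat.pos_of_ne_zero ht)

theorem Good.exists_const [hp : Fact p.Prime] (h : Good p G m n₀ k₁) (b : G) :
    ∃ K : ℕ, ∀ k, k₁ ≤ k → ∀ t : ℤ, b ^ t ∈ F p G (n₀ * p ^ k) → b ^ t ∉ Fω p G →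
      p ^ k ≤ p ^ K * t.natAbs := by
  by_cases hex : ∃ t₀ : ℤ, b ^ t₀ ∈ F p G (n₀ * p ^ k₁) ∧ b ^ t₀ ∉ Fω p G
  · obtain ⟨t₀, h1, h2⟩ := hex
    obtain ⟨j, hj, h3, h4⟩ := h.exists_depth h1 h2
    refine ⟨j, fun k hk t ht ht' => ?_⟩
    have ht0 : t ≠ 0 := by
      rintro rfl
      apply ht'
      rw [zpow_zero]
      exact one_mem _
    refine h.natPow_depth t.natAbs (by simpa using ht0) j hj (b ^ t₀) h3 h4 k ?_
    have h5 : (b ^ t₀) ^ t ∈ F p G (n₀ * p ^ k) := by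
      rw [← zpow_mul, mul_comm t₀ t, zpow_mul]
      exact zpow_mem ht _
    rcases Int.natAbs_eq t with h6 | h6
    · rw [h6, zpow_natCast] at h5
      exact h5
    · rw [h6, zpow_neg, zpow_natCast] at h5
      exact inv_mem_iff.1 h5
  · refine ⟨0, fun k hk t ht ht' => ?_⟩
    exact absurd ⟨t, Good.fk_antitone hk ht, ht'⟩ hex

theorem Good.exists_lower [hp : Fact p.Prime] (h : Good p G m n₀ k₁) {a : ι → G} {lam : G → ℝ}
    (hcov : ∀ g : G, ∃ i, ∃ k : ℤ, IsConj g (a i ^ k) ∧ |(k : ℝ)| ≤ lam g) :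
    ∃ K : ℕ, ∀ k, k₁ ≤ k → ∀ g ∈ F p G (n₀ * p ^ k), g ∉ Fω p G →
      (p : ℝ) ^ k ≤ (p : ℝ) ^ K * lam g := by
  choose K hK using fun i => h.exists_const (a i)
  have hp1 : (1 : ℝ) ≤ p := by exact_mod_cast hp.out.one_lt.le
  refine ⟨Finset.univ.sup K, fun k hk g hg hg' => ?_⟩
  obtain ⟨i, t, hit, htl⟩ := hcov g
  obtain ⟨c, hc⟩ := isConj_iff.1 hit
  have h1 : a i ^ t ∈ F p G (n₀ * p ^ k) := by
    rw [← hc]; exact (F_normal _).conj_mem g hg c
  have h2 : a i ^ t ∉ Fω p G := by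
    intro h3
    apply hg'
    have := Fω_normal.conj_mem _ h3 c⁻¹
    rw [← hc] at this
    simpa [mul_assoc] using this
  have h3 := hK i k hk t h1 h2
  have h4 : (p : ℝ) ^ k ≤ (p : ℝ) ^ (K i) * |(t : ℝ)| := by
    have : (p : ℝ) ^ k ≤ (p : ℝ) ^ (K i) * (t.natAbs : ℝ) := by exact_mod_cast h3
    rwa [Nat.cast_natAbs, Int.cast_abs] at this
  calc (p : ℝ) ^ k ≤ (p : ℝ) ^ (K i) * |(t : ℝ)| := h4
    _ ≤ (p : ℝ) ^ (Finset.univ.sup K) * lam g := by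
        apply mul_le_mul _ htl (abs_nonneg _) (by positivity)
        exact pow_le_pow_right₀ hp1 (Finset.le_sup (Finset.mem_univ i))

theorem Good.comm_depth [hp : Fact p.Prime] (h : Good p G m n₀ k₁) {k : ℕ} (hk : k₁ ≤ k)
    {x z : G} (hx : x ∈ F p G m) (h1 : ⁅x, z⁆ ∈ F p G (n₀ * p ^ k))
    (h2 : ⁅x, z⁆ ∉ F p G (n₀ * p ^ (k + 1))) :
    ⁅x ^ p, z⁆ ∈ F p G (n₀ * p ^ (k + 1)) ∧ ⁅x ^ p, z⁆ ∉ F p G (n₀ * p ^ (k + 2)) := by
  have hn₀ : 0 < n₀ := lt_of_lt_of_le h.m_pos h.m_le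
  have hpp := hp.out.pos
  obtain ⟨h3, h4⟩ := h.pow_depth hk h1 h2
  have hL : F p G (n₀ * p ^ (k + 2)) ≤ F p G (n₀ * p ^ (k + 1)) :=
    Good.fk_antitone (Nat.le_succ (k + 1))
  have h5 : ⁅⁅x, z⁆, x⁆ ∈ F p G (n₀ * p ^ (k + 2)) := by
    have := h.comm (n₀ * p ^ k) (by positivity) _ h1 x hx
    have e2 : p * (p * (n₀ * p ^ k)) = n₀ * p ^ (k + 2) := by ring
    rwa [e2] at this
  have h6 : Commute ⁅(x : G ⧸ F p G (n₀ * p ^ (k + 2))), (z : G ⧸ F p G (n₀ * p ^ (k + 2)))⁆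
      (x : G ⧸ F p G (n₀ * p ^ (k + 2))) := by
    rw [← mk_commutator, commute_mk]; exact h5
  have h7 := commutator_pow_left h6 p
  rw [← QuotientGroup.mk_pow, ← mk_commutator, ← mk_commutator, ← QuotientGroup.mk_pow,
    QuotientGroup.eq] at h7
  constructor
  · have := mul_mem h3 (inv_mem (hL h7))
    simpa using this
  · intro h8
    apply h4
    have e := (mul_inv_cancel_left ⁅x ^ p, z⁆ (⁅x, z⁆ ^ p)).symm
    rw [e]
    exact mul_mem h8 h7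

theorem Good.comm_depth_iter [hp : Fact p.Prime] (h : Good p G m n₀ k₁) {x z : G}
    (hx : x ∈ F p G m) (v : ℕ) : ∀ {k : ℕ}, k₁ ≤ k → ⁅x, z⁆ ∈ F p G (n₀ * p ^ k) →
    ⁅x, z⁆ ∉ F p G (n₀ * p ^ (k + 1)) →
    ⁅x ^ (p ^ v), z⁆ ∈ F p G (n₀ * p ^ (k + v)) ∧
      ⁅x ^ (p ^ v), z⁆ ∉ F p G (n₀ * p ^ (k + v + 1)) := by
  induction v with
  | zero => intro k hk h1 h2; simpa using ⟨h1, h2⟩
  | succ v ih =>
    intro k hk h1 h2
    obtain ⟨h3, h4⟩ := ih hk h1 h2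
    have := h.comm_depth (by lia : k₁ ≤ k + v) ((F p G m).pow_mem hx (p ^ v)) h3 h4
    rw [← pow_mul, ← pow_succ] at this
    exact this

theorem Good.comm_depth_iter₂ [hp : Fact p.Prime] (h : Good p G m n₀ k₁) {x z : G}
    (hx : x ∈ F p G m) (hz : z ∈ F p G m) (v : ℕ) {k : ℕ} (hk : k₁ ≤ k)
    (h1 : ⁅x, z⁆ ∈ F p G (n₀ * p ^ k)) (h2 : ⁅x, z⁆ ∉ F p G (n₀ * p ^ (k + 1))) :
    ⁅x ^ (p ^ v), z ^ (p ^ v)⁆ ∈ F p G (n₀ * p ^ (k + v + v)) ∧
      ⁅x ^ (p ^ v), z ^ (p ^ v)⁆ ∉ F p G (n₀ * p ^ (k + v + v + 1)) := by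
  obtain ⟨h3, h4⟩ := h.comm_depth_iter hx v hk h1 h2
  rw [← commutatorElement_inv] at h3 h4
  rw [inv_mem_iff] at h3 h4
  obtain ⟨h5, h6⟩ := h.comm_depth_iter hz v (by lia : k₁ ≤ k + v) h3 h4
  rw [← commutatorElement_inv, inv_mem_iff, inv_mem_iff]
  exact ⟨h5, h6⟩

theorem lam_pow_le {lam : G → ℝ} (hsub : ∀ g h, lam (g * h) ≤ lam g + lam h) (x : G) :
    ∀ n : ℕ, 0 < n → lam (x ^ n) ≤ n * lam x := by
  intro n hn
  induction n, hn using Nat.le_induction with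
  | base => simp
  | succ n hn ih =>
    rw [pow_succ]
    calc lam (x ^ n * x) ≤ lam (x ^ n) + lam x := hsub _ _
      _ ≤ n * lam x + lam x := by linarith
      _ = ((n + 1 : ℕ) : ℝ) * lam x := by push_cast; ring

/-- **The group theoretic core.** -/
theorem commutator_mem_Fω [hp : Fact p.Prime] {a : ι → G} {lam : G → ℝ}
    (hsub : ∀ g h, lam (g * h) ≤ lam g + lam h)
    (hcov : ∀ g : G, ∃ i, ∃ k : ℤ, IsConj g (a i ^ k) ∧ |(k : ℝ)| ≤ lam g) :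
    ∃ n, 0 < n ∧ ∀ x ∈ F p G n, ∀ z ∈ F p G n, ⁅x, z⁆ ∈ Fω p G := by
  have hcov' : Cov a := fun g => by
    obtain ⟨i, k, h, -⟩ := hcov g
    exact ⟨i, k, h⟩
  obtain ⟨m, n₀, k₁, h⟩ := exists_good (p := p) hcov'
  have hn₀ : 0 < n₀ := lt_of_lt_of_le h.m_pos h.m_le
  have hpp := hp.out.pos
  obtain ⟨K, hK⟩ := h.exists_lower hcov
  refine ⟨n₀ * p ^ k₁, by positivity, fun x hx z hz => ?_⟩
  by_contra hcon
  have hmn : m ≤ n₀ * p ^ k₁ := h.m_le.trans (Nat.le_mul_of_pos_right _ (pow_pos hpp _))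
  have hxm : x ∈ F p G m := F_antitone hmn hx
  have hzm : z ∈ F p G m := F_antitone hmn hz
  have h1 : ⁅x, z⁆ ∈ F p G (n₀ * p ^ k₁) := by
    rw [commutatorElement_def]
    exact mul_mem ((F_normal _).conj_mem z hz x |> fun h => by simpa using h) (inv_mem hz)
  obtain ⟨k, hk, h2, h3⟩ := h.exists_depth h1 hcon
  set Λ : ℝ := lam x + lam z + lam x⁻¹ + lam z⁻¹ with hΛ
  have hp1 : (1 : ℝ) < p := by exact_mod_cast hp.out.one_lt
  have key : ∀ v : ℕ, (p : ℝ) ^ v ≤ (p : ℝ) ^ K * Λ := by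
    intro v
    obtain ⟨h4, h5⟩ := h.comm_depth_iter₂ hxm hzm v hk h2 h3
    have h6 : ⁅x ^ (p ^ v), z ^ (p ^ v)⁆ ∉ Fω p G := by
      intro h7
      rw [mem_Fω] at h7
      exact h5 (h7 _)
    have h7 := hK (k + v + v) (by lia) _ h4 h6
    have hv : 0 < p ^ v := pow_pos hpp v
    have h8 : lam ⁅x ^ (p ^ v), z ^ (p ^ v)⁆ ≤ (p : ℝ) ^ v * Λ := by
      have e : ⁅x ^ (p ^ v), z ^ (p ^ v)⁆ =
          x ^ (p ^ v) * z ^ (p ^ v) * x⁻¹ ^ (p ^ v) * z⁻¹ ^ (p ^ v) := by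
        rw [commutatorElement_def, inv_pow, inv_pow]
      have b1 := lam_pow_le hsub x _ hv
      have b2 := lam_pow_le hsub z _ hv
      have b3 := lam_pow_le hsub x⁻¹ _ hv
      have b4 := lam_pow_le hsub z⁻¹ _ hv
      have c1 := hsub (x ^ (p ^ v) * z ^ (p ^ v) * x⁻¹ ^ (p ^ v)) (z⁻¹ ^ (p ^ v))
      have c2 := hsub (x ^ (p ^ v) * z ^ (p ^ v)) (x⁻¹ ^ (p ^ v))
      have c3 := hsub (x ^ (p ^ v)) (z ^ (p ^ v))
      push_cast at b1 b2 b3 b4
      rw [e, hΛ]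
      linarith
    have h9 : (0 : ℝ) < (p : ℝ) ^ v := by positivity
    have h10 : (p : ℝ) ^ (v + v) ≤ (p : ℝ) ^ v * ((p : ℝ) ^ K * Λ) := by
      calc (p : ℝ) ^ (v + v) ≤ (p : ℝ) ^ (k + v + v) := by
            apply pow_le_pow_right₀ hp1.le; lia
        _ ≤ (p : ℝ) ^ K * lam ⁅x ^ (p ^ v), z ^ (p ^ v)⁆ := h7
        _ ≤ (p : ℝ) ^ K * ((p : ℝ) ^ v * Λ) := by
            apply mul_le_mul_of_nonneg_left h8 (by positivity)
        _ = (p : ℝ) ^ v * ((p : ℝ) ^ K * Λ) := by ring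
    rw [pow_add] at h10
    exact le_of_mul_le_mul_left h10 h9
  obtain ⟨v, hv⟩ := pow_unbounded_of_one_lt ((p : ℝ) ^ K * Λ) hp1
  exact absurd (key v) (not_le.2 hv)

end Vale.Agent.P216.T1
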