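import Vale.Agent.P216.T1.Chief

/-!
# Nonabelian minimal normal subgroups of finite groups
-/

set_option linter.all false

open scoped commutatorElement Nat

namespace Vale.Agent.P216.T1

variable {Q : Type*} [Group Q]

/-- The conjugate of a subgroup. -/
def cj (q : Q) (S : Subgroup Q) : Subgroup Q := S.map (MulAut.conj q).toMonoidHom

theorem mem_cj {q x : Q} {S : Subgroup Q} : x ∈ cj q S ↔ q⁻¹ * x * q ∈ S := by
  constructor
  · rintro ⟨y, hy, rfl⟩
    change q⁻¹ * (q * y * q⁻¹) * q ∈ S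
    have : q⁻¹ * (q * y * q⁻¹) * q = y := by group
    rwa [this]
  · intro h
    refine ⟨_, h, ?_⟩
    change q * (q⁻¹ * x * q) * q⁻¹ = x
    group

theorem conj_mem_cj {q x : Q} {S : Subgroup Q} (hx : x ∈ S) : q * x * q⁻¹ ∈ cj q S :=
  ⟨x, hx, rfl⟩

theorem cj_one (S : Subgroup Q) : cj 1 S = S := by
  ext x; rw [mem_cj]; simp

theorem cj_mul (a b : Q) (S : Subgroup Q) : cj (a * b) S = cj a (cj b S) := by
  ext x
  rw [mem_cj, mem_cj, mem_cj]
  have : (a * b)⁻¹ * x * (a * b) = b⁻¹ * (a⁻¹ * x * a) * b := by group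
  rw [this]

theorem cj_mono {q : Q} {S S' : Subgroup Q} (h : S ≤ S') : cj q S ≤ cj q S' :=
  Subgroup.map_mono h

/-- Subgroups of `M` normalized by `M`. -/
def NM (M S : Subgroup Q) : Prop := S ≤ M ∧ ∀ m ∈ M, ∀ s ∈ S, m * s * m⁻¹ ∈ S

/-- Minimal normal subgroups of `M`. -/
structure IsMinNM (M S : Subgroup Q) : Prop where
  nm : NM M S
  ne : S ≠ ⊥
  min : ∀ L : Subgroup Q, NM M L → L ≤ S → L = ⊥ ∨ L = S

theorem NM.cj {M S : Subgroup Q} (hM : M.Normal) (h : NM M S) (q : Q) : NM M (T1.cj q S) := by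
  constructor
  · rintro _ ⟨s, hs, rfl⟩
    exact hM.conj_mem s (h.1 hs) q
  · intro m hm s hs
    rw [mem_cj] at hs ⊢
    have h1 : q⁻¹ * m * q ∈ M := by simpa using hM.conj_mem m hm q⁻¹
    have h2 := h.2 _ h1 _ hs
    have : q⁻¹ * m * q * (q⁻¹ * s * q) * (q⁻¹ * m * q)⁻¹ = q⁻¹ * (m * s * m⁻¹) * q := by group
    rwa [this] at h2

theorem IsMinNM.cj {M S : Subgroup Q} (hM : M.Normal) (h : IsMinNM M S) (q : Q) :
    IsMinNM M (T1.cj q S) := by
  refine ⟨h.nm.cj hM q, ?_, ?_⟩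
  · intro h0
    apply h.ne
    have h1 : T1.cj q⁻¹ (T1.cj q S) = S := by rw [← cj_mul, inv_mul_cancel, cj_one]
    rw [← h1, h0]
    ext x
    rw [mem_cj, Subgroup.mem_bot, Subgroup.mem_bot]
    constructor
    · intro hx
      have : x = q⁻¹ * (q⁻¹⁻¹ * x * q⁻¹) * q := by group
      rw [this, hx]; group
    · rintro rfl; group
  · intro L hL hLS
    have h1 : T1.cj q⁻¹ L ≤ S := by
      have := cj_mono (q := q⁻¹) hLS
      rwa [← cj_mul, inv_mul_cancel, cj_one] at this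
    have h2 : L = T1.cj q (T1.cj q⁻¹ L) := by rw [← cj_mul, mul_inv_cancel, cj_one]
    rcases h.min _ (hL.cj hM q⁻¹) h1 with h3 | h3
    · left
      rw [h2, h3]
      ext x
      rw [mem_cj, Subgroup.mem_bot, Subgroup.mem_bot]
      constructor
      · intro hx
        have : x = q * (q⁻¹ * x * q) * q⁻¹ := by group
        rw [this, hx]; group
      · rintro rfl; group
    · right
      rw [h2, h3]

theorem IsMinNM.commute {M S S' : Subgroup Q} (h : IsMinNM M S) (h' : IsMinNM M S')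
    (hne : S ≠ S') {s s' : Q} (hs : s ∈ S) (hs' : s' ∈ S') : Commute s s' := by
  have hinf : NM M (S ⊓ S') := by
    refine ⟨inf_le_left.trans h.nm.1, fun m hm x hx => ⟨h.nm.2 m hm x hx.1, h'.nm.2 m hm x hx.2⟩⟩
  have hbot : S ⊓ S' = ⊥ := by
    rcases h.min _ hinf inf_le_left with h1 | h1
    · exact h1
    · exfalso
      have h2 : S ≤ S' := by rw [← h1]; exact inf_le_right
      rcases h'.min S h.nm h2 with h3 | h3
      · exact h.ne h3
      · exact hne h3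
  have h1 : ⁅s, s'⁆ ∈ S ⊓ S' := by
    constructor
    · have h2 := h.nm.2 s' (h'.nm.1 hs') s⁻¹ (S.inv_mem hs)
      have h3 := S.mul_mem hs h2
      have : ⁅s, s'⁆ = s * (s' * s⁻¹ * s'⁻¹) := by rw [commutatorElement_def]; group
      rw [this]; exact h3
    · have h2 := h'.nm.2 s (h.nm.1 hs) s' hs'
      have h3 := S'.mul_mem h2 (S'.inv_mem hs')
      rw [commutatorElement_def]
      exact h3
  rw [hbot, Subgroup.mem_bot] at h1
  exact commutatorElement_eq_one_iff_commute.1 h1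

section

variable {M S₀ : Subgroup Q} (hM : M.Normal)
  (hmin : ∀ W : Subgroup Q, W.Normal → W ≤ M → W = ⊥ ∨ W = M)
  (hnc : ¬ ∀ x ∈ M, ∀ y ∈ M, Commute x y) (h₀ : IsMinNM M S₀)

include hM hmin h₀

theorem iSup_cj : ⨆ q : Q, cj q S₀ = M := by
  have hle : ⨆ q : Q, cj q S₀ ≤ M := iSup_le fun q => (h₀.nm.cj hM q).1
  have hn : (⨆ q : Q, cj q S₀).Normal := by
    constructor
    intro x hx g
    have h1 : (⨆ q : Q, cj q S₀) ≤ cj g⁻¹ (⨆ q : Q, cj q S₀) := by
      refine iSup_le fun q => ?_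
      have h2 : cj q S₀ = cj g⁻¹ (cj (g * q) S₀) := by
        rw [← cj_mul, inv_mul_cancel_left]
      rw [h2]
      exact cj_mono (le_iSup (fun q => cj q S₀) (g * q))
    have h3 := h1 hx
    rw [mem_cj, inv_inv] at h3
    exact h3
  rcases hmin _ hn hle with h1 | h1
  · exfalso
    apply h₀.ne
    rw [eq_bot_iff, ← h1]
    have := le_iSup (fun q => cj q S₀) 1
    rwa [cj_one] at this
  · exact h1

include hnc

theorem exists_not_commute (q : Q) {s : Q} (hs : s ∈ cj q S₀) (hs1 : s ≠ 1) :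
    ∃ t ∈ cj q S₀, ¬ Commute s t := by
  by_contra! hcon
  have hq := h₀.cj hM q
  set S := cj q S₀ with hS
  have hZ : NM M (S ⊓ Subgroup.centralizer (S : Set Q)) := by
    refine ⟨inf_le_left.trans hq.nm.1, fun m hm z hz => ⟨hq.nm.2 m hm z hz.1, ?_⟩⟩
    refine Subgroup.mem_centralizer_iff.2 fun x hx => ?_
    have h1 : m⁻¹ * x * m ∈ S := by simpa using hq.nm.2 m⁻¹ (M.inv_mem hm) x hx
    have h2 := Subgroup.mem_centralizer_iff.1 hz.2 _ h1
    calc x * (m * z * m⁻¹) = m * ((m⁻¹ * x * m) * z) * m⁻¹ := by group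
      _ = m * (z * (m⁻¹ * x * m)) * m⁻¹ := by rw [h2]
      _ = m * z * m⁻¹ * x := by group
  have hall : ∀ x ∈ S, ∀ y ∈ S, Commute x y := by
    rcases hq.min _ hZ inf_le_left with h1 | h1
    · exfalso
      apply hs1
      rw [← Subgroup.mem_bot, ← h1]
      exact ⟨hs, Subgroup.mem_centralizer_iff.2 fun t ht => (hcon t ht).symm⟩
    · intro x hx y hy
      rw [← h1] at hx
      exact (Subgroup.mem_centralizer_iff.1 hx.2 y hy).symm
  -- all conjugates are abelian and commute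
  have hall₀ : ∀ x ∈ S₀, ∀ y ∈ S₀, Commute x y := by
    intro x hx y hy
    have h1 := hall _ (conj_mem_cj (q := q) hx) _ (conj_mem_cj (q := q) hy)
    have h2 : q * x * q⁻¹ * (q * y * q⁻¹) = q * y * q⁻¹ * (q * x * q⁻¹) := h1
    have h3 : q * (x * y) * q⁻¹ = q * (y * x) * q⁻¹ := by
      calc q * (x * y) * q⁻¹ = q * x * q⁻¹ * (q * y * q⁻¹) := by group
        _ = q * y * q⁻¹ * (q * x * q⁻¹) := h2
        _ = q * (y * x) * q⁻¹ := by group
    exact mul_left_cancel (mul_right_cancel h3)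
  have hpair : ∀ q₁ q₂ : Q, ∀ x ∈ cj q₁ S₀, ∀ y ∈ cj q₂ S₀, Commute x y := by
    intro q₁ q₂ x hx y hy
    by_cases heq : cj q₁ S₀ = cj q₂ S₀
    · rw [← heq] at hy
      rw [mem_cj] at hx hy
      have h1 := hall₀ _ hx _ hy
      have h2 : q₁⁻¹ * x * q₁ * (q₁⁻¹ * y * q₁) = q₁⁻¹ * y * q₁ * (q₁⁻¹ * x * q₁) := h1
      have h3 : q₁⁻¹ * (x * y) * q₁ = q₁⁻¹ * (y * x) * q₁ := by
        calc q₁⁻¹ * (x * y) * q₁ = q₁⁻¹ * x * q₁ * (q₁⁻¹ * y * q₁) := by group
          _ = q₁⁻¹ * y * q₁ * (q₁⁻¹ * x * q₁) := h2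
          _ = q₁⁻¹ * (y * x) * q₁ := by group
      exact mul_left_cancel (mul_right_cancel h3)
    · exact (h₀.cj hM q₁).commute (h₀.cj hM q₂) heq hx hy
  apply hnc
  have h1 : ∀ q₂ : Q, M ≤ Subgroup.centralizer (cj q₂ S₀ : Set Q) := by
    intro q₂
    rw [← iSup_cj hM hmin h₀]
    refine iSup_le fun q₁ x hx => Subgroup.mem_centralizer_iff.2 fun y hy => ?_
    exact hpair q₂ q₁ y hy x hx
  have h2 : M ≤ Subgroup.centralizer (M : Set Q) := by
    conv_lhs => rw [← iSup_cj hM hmin h₀]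
    refine iSup_le fun q₂ x hx => Subgroup.mem_centralizer_iff.2 fun y hy => ?_
    exact (Subgroup.mem_centralizer_iff.1 (h1 q₂ hy) x hx).symm
  intro x hx y hy
  exact (Subgroup.mem_centralizer_iff.1 (h2 hx) y hy).symm

theorem isSimpleGroup_cj (q : Q) : IsSimpleGroup (cj q S₀) := by
  have hq := h₀.cj hM q
  have hnt : Nontrivial (cj q S₀) := (Subgroup.nontrivial_iff_ne_bot _).2 hq.ne
  refine { exists_pair_ne := hnt.exists_pair_ne, eq_bot_or_eq_top_of_normal := ?_ }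
  intro L hL
  set L' : Subgroup Q := L.map (cj q S₀).subtype with hL'
  have hL'S : L' ≤ cj q S₀ := by
    rintro _ ⟨x, -, rfl⟩; exact x.2
  -- the normalizer of `L'` contains `M`
  have hnorm : ∀ q' : Q, ∀ m ∈ cj q' S₀, ∀ s ∈ L', m * s * m⁻¹ ∈ L' := by
    intro q' m hm s hs
    by_cases heq : cj q' S₀ = cj q S₀
    · rw [heq] at hm
      obtain ⟨s, hs, rfl⟩ := hs
      exact ⟨⟨m, hm⟩ * s * ⟨m, hm⟩⁻¹, hL.conj_mem s hs ⟨m, hm⟩, rfl⟩
    · have := (h₀.cj hM q').commute hq heq hm (hL'S hs)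
      rw [this.eq, mul_inv_cancel_right]
      exact hs
  have hNM : NM M L' := by
    refine ⟨hL'S.trans hq.nm.1, ?_⟩
    have h1 : M ≤ Subgroup.normalizer (L' : Set Q) := by
      conv_lhs => rw [← iSup_cj hM hmin h₀]
      refine iSup_le fun q' m hm => ?_
      rw [Subgroup.mem_normalizer_iff]
      intro s
      constructor
      · intro hs
        exact hnorm q' m hm s hs
      · intro hs
        have := hnorm q' m⁻¹ (Subgroup.inv_mem _ hm) _ hs
        have e : m⁻¹ * (m * s * m⁻¹) * m⁻¹⁻¹ = s := by group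
        rwa [e] at this
    intro m hm s hs
    exact (Subgroup.mem_normalizer_iff.1 (h1 hm) s).1 hs
  rcases hq.min L' hNM hL'S with h1 | h1
  · left
    rw [eq_bot_iff]
    intro x hx
    have : (x : Q) ∈ L' := ⟨x, hx, rfl⟩
    rw [h1, Subgroup.mem_bot] at this
    exact Subgroup.mem_bot.2 (Subtype.ext this)
  · right
    rw [eq_top_iff]
    intro x _
    have : (x : Q) ∈ L' := by rw [h1]; exact x.2
    obtain ⟨y, hy, hyx⟩ := this
    have : y = x := Subtype.ext hyx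
    rwa [← this]

end

theorem exists_isMinNM [Finite Q] {M : Subgroup Q} (hM0 : M ≠ ⊥) : ∃ S₀, IsMinNM M S₀ := by
  classical
  let 𝒮 : Set (Subgroup Q) := {S | NM M S ∧ S ≠ ⊥}
  have hM𝒮 : M ∈ 𝒮 := ⟨⟨le_rfl, fun m hm s hs => M.mul_mem (M.mul_mem hm hs) (M.inv_mem hm)⟩, hM0⟩
  obtain ⟨S, hS⟩ := (Set.toFinite 𝒮).exists_minimal ⟨M, hM𝒮⟩
  obtain ⟨h1, h2⟩ := hS.prop
  refine ⟨S, h1, h2, fun L hL hLS => ?_⟩
  by_cases h0 : L = ⊥
  · exact Or.inl h0
  · exact Or.inr (le_antisymm hLS (hS.le_of_le ⟨hL, h0⟩ hLS))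

end Vale.Agent.P216.T1
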