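import Vale.Agent.P216.T1.Simple1

/-!
# The number of simple factors of a nonabelian chief factor
-/

set_option linter.all false

open scoped commutatorElement Nat

namespace Vale.Agent.P216.T1

variable {Q : Type*} [Group Q]

theorem mem_zpowers_of_prime {b x y : Q} {p : ℕ} (hp : p.Prime) {m n : ℤ} (hx : x = b ^ m)
    (hy : y = b ^ n) (hxp : x ^ p = 1) (hyp : y ^ p = 1) (hx1 : x ≠ 1) :
    y ∈ Subgroup.zpowers x := by
  obtain ⟨m', hm'⟩ : ((Int.gcd m n : ℕ) : ℤ) ∣ m := Int.gcd_dvd_left _ _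
  obtain ⟨n', hn'⟩ : ((Int.gcd m n : ℕ) : ℤ) ∣ n := Int.gcd_dvd_right _ _
  set d : ℤ := ((Int.gcd m n : ℕ) : ℤ) with hd
  have hbez : d = m * Int.gcdA m n + n * Int.gcdB m n := Int.gcd_eq_gcd_ab m n
  set c : Q := b ^ d with hc
  have hxc : x = c ^ m' := by rw [hx, hc, ← zpow_mul, ← hm']
  have hyc : y = c ^ n' := by rw [hy, hc, ← zpow_mul, ← hn']
  have hcp : c ^ (p : ℤ) = 1 := by
    have h1 : c = x ^ Int.gcdA m n * y ^ Int.gcdB m n := by
      rw [hx, hy, ← zpow_mul, ← zpow_mul, ← zpow_add, ← hbez]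
    have h2 : c ^ (p : ℤ) = (x ^ (p : ℤ)) ^ Int.gcdA m n * (y ^ (p : ℤ)) ^ Int.gcdB m n := by
      rw [hx, hy, hc]
      simp only [← zpow_mul, ← zpow_add]
      congr 1
      rw [hbez]; ring
    rw [h2, zpow_natCast, zpow_natCast, hxp, hyp, one_zpow, one_zpow, one_mul]
  have hcop : IsCoprime m' (p : ℤ) := by
    have h1 : IsCoprime (p : ℤ) m' := by
      rw [(Nat.prime_iff_prime_int.1 hp).coprime_iff_not_dvd]
      rintro ⟨t, ht⟩
      apply hx1
      rw [hxc, ht, zpow_mul, hcp, one_zpow]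
    exact h1.symm
  obtain ⟨s, t, hst⟩ := hcop
  have h1 : c = x ^ s := by
    have h2 : c ^ (s * m' + t * (p : ℤ)) = c := by rw [hst, zpow_one]
    rw [hxc, ← zpow_mul, mul_comm m' s]
    conv_lhs => rw [← h2]
    rw [zpow_add, mul_comm t, zpow_mul c (p : ℤ), hcp, one_zpow, mul_one]
  rw [hyc, h1, ← zpow_mul]
  exact Subgroup.zpow_mem_zpowers _ _

/-- The set of conjugates of `S₀` not centralized by `x`. -/
def Zs (S₀ : Subgroup Q) (x : Q) : Set (Subgroup Q) :=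
  {S | (∃ q, cj q S₀ = S) ∧ ¬ ∀ s ∈ S, Commute x s}

theorem Zs_mono {S₀ : Subgroup Q} {x y : Q} (h : y ∈ Subgroup.zpowers x) : Zs S₀ y ⊆ Zs S₀ x := by
  rintro S ⟨hS, hn⟩
  refine ⟨hS, fun hcomm => hn fun s hs => ?_⟩
  obtain ⟨k, rfl⟩ := h
  exact (hcomm s hs).zpow_left k

theorem cj_injective (q : Q) : Function.Injective (cj q) := by
  intro S S' h
  have h1 : cj q⁻¹ (cj q S) = cj q⁻¹ (cj q S') := by rw [h]
  rwa [← cj_mul, ← cj_mul, inv_mul_cancel, cj_one, cj_one] at h1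

theorem Zs_conj_subset {S₀ : Subgroup Q} (q x : Q) :
    cj q '' Zs S₀ x ⊆ Zs S₀ (q * x * q⁻¹) := by
  rintro _ ⟨S, ⟨⟨q', rfl⟩, hn⟩, rfl⟩
  refine ⟨⟨q * q', cj_mul _ _ _⟩, fun hcomm => hn fun s hs => ?_⟩
  have h1 := hcomm _ (conj_mem_cj (q := q) hs)
  have h2 : q * x * q⁻¹ * (q * s * q⁻¹) = q * s * q⁻¹ * (q * x * q⁻¹) := h1
  have h3 : q * (x * s) * q⁻¹ = q * (s * x) * q⁻¹ := by
    calc q * (x * s) * q⁻¹ = q * x * q⁻¹ * (q * s * q⁻¹) := by group
      _ = q * s * q⁻¹ * (q * x * q⁻¹) := h2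
      _ = q * (s * x) * q⁻¹ := by group
  exact mul_left_cancel (mul_right_cancel h3)

theorem Zs_conj {S₀ : Subgroup Q} (q x : Q) : Zs S₀ (q * x * q⁻¹) = cj q '' Zs S₀ x := by
  refine Set.Subset.antisymm ?_ (Zs_conj_subset q x)
  intro S hS
  have h1 := Zs_conj_subset (S₀ := S₀) q⁻¹ (q * x * q⁻¹) (Set.mem_image_of_mem _ hS)
  have h2 : q⁻¹ * (q * x * q⁻¹) * q⁻¹⁻¹ = x := by group
  rw [h2] at h1
  refine ⟨_, h1, ?_⟩
  rw [← cj_mul, mul_inv_cancel, cj_one]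

theorem Zs_ncard_of_isConj {S₀ : Subgroup Q} {x y : Q} (h : IsConj x y) :
    (Zs S₀ x).ncard = (Zs S₀ y).ncard := by
  obtain ⟨q, rfl⟩ := isConj_iff.1 h
  rw [Zs_conj, Set.ncard_image_of_injective _ (cj_injective q)]

section

variable {M S₀ : Subgroup Q} (hM : M.Normal)
  (hmin : ∀ W : Subgroup Q, W.Normal → W ≤ M → W = ⊥ ∨ W = M)
  (hnc : ¬ ∀ x ∈ M, ∀ y ∈ M, Commute x y) (h₀ : IsMinNM M S₀)

include hM hmin hnc h₀

theorem exists_Zs_eq {p : ℕ} (hp : p.Prime) {s₀ : Q} (hs₀ : s₀ ∈ S₀) (hs₀1 : s₀ ≠ 1)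
    (hs₀p : s₀ ^ p = 1) (F : Finset (Subgroup Q)) (hF : ∀ S ∈ F, ∃ q, cj q S₀ = S) :
    ∃ x : Q, x ^ p = 1 ∧ Zs S₀ x = ↑F := by
  classical
  induction F using Finset.induction_on with
  | empty =>
    refine ⟨1, one_pow _, ?_⟩
    ext S
    simp only [Zs, Set.mem_setOf_eq, Finset.coe_empty, Set.mem_empty_iff_false, iff_false]
    rintro ⟨-, h⟩
    exact h fun s _ => Commute.one_left s
  | insert S₁ F hS₁ ih =>
    obtain ⟨x, hxp, hx⟩ := ih fun S hS => hF S (Finset.mem_insert_of_mem hS)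
    obtain ⟨q, rfl⟩ := hF S₁ (Finset.mem_insert_self _ _)
    set s₁ := q * s₀ * q⁻¹ with hs₁
    have hs₁m : s₁ ∈ cj q S₀ := conj_mem_cj hs₀
    have hs₁1 : s₁ ≠ 1 := by
      intro h
      apply hs₀1
      have : s₀ = q⁻¹ * s₁ * q := by rw [hs₁]; group
      rw [this, h]; group
    have hs₁p : s₁ ^ p = 1 := by
      rw [hs₁, conj_pow, hs₀p]; group
    have hnot : cj q S₀ ∉ Zs S₀ x := by rw [hx]; exact hS₁
    have hxS₁ : ∀ s ∈ cj q S₀, Commute x s := by
      by_contra hcon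
      exact hnot ⟨⟨q, rfl⟩, hcon⟩
    refine ⟨x * s₁, ?_, ?_⟩
    · rw [(hxS₁ s₁ hs₁m).mul_pow, hxp, hs₁p, one_mul]
    · ext S
      rw [Finset.coe_insert, Set.mem_insert_iff, ← hx]
      by_cases hSq : S = cj q S₀
      · subst hSq
        simp only [true_or, iff_true]
        refine ⟨⟨q, rfl⟩, fun hcomm => ?_⟩
        obtain ⟨t, ht, hst⟩ := exists_not_commute hM hmin hnc h₀ q hs₁m hs₁1
        apply hst
        have h1 := (hxS₁ t ht).inv_left.mul_left (hcomm t ht)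
        rwa [inv_mul_cancel_left] at h1
      · simp only [hSq, false_or]
        constructor
        · rintro ⟨⟨q', rfl⟩, hn⟩
          refine ⟨⟨q', rfl⟩, fun hcomm => hn fun s hs => ?_⟩
          exact (hcomm s hs).mul_left
            ((h₀.cj hM q).commute (h₀.cj hM q') (Ne.symm hSq) hs₁m hs)
        · rintro ⟨⟨q', rfl⟩, hn⟩
          refine ⟨⟨q', rfl⟩, fun hcomm => hn fun s hs => ?_⟩
          have h1 := (h₀.cj hM q).commute (h₀.cj hM q') (Ne.symm hSq) hs₁m hs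
          have h2 := (hcomm s hs).mul_left h1.inv_left
          rwa [mul_inv_cancel_right] at h2

theorem card_orbit_le [Finite Q] {r : ℕ} {b : Fin r → Q}
    (hcov : ∀ x : Q, ∃ i, ∃ k : ℤ, IsConj x (b i ^ k)) :
    (Set.range fun q => cj q S₀).ncard ≤ r := by
  classical
  set O : Set (Subgroup Q) := Set.range fun q => cj q S₀ with hO
  have hOfin : O.Finite := Set.toFinite _
  -- a prime
  obtain ⟨s₀, hs₀, p, hp, hs₀1, hs₀p⟩ : ∃ s₀ ∈ S₀, ∃ p : ℕ, p.Prime ∧ s₀ ≠ 1 ∧ s₀ ^ p = 1 := by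
    have hnt : Nontrivial S₀ := (Subgroup.nontrivial_iff_ne_bot _).2 h₀.ne
    have hcard : Nat.card S₀ ≠ 1 := by
      have := Finite.one_lt_card_iff_nontrivial.2 hnt
      lia
    obtain ⟨p, hp, hdvd⟩ := Nat.exists_prime_and_dvd hcard
    have := Fact.mk hp
    obtain ⟨s, hs⟩ := exists_prime_orderOf_dvd_card' p hdvd
    refine ⟨s, s.2, p, hp, ?_, ?_⟩
    · intro h1
      have : s = 1 := Subtype.ext h1
      rw [this, orderOf_one] at hs
      exact hp.one_lt.ne hs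
    · have h2 : s ^ p = 1 := by rw [← hs]; exact pow_orderOf_eq_one s
      have := congrArg Subtype.val h2
      simpa using this
  have key : ∀ j : Fin O.ncard, ∃ x : Q, x ^ p = 1 ∧ (Zs S₀ x).ncard = (j : ℕ) + 1 := by
    intro j
    obtain ⟨F, hFO, hFc⟩ := Finset.exists_subset_card_eq (s := hOfin.toFinset) (n := (j : ℕ) + 1)
      (by rw [← Set.ncard_eq_toFinset_card O hOfin]; exact j.2)
    obtain ⟨x, hx, hxF⟩ := exists_Zs_eq hM hmin hnc h₀ hp hs₀ hs₀1 hs₀p F fun S hS => by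
      have := hFO hS
      rw [Set.Finite.mem_toFinset] at this
      exact this
    exact ⟨x, hx, by rw [hxF, Set.ncard_coe_finset, hFc]⟩
  choose x hxp hxZ using key
  choose i k hik using fun j => hcov (x j)
  have hone : (Zs S₀ (1 : Q)).ncard = 0 := by
    have : Zs S₀ (1 : Q) = ∅ := by
      ext S
      simp only [Zs, Set.mem_setOf_eq, Set.mem_empty_iff_false, iff_false]
      rintro ⟨-, h⟩
      exact h fun s _ => Commute.one_left s
    rw [this, Set.ncard_empty]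
  have hinj : Function.Injective i := by
    intro j j' hjj
    have hZ : ∀ j, (Zs S₀ (b (i j) ^ k j)).ncard = (j : ℕ) + 1 := fun j => by
      rw [← hxZ j]; exact (Zs_ncard_of_isConj (hik j)).symm
    have hp1 : ∀ j, (b (i j) ^ k j) ^ p = 1 := fun j => by
      obtain ⟨q, hq⟩ := isConj_iff.1 (hik j)
      rw [← hq, conj_pow, hxp]; group
    have hne : ∀ j, b (i j) ^ k j ≠ 1 := fun j h => by
      have := hZ j
      rw [h, hone] at this
      lia
    have h1 := mem_zpowers_of_prime hp (b := b (i j)) (x := b (i j) ^ k j)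
      (y := b (i j') ^ k j') rfl (by rw [hjj]) (hp1 j) (hp1 j') (hne j)
    have h2 := mem_zpowers_of_prime hp (b := b (i j)) (x := b (i j') ^ k j')
      (y := b (i j) ^ k j) (by rw [hjj]) rfl (hp1 j') (hp1 j) (hne j')
    have h3 : Zs S₀ (b (i j) ^ k j) = Zs S₀ (b (i j') ^ k j') :=
      Set.Subset.antisymm (Zs_mono h2) (Zs_mono h1)
    have h4 := hZ j
    rw [h3, hZ j'] at h4
    exact Fin.ext (by lia)
  have := Fintype.card_le_of_injective i hinj
  simpa using this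

end

end Vale.Agent.P216.T1
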