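import Vale.Agent.P216.T1.Simple2
import Vale.Agent.P216.T1.Solv

/-!
# Inner action on nonabelian chief factors
-/

set_option linter.all false

open scoped commutatorElement Nat

namespace Vale.Agent.P216.T1

section

variable {Q : Type*} [Group Q]

/-- The set of conjugates as a type. -/
def Cjs (S₀ : Subgroup Q) : Type _ := {S : Subgroup Q // ∃ q, cj q S₀ = S}

instance (S₀ : Subgroup Q) : MulAction Q (Cjs S₀) where
  smul q S := ⟨cj q S.1, by obtain ⟨q', hq'⟩ := S.2; exact ⟨q * q', by rw [cj_mul, hq']⟩⟩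
  one_smul S := Subtype.ext (cj_one S.1)
  mul_smul a b S := Subtype.ext (cj_mul a b S.1)

/-- The kernel of the conjugation action on the conjugates of `S₀`. -/
def Nk (S₀ : Subgroup Q) : Subgroup Q := (MulAction.toPermHom Q (Cjs S₀)).ker

theorem Nk_normal (S₀ : Subgroup Q) : (Nk S₀).Normal := by
  rw [Nk]; infer_instance

theorem mem_Nk {S₀ : Subgroup Q} {x : Q} : x ∈ Nk S₀ ↔ ∀ q, cj x (cj q S₀) = cj q S₀ := by
  rw [Nk, MonoidHom.mem_ker]
  constructor
  · intro h q
    have := DFunLike.congr_fun h (⟨cj q S₀, q, rfl⟩ : Cjs S₀)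
    exact congrArg Subtype.val this
  · intro h
    refine Equiv.ext fun S => ?_
    obtain ⟨S, q, rfl⟩ := S
    exact Subtype.ext (h q)

theorem Nk_index_le [Finite Q] (S₀ : Subgroup Q) :
    (Nk S₀).index ≤ (Set.range fun q => cj q S₀).ncard ! := by
  have hf : Finite (Cjs S₀) := by unfold Cjs; infer_instance
  rw [Nk, Subgroup.index_ker]
  have h1 : Nat.card (MulAction.toPermHom Q (Cjs S₀)).range ≤ Nat.card (Equiv.Perm (Cjs S₀)) :=
    Nat.card_le_card_of_injective _ Subtype.val_injective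
  refine h1.trans ?_
  rw [Nat.card_perm]
  refine Nat.factorial_le ?_
  rw [← Nat.card_coe_set_eq]
  exact le_of_eq rfl

section

variable {M S₀ : Subgroup Q} (hM : M.Normal)
  (hmin : ∀ W : Subgroup Q, W.Normal → W ≤ M → W = ⊥ ∨ W = M)
  (h₀ : IsMinNM M S₀)

include hM hmin h₀

/-- An element acting on each simple factor as an inner automorphism is in `M C(M)`. -/
theorem mem_sup_centralizer [Finite Q] {d : Q}
    (hd : ∀ q, ∃ s ∈ cj q S₀, ∀ x ∈ cj q S₀, d * x * d⁻¹ = s * x * s⁻¹) :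
    d ∈ M ⊔ Subgroup.centralizer (M : Set Q) := by
  classical
  have key : ∀ F : Finset (Subgroup Q), (∀ S ∈ F, ∃ q, cj q S₀ = S) → ∃ m ∈ M,
      (∀ S ∈ F, ∀ x ∈ S, d * x * d⁻¹ = m * x * m⁻¹) ∧
      (∀ q, cj q S₀ ∉ F → ∀ x ∈ cj q S₀, Commute m x) := by
    intro F
    induction F using Finset.induction_on with
    | empty => exact fun _ => ⟨1, M.one_mem, by simp, fun q _ x _ => Commute.one_left x⟩
    | insert S₁ F hS₁ ih =>
      intro hF
      obtain ⟨m, hm, h1, h2⟩ := ih fun S hS => hF S (Finset.mem_insert_of_mem hS)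
      obtain ⟨q₁, rfl⟩ := hF S₁ (Finset.mem_insert_self _ _)
      obtain ⟨s, hs, h3⟩ := hd q₁
      refine ⟨m * s, M.mul_mem hm ((h₀.cj hM q₁).nm.1 hs), ?_, ?_⟩
      · intro S hS x hx
        rw [Finset.mem_insert] at hS
        by_cases hSS : S = cj q₁ S₀
        · subst hSS
          rw [h3 x hx]
          have h4 : s * x * s⁻¹ ∈ cj q₁ S₀ :=
            Subgroup.mul_mem _ (Subgroup.mul_mem _ hs hx) (Subgroup.inv_mem _ hs)
          have h5 := h2 q₁ hS₁ _ h4
          calc s * x * s⁻¹ = (s * x * s⁻¹) * m * m⁻¹ := by group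
            _ = m * (s * x * s⁻¹) * m⁻¹ := by rw [h5.eq]
            _ = m * s * x * (m * s)⁻¹ := by group
        · have hSF : S ∈ F := hS.resolve_left hSS
          obtain ⟨q', rfl⟩ := hF S (Finset.mem_insert_of_mem hSF)
          have h6 := (h₀.cj hM q₁).commute (h₀.cj hM q') (Ne.symm hSS) hs hx
          rw [h1 _ hSF x hx]
          calc m * x * m⁻¹ = m * (x * s) * s⁻¹ * m⁻¹ := by group
            _ = m * (s * x) * s⁻¹ * m⁻¹ := by rw [h6.eq]
            _ = m * s * x * (m * s)⁻¹ := by group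
      · intro q hq x hx
        rw [Finset.mem_insert, not_or] at hq
        exact (h2 q hq.2 x hx).mul_left
          ((h₀.cj hM q₁).commute (h₀.cj hM q) (Ne.symm hq.1) hs hx)
  obtain ⟨m, hm, h1, -⟩ := key (Set.toFinite (Set.range fun q => cj q S₀)).toFinset
    (fun S hS => by rw [Set.Finite.mem_toFinset] at hS; exact hS)
  have h2 : m⁻¹ * d ∈ Subgroup.centralizer (M : Set Q) := by
    have h3 : ∀ q, ∀ x ∈ cj q S₀, Commute (m⁻¹ * d) x := by
      intro q x hx
      have h4 := h1 (cj q S₀) (by rw [Set.Finite.mem_toFinset]; exact ⟨q, rfl⟩) x hx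
      have h5 : m⁻¹ * d * x * (m⁻¹ * d)⁻¹ = x := by
        calc m⁻¹ * d * x * (m⁻¹ * d)⁻¹ = m⁻¹ * (d * x * d⁻¹) * m := by group
          _ = m⁻¹ * (m * x * m⁻¹) * m := by rw [h4]
          _ = x := by group
      exact eq_mul_of_mul_inv_eq h5
    rw [Subgroup.mem_centralizer_iff]
    have h6 : M ≤ Subgroup.centralizer ({m⁻¹ * d} : Set Q) := by
      conv_lhs => rw [← iSup_cj hM hmin h₀]
      refine iSup_le fun q x hx => ?_
      rw [Subgroup.mem_centralizer_singleton_iff]
      exact (h3 q x hx).symm.eq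
    intro y hy
    have := h6 hy
    rw [Subgroup.mem_centralizer_singleton_iff] at this
    exact this
  have h7 : d = m * (m⁻¹ * d) := by group
  rw [h7]
  exact Subgroup.mul_mem_sup hm h2

variable (hnc : ¬ ∀ x ∈ M, ∀ y ∈ M, Commute x y)

include hnc

theorem exists_derivedSeries_le [Finite Q]
    (hSch : ∀ S : Subgroup Q, IsSimpleGroup S → (∃ x y : S, x * y ≠ y * x) →
      ∃ n, derivedSeries (MulAut S) n ≤ (MulAut.conj : S →* MulAut S).range)
    {D' : Type*} [Group D'] (f : D' →* Q) (hf : ∀ d, f d ∈ Nk S₀) :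
    ∃ n, derivedSeries D' n ≤ (M ⊔ Subgroup.centralizer (M : Set Q)).comap f := by
  classical
  have h1 : ∀ q, ∃ n, derivedSeries (MulAut (cj q S₀)) n ≤
      (MulAut.conj : cj q S₀ →* MulAut (cj q S₀)).range := by
    intro q
    refine hSch _ (isSimpleGroup_cj hM hmin hnc h₀ q) ?_
    have hnt : Nontrivial (cj q S₀) := (Subgroup.nontrivial_iff_ne_bot _).2 (h₀.cj hM q).ne
    obtain ⟨s, hs⟩ := exists_ne (1 : cj q S₀)
    obtain ⟨t, ht, hst⟩ := exists_not_commute hM hmin hnc h₀ q s.2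
      (fun h => hs (Subtype.ext h))
    exact ⟨s, ⟨t, ht⟩, fun h => hst (congrArg Subtype.val h)⟩
  choose n hn using h1
  have := Fintype.ofFinite Q
  refine ⟨Finset.univ.sup n, fun d hd => ?_⟩
  rw [Subgroup.mem_comap]
  refine mem_sup_centralizer hM hmin h₀ fun q => ?_
  have hnorm : ∀ d, f d ∈ Subgroup.normalizer (cj q S₀ : Set Q) := by
    intro d
    rw [Subgroup.mem_normalizer_iff]
    intro x
    have h2 := mem_Nk.1 (hf d) q
    constructor
    · intro hx
      have := conj_mem_cj (q := f d) hx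
      rwa [h2] at this
    · intro hx
      rw [← h2, mem_cj] at hx
      have e : (f d)⁻¹ * (f d * x * (f d)⁻¹) * f d = x := by group
      rwa [e] at hx
  let β : D' →* MulAut (cj q S₀) :=
    (Subgroup.normalizerMonoidHom (cj q S₀)).comp (f.codRestrict _ hnorm)
  have h3 : β d ∈ (MulAut.conj : cj q S₀ →* MulAut (cj q S₀)).range := by
    apply hn q
    have h4 : d ∈ derivedSeries D' (n q) :=
      derivedSeries_antitone D' (Finset.le_sup (Finset.mem_univ q)) hd
    exact map_derivedSeries_le_derivedSeries β (n q) (Subgroup.mem_map_of_mem β h4)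
  obtain ⟨s, hs⟩ := h3
  refine ⟨s, s.2, fun x hx => ?_⟩
  have h5 := DFunLike.congr_fun hs (⟨x, hx⟩ : cj q S₀)
  exact (congrArg Subtype.val h5).symm

end

end

end Vale.Agent.P216.T1
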