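import Vale.Agent.P216.T1.Simple3

/-!
# Uniform inner action on nonabelian chief factors, and their centralizers
-/

set_option linter.all false

open scoped commutatorElement Nat

namespace Vale.Agent.P216.T1

variable {G : Type*} [Group G]

/-- Minimal normal, nonabelian. -/
structure NAM {Q : Type*} [Group Q] (M : Subgroup Q) : Prop where
  normal : M.Normal
  min : ∀ W : Subgroup Q, W.Normal → W ≤ M → W = ⊥ ∨ W = M
  nc : ¬ ∀ x ∈ M, ∀ y ∈ M, Commute x y

theorem NAM.ne_bot {Q : Type*} [Group Q] {M : Subgroup Q} (h : NAM M) : M ≠ ⊥ := by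
  rintro rfl
  exact h.nc fun x hx y _ => by rw [Subgroup.mem_bot.1 hx]; exact Commute.one_left y

/-- The outer automorphism groups of the nonabelian simple subgroups of the finite quotients are
solvable. -/
def SchQ (G : Type*) [Group G] : Prop :=
  ∀ (N : Subgroup G) (_ : N.Normal), N.index ≠ 0 → ∀ S : Subgroup (G ⧸ N), IsSimpleGroup S →
    (∃ x y : S, x * y ≠ y * x) →
    ∃ n, derivedSeries (MulAut S) n ≤ (MulAut.conj : S →* MulAut S).range

theorem index_inf_le {L D : Subgroup G} {B : ℕ} (h : (L.subgroupOf D).index ≤ B) :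
    (L ⊓ D).index ≤ B * D.index := by
  have h2 : (L ⊓ D).index = L.relIndex D * D.index := by
    rw [← Subgroup.relIndex_mul_index (inf_le_right : L ⊓ D ≤ D), Subgroup.inf_relIndex_right]
  rw [h2]
  exact Nat.mul_le_mul_right _ h

theorem index_ne_zero_of_le {H K : Subgroup G} (h : H ≤ K) (h0 : H.index ≠ 0) : K.index ≠ 0 := by
  intro h1
  have := Subgroup.index_dvd_of_le h
  rw [h1] at this
  exact h0 (Nat.eq_zero_of_zero_dvd this)

theorem SFCC.inner_bound (h : SFCC G) (hV : ¬ VCyc G) (hSch : SchQ G) :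
    ∃ B : ℕ, ∀ N : Subgroup G, ∀ _ : N.Normal, N.index ≠ 0 → ∀ M : Subgroup (G ⧸ N), NAM M →
      coreBdd G B ≤
        (M ⊔ Subgroup.centralizer (M : Set (G ⧸ N))).comap (QuotientGroup.mk' N) := by
  classical
  obtain ⟨r, a, lam, hsub, hcov'⟩ := id h
  have hcov : Cov a := fun g => by
    obtain ⟨i, k, h, -⟩ := hcov' g
    exact ⟨i, k, h⟩
  set D := coreBdd G (r !) with hD
  have hD0 : D.index ≠ 0 := coreBdd_index_ne_zero hcov _
  have hDfin : D.FiniteIndex := ⟨hD0⟩
  obtain ⟨B₁, hB₁⟩ : ∃ B₁ : ℕ, ∀ N' : Subgroup D, ∀ _ : N'.Normal, N'.index ≠ 0 →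
      Group.IsSolvable (D ⧸ N') → N'.index ≤ B₁ := by
    by_contra! hcon
    apply hV
    refine VCyc.of_subgroup (H := D) ((h.subgroup D).exists_cyclic_quotients_of_solvable ?_)
    intro n
    obtain ⟨N', h1, h2, h3, h4⟩ := hcon n
    exact ⟨N', h1, h2, h4.le, h3⟩
  refine ⟨B₁ * D.index, fun N hN hN0 M hM => ?_⟩
  have hfin : Finite (G ⧸ N) := Nat.finite_of_card_ne_zero hN0
  obtain ⟨S₀, h₀⟩ := exists_isMinNM hM.ne_bot
  have hcovQ : ∀ x : G ⧸ N, ∃ i, ∃ k : ℤ, IsConj x ((QuotientGroup.mk' N) (a i) ^ k) := by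
    intro x
    obtain ⟨x, rfl⟩ := QuotientGroup.mk'_surjective N x
    obtain ⟨i, k, h⟩ := hcov x
    refine ⟨i, k, ?_⟩
    rw [← map_zpow]
    exact (QuotientGroup.mk' N).map_isConj h
  have hcard := card_orbit_le hM.normal hM.min hM.nc h₀ hcovQ
  have hNk : (Nk S₀).index ≤ r ! := (Nk_index_le S₀).trans (Nat.factorial_le hcard)
  have hs := QuotientGroup.mk'_surjective N
  have hDNk : D ≤ (Nk S₀).comap (QuotientGroup.mk' N) := by
    refine coreBdd_le ((Nk_normal S₀).comap _) ?_ ?_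
    · rw [Subgroup.index_comap_of_surjective _ hs]
      exact Subgroup.index_ne_zero_of_finite
    · rw [Subgroup.index_comap_of_surjective _ hs]
      exact hNk
  have := hM.normal
  set L := (M ⊔ Subgroup.centralizer (M : Set (G ⧸ N))).comap (QuotientGroup.mk' N) with hL
  have hLn : L.Normal := Subgroup.Normal.comap inferInstance _
  obtain ⟨n, hn⟩ := exists_derivedSeries_le hM.normal hM.min h₀ hM.nc (hSch N hN hN0)
    ((QuotientGroup.mk' N).comp D.subtype) (fun d => hDNk d.2)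
  have hn' : derivedSeries D n ≤ L.subgroupOf D := hn
  have hL0 : L.index ≠ 0 := by
    rw [hL, Subgroup.index_comap_of_surjective _ hs]
    exact Subgroup.index_ne_zero_of_finite
  have hLD0 : (L.subgroupOf D).index ≠ 0 := by
    intro h0
    have h2 := Subgroup.relIndex_dvd_index_of_normal L D
    rw [Subgroup.relIndex, h0] at h2
    exact hL0 (Nat.eq_zero_of_zero_dvd h2)
  have hsolv : Group.IsSolvable (D ⧸ L.subgroupOf D) := by
    refine ⟨⟨n, ?_⟩⟩
    rw [← map_derivedSeries_eq (QuotientGroup.mk'_surjective (L.subgroupOf D)), eq_bot_iff]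
    rintro _ ⟨d, hd, rfl⟩
    exact Subgroup.mem_bot.2 ((QuotientGroup.eq_one_iff d).2 (hn' hd))
  have h1 := hB₁ (L.subgroupOf D) inferInstance hLD0 hsolv
  have hDn : D.Normal := coreBdd_normal _
  refine (coreBdd_le (N := L ⊓ D) inferInstance (Subgroup.index_inf_ne_zero hL0 hD0)
    (index_inf_le h1)).trans inf_le_left

end Vale.Agent.P216.T1
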