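import Vale.Agent.P216.T1.Simple4

/-!
# A subgroup of finite index centralizing all nonabelian chief factors
-/

set_option linter.all false

open scoped commutatorElement Nat

namespace Vale.Agent.P216.T1

/-- A finite group is not covered by the conjugates of a proper cyclic subgroup. -/
theorem exists_not_isConj_zpow {H : Type*} [Group H] [Finite H] (c : H)
    (hnc : ¬ ∀ x y : H, x * y = y * x) : ∃ y : H, ∀ k : ℤ, ¬ IsConj y (c ^ k) := by
  classical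
  by_contra! hcon
  have := Fintype.ofFinite H
  set A := Subgroup.zpowers c with hA
  have hburn := MulAction.sum_card_fixedBy_eq_card_orbits_mul_card_group H (H ⧸ A)
  have horb : Fintype.card (Quotient (MulAction.orbitRel H (H ⧸ A))) = 1 := by
    rw [Fintype.card_eq_one_iff]
    refine ⟨Quotient.mk'' ((1 : H) : H ⧸ A), fun q => ?_⟩
    induction q using Quotient.inductionOn' with
    | h q =>
      rw [Quotient.eq'', MulAction.orbitRel_apply]
      exact MulAction.exists_smul_eq H _ _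
  rw [horb, one_mul] at hburn
  have hfix : ∀ y : H, 1 ≤ Fintype.card (MulAction.fixedBy (H ⧸ A) y) := by
    intro y
    obtain ⟨k, hk⟩ := hcon y
    obtain ⟨g, hg⟩ := isConj_iff.1 hk.symm
    refine Nat.succ_le_of_lt (Fintype.card_pos_iff.2 ⟨⟨(g : H ⧸ A), ?_⟩⟩)
    rw [MulAction.mem_fixedBy, ← hg]
    change ((g * c ^ k * g⁻¹ * g : H) : H ⧸ A) = (g : H ⧸ A)
    rw [inv_mul_cancel_right, QuotientGroup.eq]
    have : (g * c ^ k)⁻¹ * g = (c ^ k)⁻¹ := by group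
    rw [this]
    exact A.inv_mem (Subgroup.zpow_mem_zpowers _ _)
  have hone : Fintype.card (MulAction.fixedBy (H ⧸ A) (1 : H)) = 1 := by
    by_contra hne
    have h2 : 1 < Fintype.card (MulAction.fixedBy (H ⧸ A) (1 : H)) :=
      lt_of_le_of_ne (hfix 1) (Ne.symm hne)
    have h3 : ∑ y : H, 1 < ∑ y : H, Fintype.card (MulAction.fixedBy (H ⧸ A) y) :=
      Finset.sum_lt_sum (fun y _ => hfix y) ⟨1, Finset.mem_univ _, h2⟩
    rw [hburn] at h3
    simp at h3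
  have htop : A = ⊤ := by
    rw [← Subgroup.index_eq_one, Subgroup.index, Nat.card_eq_fintype_card, ← hone]
    refine Fintype.card_congr ?_
    refine ((Equiv.Set.univ _).symm.trans (Equiv.setCongr ?_))
    ext x
    simp
  apply hnc
  intro x y
  have hx : x ∈ A := by rw [htop]; trivial
  have hy : y ∈ A := by rw [htop]; trivial
  obtain ⟨m, rfl⟩ := hx
  obtain ⟨n, rfl⟩ := hy
  change c ^ m * c ^ n = c ^ n * c ^ m
  rw [← zpow_add, ← zpow_add, add_comm]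

variable {G : Type*} [Group G]

/-- The pull back of the centralizer. -/
def cenG (N : Subgroup G) [N.Normal] (M : Subgroup (G ⧸ N)) : Subgroup G :=
  (Subgroup.centralizer (M : Set (G ⧸ N))).comap (QuotientGroup.mk' N)

theorem cenG_normal (N : Subgroup G) [N.Normal] {M : Subgroup (G ⧸ N)} (hM : M.Normal) :
    (cenG N M).Normal := by
  unfold cenG; infer_instance

theorem mem_cenG {N : Subgroup G} [N.Normal] {M : Subgroup (G ⧸ N)} {x : G} :
    x ∈ cenG N M ↔ ∀ m ∈ M, Commute (x : G ⧸ N) m := by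
  unfold cenG
  rw [Subgroup.mem_comap, Subgroup.mem_centralizer_iff]
  constructor
  · intro h m hm
    exact (h m hm).symm
  · intro h m hm
    exact (h m hm).symm

theorem NAM.center {Q : Type*} [Group Q] {M : Subgroup Q} (h : NAM M) {x : Q} (hx : x ∈ M)
    (hc : ∀ m ∈ M, Commute x m) : x = 1 := by
  have := h.normal
  have hZ : (M ⊓ Subgroup.centralizer (M : Set Q)).Normal := inferInstance
  rcases h.min _ hZ inf_le_left with h1 | h1
  · rw [← Subgroup.mem_bot, ← h1]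
    exact ⟨hx, Subgroup.mem_centralizer_iff.2 fun m hm => (hc m hm).symm⟩
  · exfalso
    apply h.nc
    intro x hx y hy
    rw [← h1] at hx
    exact ((Subgroup.mem_centralizer_iff.1 hx.2) y hy).symm

theorem dichotomy {N : Subgroup G} [N.Normal] {M : Subgroup (G ⧸ N)} (hM : NAM M)
    {U : Subgroup G} (hU : U.Normal) : U ≤ cenG N M ∨ ∀ m ∈ M, ∃ u ∈ U, (u : G ⧸ N) = m := by
  have hM' := hM.normal
  have hUn : (U.map (QuotientGroup.mk' N)).Normal := hU.map _ (QuotientGroup.mk'_surjective N)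
  rcases hM.min (M ⊓ U.map (QuotientGroup.mk' N)) inferInstance inf_le_left with h1 | h1
  · left
    intro u hu
    rw [mem_cenG]
    intro m hm
    have h2 : ⁅(u : G ⧸ N), m⁆ ∈ M ⊓ U.map (QuotientGroup.mk' N) := by
      constructor
      · rw [commutatorElement_def]
        exact M.mul_mem (hM'.conj_mem m hm _) (M.inv_mem hm)
      · have h3 : (u : G ⧸ N) ∈ U.map (QuotientGroup.mk' N) := ⟨u, hu, rfl⟩
        have h4 : ⁅(u : G ⧸ N), m⁆ = u * (m * (u : G ⧸ N)⁻¹ * m⁻¹) := by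
          rw [commutatorElement_def]; group
        rw [h4]
        exact Subgroup.mul_mem _ h3 (hUn.conj_mem _ (Subgroup.inv_mem _ h3) _)
    rw [h1, Subgroup.mem_bot] at h2
    exact commutatorElement_eq_one_iff_commute.1 h2
  · right
    intro m hm
    rw [← h1] at hm
    obtain ⟨u, hu, hum⟩ := hm.2
    exact ⟨u, hu, hum⟩

theorem not_commutator_le {N : Subgroup G} [N.Normal] {M : Subgroup (G ⧸ N)} (hM : NAM M)
    {A B : Subgroup G} (hA : A.Normal) (hB : B.Normal)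
    (h : ∀ a ∈ A, ∀ b ∈ B, ⁅a, b⁆ ∈ cenG N M) : A ≤ cenG N M ∨ B ≤ cenG N M := by
  by_contra! hcon
  have hAM := (dichotomy hM hA).resolve_left hcon.1
  have hBM := (dichotomy hM hB).resolve_left hcon.2
  apply hM.nc
  intro x hx y hy
  obtain ⟨a, ha, rfl⟩ := hAM x hx
  obtain ⟨b, hb, rfl⟩ := hBM y hy
  have h1 := mem_cenG.1 (h a ha b hb)
  rw [mk_commutator] at h1
  have h2 : ⁅(a : G ⧸ N), (b : G ⧸ N)⁆ ∈ M := by
    rw [commutatorElement_def]
    exact M.mul_mem (hM.normal.conj_mem _ hy _) (M.inv_mem hy)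
  exact commutatorElement_eq_one_iff_commute.1 (hM.center h2 h1)

theorem prime_cenG {N : Subgroup G} [N.Normal] {M : Subgroup (G ⧸ N)} (hM : NAM M)
    {A B : Subgroup G} (hA : A.Normal) (hB : B.Normal)
    (h : A ⊓ B ≤ cenG N M) : A ≤ cenG N M ∨ B ≤ cenG N M := by
  refine not_commutator_le hM hA hB fun a ha b hb => h ⟨?_, ?_⟩
  · have : ⁅a, b⁆ = a * (b * a⁻¹ * b⁻¹) := by rw [commutatorElement_def]; group
    rw [this]
    exact A.mul_mem ha (hA.conj_mem _ (A.inv_mem ha) _)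
  · rw [commutatorElement_def]
    exact B.mul_mem (hB.conj_mem _ hb _) (B.inv_mem hb)

theorem maximal_cenG {N : Subgroup G} [N.Normal] {M : Subgroup (G ⧸ N)} (hM : NAM M)
    {G₂ U : Subgroup G} (hU : U.Normal)
    (hG₂ : G₂ ≤ (M ⊔ Subgroup.centralizer (M : Set (G ⧸ N))).comap (QuotientGroup.mk' N))
    (hCU : G₂ ⊓ cenG N M ≤ U) (hUG₂ : U ≤ G₂) (hUC : ¬ U ≤ cenG N M) : G₂ ≤ U := by
  have hM' := hM.normal
  intro g hg
  have h1 := hG₂ hg
  rw [Subgroup.mem_comap, Subgroup.mem_sup_of_normal_left] at h1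
  obtain ⟨m, hm, c, hc, hmc⟩ := h1
  obtain ⟨u, hu, hum⟩ := (dichotomy hM hU).resolve_left hUC m hm
  have h2 : u⁻¹ * g ∈ G₂ ⊓ cenG N M := by
    refine ⟨G₂.mul_mem (G₂.inv_mem (hUG₂ hu)) hg, ?_⟩
    change (QuotientGroup.mk' N) (u⁻¹ * g) ∈ Subgroup.centralizer (M : Set (G ⧸ N))
    rw [map_mul, map_inv, ← hmc]
    have h3 : (QuotientGroup.mk' N) u = m := hum
    rw [h3, inv_mul_cancel_left]
    exact hc
  have h3 := U.mul_mem hu (hCU h2)
  rwa [mul_inv_cancel_left] at h3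

/-- The relative centralizers of the nonabelian chief factors. -/
def IsT (G₂ T : Subgroup G) : Prop :=
  ∃ (N : Subgroup G) (_ : N.Normal) (M : Subgroup (G ⧸ N)), N.index ≠ 0 ∧ NAM M ∧
    G₂ ≤ (M ⊔ Subgroup.centralizer (M : Set (G ⧸ N))).comap (QuotientGroup.mk' N) ∧
    T = G₂ ⊓ cenG N M ∧ ¬ G₂ ≤ cenG N M

section

variable {G₂ : Subgroup G} (hG₂ : G₂.Normal)

theorem IsT.le {T : Subgroup G} (h : IsT G₂ T) : T ≤ G₂ := by
  obtain ⟨N, hN, M, hN0, hM, h1, rfl, h2⟩ := h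
  exact inf_le_left

theorem IsT.not_le {T : Subgroup G} (h : IsT G₂ T) : ¬ G₂ ≤ T := by
  obtain ⟨N, hN, M, hN0, hM, h1, rfl, h2⟩ := h
  exact fun h => h2 (h.trans inf_le_right)

include hG₂

theorem IsT.normal {T : Subgroup G} (h : IsT G₂ T) : T.Normal := by
  obtain ⟨N, hN, M, hN0, hM, h1, rfl, h2⟩ := h
  have := cenG_normal N hM.normal
  infer_instance

theorem cenG_index_ne_zero {N : Subgroup G} [N.Normal] (hN : N.index ≠ 0)
    (M : Subgroup (G ⧸ N)) : (cenG N M).index ≠ 0 := by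
  have hfin : Finite (G ⧸ N) := Nat.finite_of_card_ne_zero hN
  unfold cenG
  rw [Subgroup.index_comap_of_surjective _ (QuotientGroup.mk'_surjective N)]
  exact Subgroup.index_ne_zero_of_finite

theorem IsT.index_ne_zero {T : Subgroup G} (h : IsT G₂ T) (h0 : G₂.index ≠ 0) :
    T.index ≠ 0 := by
  obtain ⟨N, hN, M, hN0, hM, h1, rfl, h2⟩ := h
  exact Subgroup.index_inf_ne_zero h0 (cenG_index_ne_zero hG₂ hN0 M)

theorem IsT.maximal {T : Subgroup G} (h : IsT G₂ T) {U : Subgroup G} (hU : U.Normal)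
    (hTU : T ≤ U) (hUG : U ≤ G₂) (hUT : ¬ U ≤ T) : G₂ ≤ U := by
  obtain ⟨N, hN, M, hN0, hM, h1, rfl, h2⟩ := h
  exact maximal_cenG hM hU h1 hTU hUG fun h => hUT (le_inf hUG h)

theorem IsT.prime {T : Subgroup G} (h : IsT G₂ T) {A B : Subgroup G} (hA : A.Normal)
    (hB : B.Normal) (hAG : A ≤ G₂) (hBG : B ≤ G₂) (hAB : A ⊓ B ≤ T) : A ≤ T ∨ B ≤ T := by
  obtain ⟨N, hN, M, hN0, hM, h1, rfl, h2⟩ := h
  rcases prime_cenG hM hA hB (hAB.trans inf_le_right) with h3 | h3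
  · exact Or.inl (le_inf hAG h3)
  · exact Or.inr (le_inf hBG h3)

theorem IsT.noncomm {T : Subgroup G} (h : IsT G₂ T) : ¬ ∀ a ∈ G₂, ∀ b ∈ G₂, ⁅a, b⁆ ∈ T := by
  obtain ⟨N, hN, M, hN0, hM, h1, rfl, h2⟩ := h
  intro hcon
  rcases not_commutator_le hM hG₂ hG₂ (fun a ha b hb => (hcon a ha b hb).2) with h3 | h3
  · exact h2 h3
  · exact h2 h3

theorem inf_not_le (𝓕 : Finset (Subgroup G)) (h𝓕 : ∀ T ∈ 𝓕, IsT G₂ T) {T : Subgroup G}
    (hT : IsT G₂ T) (hT𝓕 : T ∉ 𝓕) : ¬ (G₂ ⊓ ⨅ T' ∈ 𝓕, T') ≤ T := by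
  classical
  induction 𝓕 using Finset.induction_on with
  | empty => simpa using hT.not_le
  | insert T' 𝓕 hT' ih =>
    intro hcon
    rw [Finset.mem_insert, not_or] at hT𝓕
    have hI : (G₂ ⊓ ⨅ T'' ∈ insert T' 𝓕, T'') = T' ⊓ (G₂ ⊓ ⨅ T'' ∈ 𝓕, T'') := by
      rw [Finset.iInf_insert]; exact inf_left_comm _ _ _
    rw [hI] at hcon
    have hT'T := h𝓕 T' (Finset.mem_insert_self _ _)
    have hn : (G₂ ⊓ ⨅ T'' ∈ 𝓕, T'').Normal := by
      have h1 : (⨅ T'' ∈ 𝓕, T'').Normal :=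
        Subgroup.normal_iInf_normal fun T'' => Subgroup.normal_iInf_normal fun hT'' =>
          (h𝓕 T'' (Finset.mem_insert_of_mem hT'')).normal hG₂
      infer_instance
    rcases hT.prime hG₂ (hT'T.normal hG₂) hn hT'T.le inf_le_left hcon with h1 | h1
    · by_cases h2 : T ≤ T'
      · exact hT𝓕.1 (le_antisymm h2 h1)
      · exact hT.not_le (hT'T.maximal hG₂ (hT.normal hG₂) h1 hT.le h2)
    · exact ih (fun T'' hT'' => h𝓕 T'' (Finset.mem_insert_of_mem hT'')) hT𝓕.2 h1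

theorem crt (𝓕 : Finset (Subgroup G)) (h𝓕 : ∀ T ∈ 𝓕, IsT G₂ T) (y : Subgroup G → G)
    (hy : ∀ T ∈ 𝓕, y T ∈ G₂) : ∃ x ∈ G₂, ∀ T ∈ 𝓕, x⁻¹ * y T ∈ T := by
  classical
  induction 𝓕 using Finset.induction_on with
  | empty => exact ⟨1, G₂.one_mem, by simp⟩
  | insert T 𝓕 hT𝓕 ih =>
    have h𝓕' : ∀ T' ∈ 𝓕, IsT G₂ T' := fun T' hT' => h𝓕 T' (Finset.mem_insert_of_mem hT')
    have hT := h𝓕 T (Finset.mem_insert_self _ _)
    obtain ⟨x, hx, hxy⟩ := ih h𝓕' fun T' hT' => hy T' (Finset.mem_insert_of_mem hT')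
    have hn : (G₂ ⊓ ⨅ T'' ∈ 𝓕, T'').Normal := by
      have h1 : (⨅ T'' ∈ 𝓕, T'').Normal :=
        Subgroup.normal_iInf_normal fun T'' => Subgroup.normal_iInf_normal fun hT'' =>
          (h𝓕' T'' hT'').normal hG₂
      infer_instance
    have hTn := hT.normal hG₂
    have hsup : G₂ ≤ (G₂ ⊓ ⨅ T'' ∈ 𝓕, T'') ⊔ T :=
      hT.maximal hG₂ inferInstance le_sup_right (sup_le inf_le_left hT.le)
        fun h => inf_not_le hG₂ 𝓕 h𝓕' hT hT𝓕 (le_sup_left.trans h)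
    have h1 := hsup (G₂.mul_mem (G₂.inv_mem hx) (hy T (Finset.mem_insert_self _ _)))
    rw [Subgroup.mem_sup_of_normal_left] at h1
    obtain ⟨i, hi, t, ht, hit⟩ := h1
    refine ⟨x * i, G₂.mul_mem hx hi.1, fun T' hT' => ?_⟩
    rw [Finset.mem_insert] at hT'
    rcases hT' with rfl | hT'
    · have : (x * i)⁻¹ * y T' = t := by
        rw [mul_inv_rev, mul_assoc, ← hit, inv_mul_cancel_left]
      rw [this]; exact ht
    · have h2 : i ∈ T' := (inf_le_right.trans (iInf₂_le T' hT') : (G₂ ⊓ ⨅ T'' ∈ 𝓕, T'') ≤ T') hi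
      have : (x * i)⁻¹ * y T' = i⁻¹ * (x⁻¹ * y T') := by group
      rw [this]
      exact T'.mul_mem (T'.inv_mem h2) (hxy T' hT')

theorem isT_card_lt (h0 : G₂.index ≠ 0) {r : ℕ} {c : Fin r → G₂} (hcov : Cov c)
    (𝓕 : Finset (Subgroup G)) (h𝓕 : ∀ T ∈ 𝓕, IsT G₂ T) : 𝓕.card ≠ r := by
  classical
  intro hcard
  let e : 𝓕 ≃ Fin r := 𝓕.equivFinOfCardEq hcard
  have hex : ∀ T : Subgroup G, ∀ hT : T ∈ 𝓕, ∃ y : G₂, ∀ g : G₂, ∀ k : ℤ,
      (y : G)⁻¹ * (g * c (e ⟨T, hT⟩) ^ k * g⁻¹ : G₂) ∉ T := by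
    intro T hT
    have hTT := h𝓕 T hT
    have hTn := hTT.normal hG₂
    have hT'n : (T.subgroupOf G₂).Normal := inferInstance
    have hT0 := hTT.index_ne_zero hG₂ h0
    have hT'0 : (T.subgroupOf G₂).index ≠ 0 := by
      intro h0
      have h2 := Subgroup.relIndex_dvd_index_of_normal T G₂
      rw [Subgroup.relIndex, h0] at h2
      exact hT0 (Nat.eq_zero_of_zero_dvd h2)
    have hfin : Finite (G₂ ⧸ T.subgroupOf G₂) := Nat.finite_of_card_ne_zero hT'0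
    obtain ⟨y, hy⟩ := exists_not_isConj_zpow
      ((c (e ⟨T, hT⟩) : G₂) : G₂ ⧸ T.subgroupOf G₂) (by
        intro hcomm
        apply hTT.noncomm hG₂
        intro a ha b hb
        have h1 := hcomm ((⟨a, ha⟩ : G₂) : G₂ ⧸ T.subgroupOf G₂) ((⟨b, hb⟩ : G₂) : G₂ ⧸ T.subgroupOf G₂)
        exact Subgroup.mem_subgroupOf.1 (commute_mk.1 h1))
    obtain ⟨y, rfl⟩ := QuotientGroup.mk_surjective y
    refine ⟨y, fun g k hgk => hy k ?_⟩
    have h2 : ((y : G₂) : G₂ ⧸ T.subgroupOf G₂) = ((g * c (e ⟨T, hT⟩) ^ k * g⁻¹ : G₂) : G₂ ⧸ T.subgroupOf G₂) := by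
      rw [QuotientGroup.eq, Subgroup.mem_subgroupOf]
      exact hgk
    rw [h2]
    refine IsConj.symm (isConj_iff.2 ⟨(g : G₂ ⧸ T.subgroupOf G₂), rfl⟩)
  choose y hy using hex
  obtain ⟨x, hx, hxy⟩ := crt hG₂ 𝓕 h𝓕 (fun T => if hT : T ∈ 𝓕 then (y T hT : G) else 1)
    (fun T hT => by simp only [hT, dif_pos]; exact (y T hT).2)
  obtain ⟨i, k, hik⟩ := hcov ⟨x, hx⟩
  obtain ⟨g, hg⟩ := isConj_iff.1 hik.symm
  set T := (e.symm i).1 with hT
  have hT𝓕 : T ∈ 𝓕 := (e.symm i).2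
  have h1 := hxy T hT𝓕
  simp only [hT𝓕, dif_pos] at h1
  have hTn := (h𝓕 T hT𝓕).normal hG₂
  have h2 : e ⟨T, hT𝓕⟩ = i := by
    have : (⟨T, hT𝓕⟩ : 𝓕) = e.symm i := Subtype.ext rfl
    rw [this, Equiv.apply_symm_apply]
  apply hy T hT𝓕 g k
  rw [h2, hg]
  have h3 := T.inv_mem h1
  have h4 : (x⁻¹ * (y T hT𝓕 : G))⁻¹ = (y T hT𝓕 : G)⁻¹ * x := by group
  rw [h4] at h3
  exact h3

theorem isT_finite (h0 : G₂.index ≠ 0) {r : ℕ} {c : Fin r → G₂} (hcov : Cov c) :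
    {T : Subgroup G | IsT G₂ T}.Finite := by
  by_contra hinf
  obtain ⟨𝓕, h1, h2⟩ := Set.Infinite.exists_subset_card_eq hinf r
  exact isT_card_lt hG₂ h0 hcov 𝓕 (fun T hT => h1 hT) h2

end

theorem index_iInf_ne_zero (𝓕 : Finset (Subgroup G)) (h : ∀ T ∈ 𝓕, T.index ≠ 0) :
    (⨅ T ∈ 𝓕, T).index ≠ 0 := by
  classical
  induction 𝓕 using Finset.induction_on with
  | empty => simp
  | insert T 𝓕 hT ih =>
    rw [Finset.iInf_insert]
    exact Subgroup.index_inf_ne_zero (h T (Finset.mem_insert_self _ _))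
      (ih fun T' hT' => h T' (Finset.mem_insert_of_mem hT'))

/-- Some subgroup of finite index centralizes all nonabelian chief factors. -/
theorem SFCC.exists_centralizing (h : SFCC G) (hV : ¬ VCyc G) (hSch : SchQ G) :
    ∃ K : Subgroup G, K.Normal ∧ K.index ≠ 0 ∧ ∀ N : Subgroup G, ∀ _ : N.Normal, N.index ≠ 0 →
      ∀ M : Subgroup (G ⧸ N), NAM M → K ≤ cenG N M := by
  classical
  obtain ⟨B, hB⟩ := h.inner_bound hV hSch
  obtain ⟨r, a, lam, hsub, hcov'⟩ := id h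
  have hcov : Cov a := fun g => by
    obtain ⟨i, k, h, -⟩ := hcov' g
    exact ⟨i, k, h⟩
  set G₂ := coreBdd G B with hG₂
  have hG₂n : G₂.Normal := coreBdd_normal _
  have hG₂0 : G₂.index ≠ 0 := coreBdd_index_ne_zero hcov _
  have hG₂fin : G₂.FiniteIndex := ⟨hG₂0⟩
  obtain ⟨r₂, c, lam₂, -, hcov₂'⟩ := h.subgroup G₂
  have hcov₂ : Cov c := fun g => by
    obtain ⟨i, k, h, -⟩ := hcov₂' g
    exact ⟨i, k, h⟩
  have hfin := isT_finite hG₂n hG₂0 hcov₂
  have hmem : ∀ T, T ∈ hfin.toFinset ↔ IsT G₂ T := fun T => by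
    rw [Set.Finite.mem_toFinset, Set.mem_setOf_eq]
  refine ⟨G₂ ⊓ ⨅ T ∈ hfin.toFinset, T, ?_, ?_, ?_⟩
  · have h1 : (⨅ T ∈ hfin.toFinset, T).Normal :=
        Subgroup.normal_iInf_normal fun T => Subgroup.normal_iInf_normal fun hT =>
          ((hmem T).1 hT).normal hG₂n
    infer_instance
  · exact Subgroup.index_inf_ne_zero hG₂0
      (index_iInf_ne_zero _ fun T hT => ((hmem T).1 hT).index_ne_zero hG₂n hG₂0)
  · intro N hN hN0 M hM
    by_cases hle : G₂ ≤ cenG N M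
    · exact inf_le_left.trans hle
    · have hT : IsT G₂ (G₂ ⊓ cenG N M) := ⟨N, hN, M, hN0, hM, hB N hN hN0 M hM, rfl, hle⟩
      exact (inf_le_right.trans (iInf₂_le _ ((hmem _).2 hT))).trans inf_le_right

end Vale.Agent.P216.T1
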