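import Vale.Agent.P216.T1.Simple5
import Mathlib.GroupTheory.ResiduallyFinite

/-!
# All finite quotients, and residually finite groups
-/

set_option linter.all false

open scoped commutatorElement Nat Pointwise

namespace Vale.Agent.P216.T1

variable {G : Type*} [Group G]

/-- A subgroup centralizing all nonabelian chief factors has solvable images. -/
theorem solvable_of_centralizes {K : Subgroup G}
    (hK : ∀ N : Subgroup G, ∀ _ : N.Normal, N.index ≠ 0 → ∀ M : Subgroup (G ⧸ N), NAM M →
      K ≤ cenG N M) :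
    ∀ (n : ℕ) (N : Subgroup G) (hN : N.Normal), N.index ≤ n → N.index ≠ 0 →
      Group.IsSolvable (K ⧸ N.subgroupOf K) := by
  intro n
  induction n with
  | zero => intro N _ h1 h0; exact absurd (Nat.le_zero.1 h1) h0
  | succ n ih =>
    intro N hN hNn hN0
    have hfin : Finite (G ⧸ N) := Nat.finite_of_card_ne_zero hN0
    by_cases htop : N = ⊤
    · subst htop
      have h1 : (⊤ : Subgroup G).subgroupOf K = ⊤ := Subgroup.top_subgroupOf K
      have h2 : Subsingleton (K ⧸ (⊤ : Subgroup G).subgroupOf K) := by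
        rw [h1]; exact QuotientGroup.subsingleton_quotient_top
      exact Group.isSolvable_of_comm fun a b => Subsingleton.elim _ _
    have hnt : Nontrivial (G ⧸ N) := by
      rw [← Finite.one_lt_card_iff_nontrivial]
      have h1 : Nat.card (G ⧸ N) = N.index := rfl
      have h2 : N.index ≠ 1 := fun h => htop (Subgroup.index_eq_one.1 h)
      lia
    obtain ⟨M, hMn, hM0, hmin⟩ := exists_minimal_normal (Q := G ⧸ N)
    set N' := M.comap (QuotientGroup.mk' N) with hN'
    have hN'n : N'.Normal := hMn.comap _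
    have hNN' : N ≤ N' := by
      intro x hx
      rw [hN', Subgroup.mem_comap]
      have : (QuotientGroup.mk' N) x = 1 := (QuotientGroup.eq_one_iff x).2 hx
      rw [this]
      exact M.one_mem
    have hidx : N'.index = M.index :=
      Subgroup.index_comap_of_surjective M (QuotientGroup.mk'_surjective N)
    have hMidx : M.index < N.index := by
      have h1 : Nat.card M * M.index = N.index := Subgroup.card_mul_index M
      have h2 : 1 < Nat.card M := (Subgroup.one_lt_card_iff_ne_bot M).2 hM0
      have h3 : M.index ≠ 0 := Subgroup.index_ne_zero_of_finite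
      have h4 := Nat.pos_of_ne_zero h3
      nlinarith
    have hN'0 : N'.index ≠ 0 := by rw [hidx]; exact Subgroup.index_ne_zero_of_finite
    have hsolv := ih N' hN'n (by lia) hN'0
    have hle : N.subgroupOf K ≤ N'.subgroupOf K := Subgroup.comap_mono hNN'
    let f := QuotientGroup.map (N.subgroupOf K) (N'.subgroupOf K) (MonoidHom.id K) hle
    have hcomm : ∀ x ∈ K, ∀ y ∈ K, x ∈ N' → y ∈ N' → ⁅x, y⁆ ∈ N := by
      intro x hx y hy hx' hy'
      rw [← commute_mk]
      by_cases hab : ∀ x ∈ M, ∀ y ∈ M, Commute x y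
      · exact hab _ hx' _ hy'
      · exact mem_cenG.1 (hK N hN hN0 M ⟨hMn, hmin, hab⟩ hx) _ hy'
    have hker : Group.IsSolvable f.ker := by
      refine Group.isSolvable_of_comm ?_
      rintro ⟨x, hx⟩ ⟨y, hy⟩
      obtain ⟨x, rfl⟩ := QuotientGroup.mk_surjective x
      obtain ⟨y, rfl⟩ := QuotientGroup.mk_surjective y
      rw [MonoidHom.mem_ker] at hx hy
      have hxN' : x ∈ N'.subgroupOf K := (QuotientGroup.eq_one_iff x).1 hx
      have hyN' : y ∈ N'.subgroupOf K := (QuotientGroup.eq_one_iff y).1 hy
      have h1 : ⁅x, y⁆ ∈ N.subgroupOf K := by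
        rw [Subgroup.mem_subgroupOf]
        exact hcomm x.1 x.2 y.1 y.2 hxN' hyN'
      exact Subtype.ext (commute_mk.2 h1).eq
    exact Group.isSolvable_of_ker_le_range f.ker.subtype f (by rw [Subgroup.range_subtype])

/-- **Unbounded finite quotients.** -/
theorem SFCC.exists_cyclic_quotients_of_schreier (h : SFCC G) (hSch : SchQ G)
    (hunb : ∀ n : ℕ, ∃ N : Subgroup G, ∃ _ : N.Normal, N.index ≠ 0 ∧ n ≤ N.index) :
    VCyc G := by
  by_contra hV
  obtain ⟨K, hKn, hK0, hK⟩ := h.exists_centralizing hV hSch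
  have hKf : K.FiniteIndex := ⟨hK0⟩
  apply hV
  refine VCyc.of_subgroup (H := K) ((h.subgroup K).exists_cyclic_quotients_of_solvable ?_)
  intro n
  obtain ⟨N, hN, hN0, hn⟩ := hunb (n * K.index)
  refine ⟨N.subgroupOf K, inferInstance, ?_, ?_,
    solvable_of_centralizes hK N.index N hN le_rfl hN0⟩
  · intro h0
    have h2 := Subgroup.relIndex_dvd_index_of_normal N K
    rw [Subgroup.relIndex, h0] at h2
    exact hN0 (Nat.eq_zero_of_zero_dvd h2)
  · have h2 : (N ⊓ K).index = (N.subgroupOf K).index * K.index := by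
      rw [← Subgroup.relIndex_mul_index (inf_le_right : N ⊓ K ≤ K), Subgroup.inf_relIndex_right,
        Subgroup.relIndex]
    have h3 : N.index ≤ (N ⊓ K).index := by
      refine Nat.le_of_dvd (Nat.pos_of_ne_zero ?_) (Subgroup.index_dvd_of_le inf_le_left)
      exact Subgroup.index_inf_ne_zero hN0 hK0
    rw [h2] at h3
    exact Nat.le_of_mul_le_mul_right (hn.trans h3) (Nat.pos_of_ne_zero hK0)

/-- A residually finite group with the strong covering property and all of whose finite quotients
are virtually cyclic in a uniform way is virtually cyclic. -/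
theorem SFCC.exists_zpowers_finiteIndex (h : SFCC G) (hRF : Group.ResiduallyFinite G)
    (hSch : SchQ G) : ∃ g : G, (Subgroup.zpowers g).FiniteIndex := by
  classical
  have hRF' : ∀ g : G, (∀ N : Subgroup G, N.Normal → N.index ≠ 0 → g ∈ N) → g = 1 := by
    intro g hg
    refine Group.eq_one_iff_forall_finiteIndexNormalSubroup g fun H => ?_
    exact hg H.toSubgroup H.isNormal' H.isFiniteIndex'.index_ne_zero
  by_cases hunb : ∀ n : ℕ, ∃ N : Subgroup G, ∃ _ : N.Normal, N.index ≠ 0 ∧ n ≤ N.index
  · obtain ⟨K, hKf, hK⟩ := h.exists_cyclic_quotients_of_schreier hSch hunb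
    have hcomm : ∀ x y : K, x * y = y * x := by
      intro x y
      rw [← commutatorElement_eq_one_iff_mul_comm]
      apply Subtype.ext
      refine hRF' _ fun N hN hN0 => ?_
      have hNK0 : (N.subgroupOf K).index ≠ 0 := by
        intro h0
        have h2 := Subgroup.relIndex_dvd_index_of_normal N K
        rw [Subgroup.relIndex, h0] at h2
        exact hN0 (Nat.eq_zero_of_zero_dvd h2)
      have hcyc := hK (N.subgroupOf K) ⟨hNK0⟩
      have h1 : Commute ((x : K) : K ⧸ N.subgroupOf K) (y : K ⧸ N.subgroupOf K) := by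
        obtain ⟨g, hg⟩ := hcyc.exists_zpow_surjective
        obtain ⟨m, hm⟩ := hg (x : K ⧸ N.subgroupOf K)
        obtain ⟨n, hn⟩ := hg (y : K ⧸ N.subgroupOf K)
        simp only at hm hn
        rw [← hm, ← hn]
        exact (Commute.refl g).zpow_zpow m n
      exact Subgroup.mem_subgroupOf.1 (commute_mk.1 h1)
    obtain ⟨r, a, lam, -, hcov⟩ := h.subgroup K
    have hcov' : ⋃ b ∈ Finset.univ.image a, (1 : K) • (Subgroup.zpowers b : Set K) =
        Set.univ := by
      rw [Set.eq_univ_iff_forall]
      intro x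
      obtain ⟨i, k, hik, -⟩ := hcov x
      obtain ⟨c, hc⟩ := isConj_iff.1 hik
      rw [Set.mem_iUnion₂]
      refine ⟨a i, Finset.mem_image_of_mem _ (Finset.mem_univ i), ?_⟩
      rw [one_smul]
      refine ⟨k, ?_⟩
      change a i ^ k = x
      rw [← hc, hcomm c x, mul_inv_cancel_right]
    obtain ⟨b, -, hb⟩ := Subgroup.exists_finiteIndex_of_leftCoset_cover
      (g := fun _ : K => (1 : K)) (H := fun b : K => Subgroup.zpowers b) hcov'
    refine ⟨b, ⟨?_⟩⟩
    have h1 : Subgroup.zpowers (b : G) = (Subgroup.zpowers b).map K.subtype := by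
      rw [MonoidHom.map_zpowers]; rfl
    rw [h1, Subgroup.index_map_subtype]
    exact mul_ne_zero hb.index_ne_zero hKf.index_ne_zero
  · push Not at hunb
    obtain ⟨n, hn⟩ := hunb
    obtain ⟨r, a, lam, hsub, hcov'⟩ := id h
    have hcov : Cov a := fun g => by
      obtain ⟨i, k, h, -⟩ := hcov' g
      exact ⟨i, k, h⟩
    have h0 := coreBdd_index_ne_zero hcov n
    have hbot : coreBdd G n = ⊥ := by
      rw [eq_bot_iff]
      intro g hg
      refine Subgroup.mem_bot.2 (hRF' g fun N hN hN0 => ?_)
      exact coreBdd_le hN hN0 (hn N hN hN0).le hg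
    refine ⟨1, ⟨?_⟩⟩
    rw [Subgroup.zpowers_one_eq_bot, ← hbot]
    exact h0

end Vale.Agent.P216.T1
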